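import Vale.Agent.P259.Defs

/-!
# Cells of globular sums, truncation, and the initial globular extension
-/

namespace Vale.Agent.P259

open Vale.Agent.P259.Tree

namespace GlobMap

/-- A map out of a disc, shifted up by one dimension. -/
def discShift {n : ℕ} {X : GlobSet} (φ : GlobMap (disc (n + 1)).glob X) :
    GlobMap (disc n).glob X.shift where
  app m c := φ.app (m + 1) (Sum.inl c)
  comm_s m c := φ.comm_s (m + 1) (Sum.inl c)
  comm_t m c := φ.comm_t (m + 1) (Sum.inl c)

theorem disc_app : ∀ (n : ℕ) {X : GlobSet} (φ : GlobMap (disc n).glob X) (m : ℕ)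
    (c : Cell (disc n) m), φ.app m c = classify X n (φ.app n (top n)) m c
  | 0, _, _, 0, _ => rfl
  | 0, _, _, _ + 1, c => nomatch c
  | n + 1, X, φ, 0, none => by
    have h := disc_app n φ.discShift 0 (disc n).first
    exact ((φ.comm_s 0 (Sum.inl (disc n).first)).symm.trans (congrArg (X.s 0) h))
  | n + 1, X, φ, 0, some u => by
    have h := disc_app n φ.discShift 0 (disc n).first
    exact ((φ.comm_t 0 (Sum.inl (disc n).first)).symm.trans (congrArg (X.t 0) h))
  | n + 1, _, φ, m + 1, Sum.inl c => disc_app n φ.discShift m c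
  | _ + 1, _, _, _ + 1, Sum.inr c => nomatch c

theorem disc_ext {n : ℕ} {X : GlobSet} {φ ψ : GlobMap (disc n).glob X}
    (h : φ.app n (top n) = ψ.app n (top n)) : φ = ψ := by
  refine GlobMap.ext (funext fun m => funext fun c => ?_)
  rw [disc_app n φ m c, disc_app n ψ m c, h]

end GlobMap

theorem classify_top : ∀ (X : GlobSet) (n : ℕ) (x : X.cell n),
    classify X n x n (Tree.top n) = x
  | _, 0, _ => rfl
  | X, n + 1, x => classify_top X.shift n x

theorem cellGlob_comp {S T : Tree} {n : ℕ} (c : S.Cell n) (θ : GlobMap S.glob T.glob) :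
    (cellGlob c).comp θ = cellGlob (θ.app n c) :=
  GlobMap.disc_ext ((congrArg (θ.app n) (classify_top S.glob n c)).trans
    (classify_top T.glob n _).symm)

theorem cellGlob_top (n : ℕ) : cellGlob (top n) = GlobMap.id (disc n).glob :=
  GlobMap.disc_ext (classify_top _ n _)

theorem σG_comp_cellGlob {S : Tree} {n : ℕ} (c : S.Cell (n + 1)) :
    (σG n).comp (cellGlob c) = cellGlob (S.src n c) := by
  refine (cellGlob_comp _ _).trans (congrArg cellGlob ?_)
  exact ((cellGlob c).comm_s n (top (n + 1))).symm.trans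
    (congrArg (S.src n) (classify_top S.glob (n + 1) c))

theorem τG_comp_cellGlob {S : Tree} {n : ℕ} (c : S.Cell (n + 1)) :
    (τG n).comp (cellGlob c) = cellGlob (S.tgt n c) := by
  refine (cellGlob_comp _ _).trans (congrArg cellGlob ?_)
  exact ((cellGlob c).comm_t n (top (n + 1))).symm.trans
    (congrArg (S.tgt n) (classify_top S.glob (n + 1) c))

/-- Compatible families of maps out of discs glue uniquely to a globular map. -/
theorem globMap_glue {S T : Tree} (f : ∀ n, S.Cell n → GlobMap (disc n).glob T.glob)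
    (hs : ∀ n c, (σG n).comp (f (n + 1) c) = f n (S.src n c))
    (ht : ∀ n c, (τG n).comp (f (n + 1) c) = f n (S.tgt n c)) :
    ∃! g : GlobMap S.glob T.glob, ∀ n (c : S.Cell n), (cellGlob c).comp g = f n c := by
  have e : ∀ (n : ℕ) (x : (disc (n + 1)).Cell n) (φ : GlobMap (disc (n + 1)).glob T.glob),
      ((cellGlob x).comp φ).app n (top n) = φ.app n x := fun n x φ =>
    congrArg (φ.app n) (classify_top (disc (n + 1)).glob n x)
  refine ⟨⟨fun n c => (f n c).app n (top n), ?_, ?_⟩, fun n c => ?_, fun g hg => ?_⟩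
  · intro n c
    refine Eq.trans ?_ (congrArg (fun φ => GlobMap.app φ n (top n)) (hs n c))
    exact ((f (n + 1) c).comm_s n (top (n + 1))).trans (e n _ _).symm
  · intro n c
    refine Eq.trans ?_ (congrArg (fun φ => GlobMap.app φ n (top n)) (ht n c))
    exact ((f (n + 1) c).comm_t n (top (n + 1))).trans (e n _ _).symm
  · rw [cellGlob_comp]
    exact GlobMap.disc_ext (classify_top T.glob n _)
  · refine GlobMap.ext (funext fun n => funext fun c => ?_)
    show g.app n c = (f n c).app n (top n)
    rw [← hg n c]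
    exact (congrArg (g.app n) (classify_top S.glob n c)).symm

/-- The category of globular sums as a globular extension. -/
def thetaZero : GlobExt where
  Hom S T := GlobMap S.glob T.glob
  id S := GlobMap.id S.glob
  comp f g := f.comp g
  id_comp _ := rfl
  comp_id _ := rfl
  assoc _ _ _ := rfl
  emb f := f
  emb_id _ := rfl
  emb_comp _ _ := rfl
  glue f hs ht := globMap_glue f hs ht

namespace GlobExt

variable (C : GlobExt)

theorem emb_cell_comp {S T : Tree} {n : ℕ} (c : S.Cell n) (θ : GlobMap S.glob T.glob) :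
    C.comp (C.emb (cellGlob c)) (C.emb θ) = C.emb (cellGlob (θ.app n c)) := by
  rw [← C.emb_comp, cellGlob_comp]

theorem σ_cell {S : Tree} {n : ℕ} (c : S.Cell (n + 1)) :
    C.comp (C.emb (σG n)) (C.emb (cellGlob c)) = C.emb (cellGlob (S.src n c)) := by
  rw [← C.emb_comp, σG_comp_cellGlob]

theorem τ_cell {S : Tree} {n : ℕ} (c : S.Cell (n + 1)) :
    C.comp (C.emb (τG n)) (C.emb (cellGlob c)) = C.emb (cellGlob (S.tgt n c)) := by
  rw [← C.emb_comp, τG_comp_cellGlob]

/-- Maps out of a globular sum are determined by their restrictions to cells. -/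
theorem ext_cells {S T : Tree} {a b : C.Hom S T}
    (h : ∀ n (c : S.Cell n),
      C.comp (C.emb (cellGlob c)) a = C.comp (C.emb (cellGlob c)) b) : a = b :=
  (C.glue (fun _ c => C.comp (C.emb (cellGlob c)) b)
    (fun _ c => by rw [← C.assoc, C.σ_cell]) (fun _ c => by rw [← C.assoc, C.τ_cell])).unique
    h (fun _ _ => rfl)

end GlobExt

namespace Tree

theorem le_dim : ∀ (S : Tree) {n : ℕ}, S.Cell n → n ≤ S.dim
  | _, 0, _ => Nat.zero_le _
  | nil, _ + 1, c => nomatch c
  | cons h _, _ + 1, Sum.inl c =>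
    le_max_of_le_left (Nat.succ_le_succ (le_dim h c))
  | cons _ t, _ + 1, Sum.inr c => le_max_of_le_right (le_dim t c)

/-- A bound for a function on the finitely many cells of a globular sum. -/
theorem exists_bound : ∀ (S : Tree) (v : ∀ n, S.Cell n → ℕ), ∃ K, ∀ n c, v n c ≤ K
  | nil, v => ⟨v 0 (), fun n c => by
      cases n with
      | zero => exact le_rfl
      | succ n => exact nomatch c⟩
  | cons h t, v => by
    obtain ⟨a, ha⟩ := exists_bound h (fun n c => v (n + 1) (Sum.inl c))
    obtain ⟨b, hb⟩ := exists_bound t (fun n => match n with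
      | 0 => fun c => v 0 (some c)
      | n + 1 => fun c => v (n + 1) (Sum.inr c))
    refine ⟨max (v 0 none) (max a b), fun n c => ?_⟩
    match n, c with
    | 0, none => exact le_max_left _ _
    | 0, some c => exact le_max_of_le_right (le_max_of_le_right (hb 0 c))
    | n + 1, Sum.inl c => exact le_max_of_le_right (le_max_of_le_left (ha n c))
    | n + 1, Sum.inr c => exact le_max_of_le_right (le_max_of_le_right (hb (n + 1) c))

theorem disc_top_unique : ∀ (n : ℕ) (c : (disc n).Cell n), c = top n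
  | 0, _ => rfl
  | n + 1, Sum.inl c => congrArg Sum.inl (disc_top_unique n c)
  | _ + 1, Sum.inr c => nomatch c

/-- A cell of a disc below the top is a source or a target. -/
theorem disc_cell_face : ∀ (N m : ℕ), m < N → ∀ c : (disc N).Cell m,
    ∃ d : (disc N).Cell (m + 1), (disc N).src m d = c ∨ (disc N).tgt m d = c
  | 0, _, h, _ => absurd h (Nat.not_lt_zero _)
  | N + 1, 0, _, none => ⟨Sum.inl (disc N).first, Or.inl rfl⟩
  | N + 1, 0, _, some _ => ⟨Sum.inl (disc N).first, Or.inr rfl⟩
  | N + 1, m + 1, h, Sum.inl c => by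
    obtain ⟨d, hd | hd⟩ := disc_cell_face N m (Nat.lt_of_succ_lt_succ h) c
    · exact ⟨Sum.inl d, Or.inl (congrArg Sum.inl hd)⟩
    · exact ⟨Sum.inl d, Or.inr (congrArg Sum.inl hd)⟩
  | _ + 1, _ + 1, _, Sum.inr c => nomatch c

/-- Truncation at height `N`. -/
def trunc : ℕ → Tree → Tree
  | 0, nil => nil
  | 0, cons _ _ => nil
  | _ + 1, nil => nil
  | N + 1, cons h t => cons (trunc N h) (trunc (N + 1) t)

theorem dim_trunc : ∀ (N : ℕ) (S : Tree), (trunc N S).dim ≤ N
  | 0, nil => le_rfl
  | 0, cons _ _ => le_rfl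
  | _ + 1, nil => Nat.zero_le _
  | N + 1, cons h t => max_le (Nat.succ_le_succ (dim_trunc N h)) (dim_trunc (N + 1) t)

/-- The inclusion of the truncation. -/
def truncApp : (N : ℕ) → (S : Tree) → (n : ℕ) → (trunc N S).Cell n → S.Cell n
  | 0, nil, _, c => c
  | 0, cons _ _, 0, _ => none
  | 0, cons _ _, _ + 1, c => nomatch c
  | _ + 1, nil, _, c => c
  | _ + 1, cons _ _, 0, none => none
  | N + 1, cons _ t, 0, some c => some (truncApp (N + 1) t 0 c)
  | N + 1, cons h _, n + 1, Sum.inl c => Sum.inl (truncApp N h n c)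
  | N + 1, cons _ t, n + 1, Sum.inr c => Sum.inr (truncApp (N + 1) t (n + 1) c)

theorem truncApp_first : ∀ (N : ℕ) (S : Tree), truncApp N S 0 (trunc N S).first = S.first
  | 0, nil => rfl
  | 0, cons _ _ => rfl
  | _ + 1, nil => rfl
  | _ + 1, cons _ _ => rfl

theorem truncApp_src : ∀ (N : ℕ) (S : Tree) (n : ℕ) (c : (trunc N S).Cell (n + 1)),
    S.src n (truncApp N S (n + 1) c) = truncApp N S n ((trunc N S).src n c)
  | 0, nil, _, c => nomatch c
  | 0, cons _ _, _, c => nomatch c
  | _ + 1, nil, _, c => nomatch c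
  | _ + 1, cons _ _, 0, Sum.inl _ => rfl
  | N + 1, cons _ t, 0, Sum.inr c => congrArg some (truncApp_src (N + 1) t 0 c)
  | N + 1, cons h _, n + 1, Sum.inl c => congrArg Sum.inl (truncApp_src N h n c)
  | N + 1, cons _ t, n + 1, Sum.inr c => congrArg Sum.inr (truncApp_src (N + 1) t (n + 1) c)

theorem truncApp_tgt : ∀ (N : ℕ) (S : Tree) (n : ℕ) (c : (trunc N S).Cell (n + 1)),
    S.tgt n (truncApp N S (n + 1) c) = truncApp N S n ((trunc N S).tgt n c)
  | 0, nil, _, c => nomatch c
  | 0, cons _ _, _, c => nomatch c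
  | _ + 1, nil, _, c => nomatch c
  | N + 1, cons _ t, 0, Sum.inl _ => congrArg some (truncApp_first (N + 1) t).symm
  | N + 1, cons _ t, 0, Sum.inr c => congrArg some (truncApp_tgt (N + 1) t 0 c)
  | N + 1, cons h _, n + 1, Sum.inl c => congrArg Sum.inl (truncApp_tgt N h n c)
  | N + 1, cons _ t, n + 1, Sum.inr c => congrArg Sum.inr (truncApp_tgt (N + 1) t (n + 1) c)

/-- The inclusion of the truncation as a globular map. -/
def truncIncl (N : ℕ) (S : Tree) : GlobMap (trunc N S).glob S.glob :=
  ⟨truncApp N S, truncApp_src N S, truncApp_tgt N S⟩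

theorem truncApp_bijective : ∀ (N : ℕ) (S : Tree) (n : ℕ), n < N →
    Function.Bijective (truncApp N S n)
  | 0, _, _, h => absurd h (Nat.not_lt_zero _)
  | _ + 1, nil, _, _ => Function.bijective_id
  | N + 1, cons _ t, 0, h => by
    obtain ⟨hi, hsj⟩ := truncApp_bijective (N + 1) t 0 h
    constructor
    · rintro (_ | a) (_ | b) hab
      · rfl
      · exact absurd hab (Option.some_ne_none _).symm
      · exact absurd hab (Option.some_ne_none _)
      · exact congrArg some (hi (Option.some.inj hab))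
    · rintro (_ | b)
      · exact ⟨none, rfl⟩
      · obtain ⟨a, rfl⟩ := hsj b
        exact ⟨some a, rfl⟩
  | N + 1, cons h t, n + 1, hn => by
    obtain ⟨hi, hsj⟩ := truncApp_bijective N h n (Nat.lt_of_succ_lt_succ hn)
    obtain ⟨hi', hsj'⟩ := truncApp_bijective (N + 1) t (n + 1) hn
    constructor
    · rintro (a | a) (b | b) hab
      · exact congrArg Sum.inl (hi (Sum.inl.inj hab))
      · exact absurd hab Sum.inl_ne_inr
      · exact absurd hab Sum.inr_ne_inl
      · exact congrArg Sum.inr (hi' (Sum.inr.inj hab))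
    · rintro (b | b)
      · obtain ⟨a, rfl⟩ := hsj b
        exact ⟨Sum.inl a, rfl⟩
      · obtain ⟨a, rfl⟩ := hsj' b
        exact ⟨Sum.inr a, rfl⟩

end Tree

end Vale.Agent.P259
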