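import Vale.Agent.P259.Strings
import Vale.Agent.P259.ExistenceCells
import Mathlib.Topology.Category.TopCat.Basic

/-!
# Groupoids over a globular extension: globular sets of cells, representables, categories of elements
-/

noncomputable section

namespace Vale.Agent.P259

open CategoryTheory

@[ext]
theorem GlobMap.ext' {X Y : GlobSet} {f g : GlobMap X Y} (h : ∀ n c, f.app n c = g.app n c) :
    f = g :=
  GlobMap.ext (funext fun n => funext (h n))

instance : Category GlobSet where
  Hom X Y := GlobMap X Y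
  id X := GlobMap.id X
  comp f g := f.comp g

variable {C : GlobExt}

theorem σG_comp_σG (n : ℕ) : (σG n).comp (σG (n + 1)) = (σG n).comp (τG (n + 1)) := by
  show (σG n).comp (Tree.cellGlob _) = (σG n).comp (Tree.cellGlob _)
  rw [σG_comp_cellGlob, σG_comp_cellGlob, Tree.src_src]

theorem τG_comp_σG (n : ℕ) : (τG n).comp (σG (n + 1)) = (τG n).comp (τG (n + 1)) := by
  show (τG n).comp (Tree.cellGlob _) = (τG n).comp (Tree.cellGlob _)
  rw [τG_comp_cellGlob, τG_comp_cellGlob, Tree.tgt_tgt]

namespace GlobExt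

theorem σσ (n : ℕ) : C.comp (C.σ n) (C.σ (n + 1)) = C.comp (C.σ n) (C.τ (n + 1)) := by
  rw [σ, σ, τ, ← C.emb_comp, ← C.emb_comp, σG_comp_σG]

theorem ττ (n : ℕ) : C.comp (C.τ n) (C.σ (n + 1)) = C.comp (C.τ n) (C.τ (n + 1)) := by
  rw [τ, σ, τ, ← C.emb_comp, ← C.emb_comp, τG_comp_σG]

end GlobExt

namespace Gpd

@[simp] theorem comp_app {X Y Z : Gpd C} (f : X ⟶ Y) (g : Y ⟶ Z) (S : Tree) (x : X.obj S) :
    (f ≫ g).app S x = g.app S (f.app S x) := rfl

@[simp] theorem id_app (X : Gpd C) (S : Tree) (x : X.obj S) : (𝟙 X : X ⟶ X).app S x = x := rfl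

theorem hom_ext' {X Y : Gpd C} {f g : X ⟶ Y} (h : ∀ S x, f.app S x = g.app S x) : f = g :=
  Hom.ext (funext fun S => funext (h S))

/-- The globular set of cells. -/
def glob (X : Gpd C) : GlobSet where
  cell n := X.obj (Tree.disc n)
  s n x := X.map (C.σ n) x
  t n x := X.map (C.τ n) x
  ss n x := by rw [← X.map_comp, ← X.map_comp, GlobExt.σσ]
  tt n x := by rw [← X.map_comp, ← X.map_comp, GlobExt.ττ]

/-- The map of globular sets of a morphism. -/
def globMap {X Y : Gpd C} (f : X ⟶ Y) : GlobMap X.glob Y.glob where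
  app n x := f.app _ x
  comm_s n x := (f.natural (C.σ n) x).symm
  comm_t n x := (f.natural (C.τ n) x).symm

variable (C) in
/-- The functor of underlying globular sets. -/
def globF : Gpd C ⥤ GlobSet where
  obj := glob
  map := globMap

/-- The map into discs sends identity cells to degenerate discs, up to a cell. -/
def IdCompat (hC : C.Contractible) {X : Gpd C} {A : Type} [TopologicalSpace A]
    (θ : GlobMap X.glob (discs A)) : Prop :=
  ∀ (n : ℕ) (a : X.cell n), (discs A).Rel (n + 1) (θ.app (n + 1) (X.map (idLift hC n) a))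
    (ContinuousMap.comp (θ.app n a) proj)

variable (C) in
/-- The representable groupoid of a globular sum. -/
@[reducible] def rep (T : Tree) : Gpd C where
  obj S := C.Hom S T
  map f x := C.comp f x
  map_id x := C.id_comp x
  map_comp f g x := C.assoc f g x
  segal a h₁ h₂ := C.glue a h₁ h₂

/-- The morphism classifying an element. -/
def yoneda {X : Gpd C} {T : Tree} (x : X.obj T) : rep C T ⟶ X where
  app _ f := X.map f x
  natural f g := X.map_comp f g x

@[simp] theorem yoneda_id {X : Gpd C} {T : Tree} (x : X.obj T) :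
    (yoneda x).app T (C.id T) = x := X.map_id x

theorem rep_hom_ext {X : Gpd C} {T : Tree} {f g : rep C T ⟶ X}
    (h : f.app T (C.id T) = g.app T (C.id T)) : f = g := by
  refine hom_ext' fun S x => ?_
  have hx : (rep C T).map x (C.id T) = x := C.comp_id x
  rw [← hx, f.natural, g.natural, h]

theorem yoneda_comp {X Y : Gpd C} {T : Tree} (x : X.obj T) (f : X ⟶ Y) :
    yoneda x ≫ f = yoneda (f.app T x) :=
  rep_hom_ext ((congrArg (f.app T) (yoneda_id x)).trans (yoneda_id (f.app T x)).symm)

/-- An element of a groupoid. -/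
structure El (X : Gpd C) where
  S : Tree
  a : X.obj S

namespace El

variable {X Y Z : Gpd C}

instance : Category (El X) where
  Hom p q := {f : C.Hom p.S q.S // X.map f q.a = p.a}
  id p := ⟨C.id _, X.map_id _⟩
  comp {p q r} f g := ⟨C.comp f.1 g.1, by rw [X.map_comp, g.2, f.2]⟩
  id_comp f := Subtype.ext (C.id_comp _)
  comp_id f := Subtype.ext (C.comp_id _)
  assoc f g h := Subtype.ext (C.assoc _ _ _)

theorem hom_ext {p q : El X} {f g : p ⟶ q} (h : f.1 = g.1) : f = g := Subtype.ext h

/-- The functor of categories of elements of a morphism. -/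
def map (φ : X ⟶ Y) : El X ⥤ El Y where
  obj p := ⟨p.S, φ.app p.S p.a⟩
  map {p q} f := ⟨f.1, (φ.natural f.1 q.a).symm.trans (congrArg (φ.app p.S) f.2)⟩

theorem map_id (X : Gpd C) : map (𝟙 X) = 𝟭 (El X) := rfl

theorem map_comp (f : X ⟶ Y) (g : Y ⟶ Z) : map (f ≫ g) = map f ⋙ map g := rfl

/-- The identity element of a representable. -/
abbrev top (T : Tree) : El (rep C T) := ⟨T, C.id T⟩

/-- The identity element is terminal. -/
def toTop (T : Tree) : 𝟭 (El (rep C T)) ⟶ (Functor.const _).obj (top T) where
  app p := ⟨p.a, C.comp_id p.a⟩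
  naturality p q f := by
    refine hom_ext ?_
    show C.comp f.1 q.a = C.comp p.a (C.id T)
    rw [C.comp_id]
    exact f.2

instance (T : Tree) : Nonempty (El (rep C T)) := ⟨top T⟩

theorem trivial_rep (T : Tree) (n : ℕ) : TrivialUpTo n (Str (El (rep C T))) :=
  trivial_of_terminal (top T) (toTop T) n

end El

variable (C) in
/-- The space of strings of elements. -/
def strF : Gpd C ⥤ TopCat.{0} where
  obj X := TopCat.of (Str (El X))
  map φ := TopCat.ofHom (strMap (El.map φ))

end Gpd

end Vale.Agent.P259
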