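import Vale.Agent.P259.ThetaReal
import Mathlib.CategoryTheory.Localization.Predicate

/-!
# The equivalence of localizations from the two comparisons
-/

noncomputable section

namespace Vale.Agent.P259

open CategoryTheory

variable (K : Coherator) (D : DiscFunctor K.colim)

theorem inverts_piInfty :
    weakHomotopyEquivs.IsInvertedBy (D.PiInfty ⋙ (Gpd.weakEquivs K.contractible).Q) :=
  fun _ _ f hf =>
    (Gpd.weakEquivs K.contractible).Q_inverts (D.PiInfty.map f)
      (DiscFunctor.preserves_weakEquiv K D f hf)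

theorem inverts_FR :
    (Gpd.weakEquivs K.contractible).IsInvertedBy (FR K.colim ⋙ weakHomotopyEquivs.Q) :=
  fun _ _ f hf => weakHomotopyEquivs.Q_inverts ((FR K.colim).map f) (preserves_weakEquiv_FR K f hf)

/-- The two comparisons give an equivalence of localizations. -/
theorem isEquivalence_lift
    (i : FR K.colim ⋙ D.PiInfty ⋙ (Gpd.weakEquivs K.contractible).Q ≅
      (Gpd.weakEquivs K.contractible).Q)
    (ε : D.PiInfty ⋙ FR K.colim ⟶ 𝟭 CGTop)
    (hε : ∀ Y, weakHomotopyEquivs (ε.app Y)) :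
    (Localization.Construction.lift _ (inverts_piInfty K D)).IsEquivalence := by
  let W := Gpd.weakEquivs K.contractible
  let P := Localization.Construction.lift (D.PiInfty ⋙ W.Q) (inverts_piInfty K D)
  let F := Localization.Construction.lift (FR K.colim ⋙ weakHomotopyEquivs.Q) (inverts_FR K)
  have eP : weakHomotopyEquivs.Q ⋙ P = D.PiInfty ⋙ W.Q := Localization.Construction.fac _ _
  have eF : W.Q ⋙ F = FR K.colim ⋙ weakHomotopyEquivs.Q := Localization.Construction.fac _ _
  let j : (D.PiInfty ⋙ FR K.colim) ⋙ weakHomotopyEquivs.Q ≅ 𝟭 CGTop ⋙ weakHomotopyEquivs.Q :=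
    haveI : ∀ Y, IsIso ((Functor.whiskerRight ε weakHomotopyEquivs.Q).app Y) := fun Y =>
      weakHomotopyEquivs.Q_inverts (ε.app Y) (hε Y)
    haveI : IsIso (Functor.whiskerRight ε weakHomotopyEquivs.Q) := NatIso.isIso_of_isIso_app _
    asIso (Functor.whiskerRight ε weakHomotopyEquivs.Q)
  let u : weakHomotopyEquivs.Q ⋙ P ⋙ F ≅ weakHomotopyEquivs.Q :=
    (Functor.associator _ _ _).symm ≪≫ Functor.isoWhiskerRight (eqToIso eP) F ≪≫
      Functor.associator _ _ _ ≪≫ Functor.isoWhiskerLeft D.PiInfty (eqToIso eF) ≪≫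
      (Functor.associator _ _ _).symm ≪≫ j ≪≫ Functor.leftUnitor _
  let v : W.Q ⋙ F ⋙ P ≅ W.Q :=
    (Functor.associator _ _ _).symm ≪≫ Functor.isoWhiskerRight (eqToIso eF) P ≪≫
      Functor.associator _ _ _ ≪≫ Functor.isoWhiskerLeft (FR K.colim) (eqToIso eP) ≪≫ i
  haveI : Localization.Lifting weakHomotopyEquivs.Q weakHomotopyEquivs
      weakHomotopyEquivs.Q (P ⋙ F) := ⟨u⟩
  haveI : Localization.Lifting weakHomotopyEquivs.Q weakHomotopyEquivs
      weakHomotopyEquivs.Q (𝟭 weakHomotopyEquivs.Localization) := ⟨Functor.rightUnitor _⟩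
  haveI : Localization.Lifting W.Q W W.Q (F ⋙ P) := ⟨v⟩
  haveI : Localization.Lifting W.Q W W.Q (𝟭 W.Localization) := ⟨Functor.rightUnitor _⟩
  let η : 𝟭 weakHomotopyEquivs.Localization ≅ P ⋙ F :=
    Localization.liftNatIso weakHomotopyEquivs.Q weakHomotopyEquivs weakHomotopyEquivs.Q
      weakHomotopyEquivs.Q (𝟭 weakHomotopyEquivs.Localization) (P ⋙ F) (Iso.refl _)
  let κ : F ⋙ P ≅ 𝟭 W.Localization :=
    Localization.liftNatIso W.Q W W.Q W.Q (F ⋙ P) (𝟭 W.Localization) (Iso.refl _)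
  exact (CategoryTheory.Equivalence.mk P F η κ).isEquivalence_functor

/-- The homotopy hypothesis follows from a disc functor and the two comparisons. -/
theorem homotopyHypothesis_of (hD : Nonempty (DiscFunctor K.colim))
    (hspan : ∀ D : DiscFunctor K.colim,
      Nonempty (FR K.colim ⋙ D.PiInfty ⋙ (Gpd.weakEquivs K.contractible).Q ≅
        (Gpd.weakEquivs K.contractible).Q))
    (heps : ∀ D : DiscFunctor K.colim, ∃ ε : D.PiInfty ⋙ FR K.colim ⟶ 𝟭 CGTop,
      ∀ Y, weakHomotopyEquivs (ε.app Y)) : HomotopyHypothesis K := by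
  refine ⟨hD, fun D => ⟨fun _ _ f hf => DiscFunctor.preserves_weakEquiv K D f hf,
    inverts_piInfty K D, ?_⟩⟩
  obtain ⟨i⟩ := hspan D
  obtain ⟨ε, hε⟩ := heps D
  exact isEquivalence_lift K D i ε hε

end Vale.Agent.P259
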