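import Vale.Agent.P259.Defs

/-!
# The closed disc: coordinates, hemispheres, and the globular set of discs of a space
-/

noncomputable section

namespace Vale.Agent.P259

open scoped unitInterval
open Metric

abbrev Eu (n : ℕ) : Type := EuclideanSpace ℝ (Fin n)

namespace Eu

variable {n : ℕ}

/-- All but the last coordinate. -/
def init (x : Eu (n + 1)) : Eu n := WithLp.toLp 2 (fun i => x i.castSucc)

/-- The last coordinate. -/
def last (x : Eu (n + 1)) : ℝ := x (Fin.last n)

/-- Append a last coordinate. -/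
def snoc (x : Eu n) (y : ℝ) : Eu (n + 1) := WithLp.toLp 2 (Fin.snoc (fun i => x i) y)

@[simp] theorem init_snoc (x : Eu n) (y : ℝ) : init (snoc x y) = x := by
  ext i; simp [init, snoc]

@[simp] theorem last_snoc (x : Eu n) (y : ℝ) : last (snoc x y) = y := by
  simp [last, snoc]

@[simp] theorem snoc_init (x : Eu (n + 1)) : snoc (init x) (last x) = x := by
  ext i
  refine Fin.lastCases ?_ ?_ i
  · simp [snoc, last]
  · intro j; simp [snoc, init]

theorem norm_sq (x : Eu (n + 1)) : ‖x‖ ^ 2 = ‖init x‖ ^ 2 + last x ^ 2 := by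
  rw [EuclideanSpace.real_norm_sq_eq, EuclideanSpace.real_norm_sq_eq, Fin.sum_univ_castSucc]
  rfl

theorem norm_init_le (x : Eu (n + 1)) : ‖init x‖ ≤ ‖x‖ := by
  have := norm_sq x
  nlinarith [norm_nonneg (init x), norm_nonneg x, sq_nonneg (last x)]

@[fun_prop] theorem continuous_init : Continuous (init (n := n)) := by unfold init; fun_prop

@[fun_prop] theorem continuous_last : Continuous (last (n := n)) := by unfold last; fun_prop

@[fun_prop] theorem continuous_snoc {A : Type*} [TopologicalSpace A] {f : A → Eu n} {g : A → ℝ}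
    (hf : Continuous f) (hg : Continuous g) : Continuous fun a => snoc (f a) (g a) := by
  unfold snoc; fun_prop

end Eu

variable {n : ℕ}

/-- The width `√(1 - ‖x‖²)`. -/
def width (x : Eu n) : ℝ := Real.sqrt (1 - ‖x‖ ^ 2)

theorem width_nonneg (x : Eu n) : 0 ≤ width x := Real.sqrt_nonneg _

@[fun_prop] theorem continuous_width : Continuous (width (n := n)) := by unfold width; fun_prop

theorem width_sq {x : Eu n} (hx : ‖x‖ ≤ 1) : width x ^ 2 = 1 - ‖x‖ ^ 2 :=
  Real.sq_sqrt (by nlinarith [norm_nonneg x])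

theorem width_eq_zero {x : Eu n} (hx : ‖x‖ = 1) : width x = 0 := by simp [width, hx]

theorem norm_snoc_le_one {x : Eu n} {y : ℝ} (hx : ‖x‖ ≤ 1) (hy : |y| ≤ width x) :
    ‖Eu.snoc x y‖ ≤ 1 := by
  have h := Eu.norm_sq (Eu.snoc x y)
  simp only [Eu.init_snoc, Eu.last_snoc] at h
  have h2 : y ^ 2 ≤ width x ^ 2 := by nlinarith [abs_nonneg y, sq_abs y]
  nlinarith [width_sq hx, norm_nonneg (Eu.snoc x y)]

theorem abs_last_le (z : Ball (n + 1)) : |Eu.last z.1| ≤ width (Eu.init z.1) := by
  have hz : ‖z.1‖ ≤ 1 := mem_closedBall_zero_iff.1 z.2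
  rw [width]
  refine Real.le_sqrt_of_sq_le ?_
  nlinarith [Eu.norm_sq z.1, sq_abs (Eu.last z.1), norm_nonneg z.1]

theorem norm_ball_le (z : Ball n) : ‖z.1‖ ≤ 1 := mem_closedBall_zero_iff.1 z.2

theorem norm_init_ball_le (z : Ball (n + 1)) : ‖Eu.init z.1‖ ≤ 1 :=
  (Eu.norm_init_le _).trans (norm_ball_le z)

/-- The projection to the equatorial disc. -/
def proj : C(Ball (n + 1), Ball n) :=
  ⟨fun z => ⟨Eu.init z.1, mem_closedBall_zero_iff.2 (norm_init_ball_le z)⟩, by fun_prop⟩

/-- The point over `x` at height `s * width x`. -/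
def column (x : Ball n) (s : ℝ) (hs : |s| ≤ 1) : Ball (n + 1) :=
  ⟨Eu.snoc x.1 (s * width x.1), mem_closedBall_zero_iff.2 <| norm_snoc_le_one (norm_ball_le x) (by
    rw [abs_mul, abs_of_nonneg (width_nonneg _)]
    exact mul_le_of_le_one_left (width_nonneg _) hs)⟩

/-- The lower hemisphere. -/
def hemS : C(Ball n, Ball (n + 1)) :=
  ⟨fun x => column x (-1) (by norm_num), by unfold column; fun_prop⟩

/-- The upper hemisphere. -/
def hemT : C(Ball n, Ball (n + 1)) :=
  ⟨fun x => column x 1 (by norm_num), by unfold column; fun_prop⟩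

@[simp] theorem proj_column (x : Ball n) (s : ℝ) (hs : |s| ≤ 1) : proj (column x s hs) = x := by
  apply Subtype.ext; simp [proj, column]

@[simp] theorem proj_hemS (x : Ball n) : proj (hemS x) = x := proj_column x (-1) (by norm_num)

@[simp] theorem proj_hemT (x : Ball n) : proj (hemT x) = x := proj_column x 1 (by norm_num)

theorem hemS_val (x : Ball n) : (hemS x).1 = Eu.snoc x.1 (-width x.1) := by simp [hemS, column]

theorem hemT_val (x : Ball n) : (hemT x).1 = Eu.snoc x.1 (width x.1) := by simp [hemT, column]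

theorem column_congr {x y : Ball (n + 1)} (hi : proj x = proj y) (hl : Eu.last x.1 = Eu.last y.1) :
    x = y := by
  apply Subtype.ext
  rw [← Eu.snoc_init x.1, ← Eu.snoc_init y.1, hl]
  have := congrArg Subtype.val hi
  simp only [proj, ContinuousMap.coe_mk] at this
  rw [this]

theorem norm_hemS (x : Ball n) : ‖(hemS x).1‖ = 1 := by
  have h := Eu.norm_sq (hemS x).1
  rw [hemS_val, Eu.init_snoc, Eu.last_snoc, neg_sq, width_sq (norm_ball_le x)] at h
  rw [hemS_val]
  nlinarith [norm_nonneg (Eu.snoc x.1 (-width x.1))]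

theorem norm_hemT (x : Ball n) : ‖(hemT x).1‖ = 1 := by
  have h := Eu.norm_sq (hemT x).1
  rw [hemT_val, Eu.init_snoc, Eu.last_snoc, width_sq (norm_ball_le x)] at h
  rw [hemT_val]
  nlinarith [norm_nonneg (Eu.snoc x.1 (width x.1))]

theorem hemS_eq_hemT {x : Ball n} (hx : ‖x.1‖ = 1) : hemS x = hemT x := by
  apply Subtype.ext; rw [hemS_val, hemT_val, width_eq_zero hx, neg_zero]

/-- A point of the sphere lies on one of the hemispheres. -/
theorem eq_hem_of_norm_eq_one {z : Ball (n + 1)} (hz : ‖z.1‖ = 1) :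
    (Eu.last z.1 ≤ 0 → z = hemS (proj z)) ∧ (0 ≤ Eu.last z.1 → z = hemT (proj z)) := by
  have h := Eu.norm_sq z.1
  rw [hz] at h
  have hw : width (Eu.init z.1) = |Eu.last z.1| := by
    rw [width, ← Real.sqrt_sq_eq_abs]
    congr 1
    nlinarith
  have hpv : (proj z).1 = Eu.init z.1 := rfl
  refine ⟨fun hl => column_congr (by simp) ?_, fun hl => column_congr (by simp) ?_⟩
  · rw [hemS_val, Eu.last_snoc, hpv, hw, abs_of_nonpos hl, neg_neg]
  · rw [hemT_val, Eu.last_snoc, hpv, hw, abs_of_nonneg hl]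

theorem hemS_hemS (x : Ball n) : hemS (hemS x) = hemT (hemS x) := hemS_eq_hemT (norm_hemS x)

theorem hemS_hemT (x : Ball n) : hemS (hemT x) = hemT (hemT x) := hemS_eq_hemT (norm_hemT x)

/-- The globular set of discs of a space. -/
@[reducible] def discs (Y : Type) [TopologicalSpace Y] : GlobSet where
  cell n := C(Ball n, Y)
  s n w := w.comp hemS
  t n w := w.comp hemT
  ss n w := by ext x; exact congrArg w (hemS_hemS x)
  tt n w := by ext x; exact congrArg w (hemS_hemT x)

variable {A B Y : Type} [TopologicalSpace A] [TopologicalSpace B] [TopologicalSpace Y]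

/-- The globular map induced by a continuous map. -/
def discsMap (f : C(A, B)) : GlobMap (discs A) (discs B) where
  app _ w := ContinuousMap.comp f w
  comm_s _ _ := rfl
  comm_t _ _ := rfl

theorem discsMap_id : discsMap (ContinuousMap.id A) = GlobMap.id (discs A) := rfl

theorem discsMap_comp (f : C(A, B)) (g : C(B, Y)) :
    discsMap (g.comp f) = (discsMap f).comp (discsMap g) := rfl

end Vale.Agent.P259
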