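import Vale.Agent.P259.EngineMain

/-!
# Spaces that are trivial up to a dimension; trivial homotopy fibres give good maps
-/

noncomputable section

namespace Vale.Agent.P259

open scoped unitInterval Topology
open Metric Set

/-- A space with trivial homotopy classes of discs up to dimension `n`. -/
structure TrivialUpTo (n : ℕ) (Y : Type) [TopologicalSpace Y] : Prop where
  nonempty : Nonempty Y
  rel : ∀ i ≤ n, ∀ a b : C(Ball i, Y), (discs Y).Par a b → (discs Y).Rel i a b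

variable {A B : Type} [TopologicalSpace A] [TopologicalSpace B] {n : ℕ}

theorem TrivialUpTo.mono {m : ℕ} (h : m ≤ n) {Y : Type} [TopologicalSpace Y]
    (hY : TrivialUpTo n Y) : TrivialUpTo m Y :=
  ⟨hY.nonempty, fun i hi => hY.rel i (hi.trans h)⟩

theorem TrivialUpTo.of_good {f : C(A, B)} (hf : Good n (discsMap f)) (hB : TrivialUpTo n B) :
    TrivialUpTo n A := by
  obtain ⟨b⟩ := hB.nonempty
  obtain ⟨u, -⟩ := hf.surj0 (ptDisc b)
  exact ⟨⟨u (south 0)⟩, fun i hi a b hab => hf.inj i hi a b hab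
    (hB.rel i hi _ _ (GlobSet.par_map (discsMap f) hab))⟩

theorem TrivialUpTo.of_good' {f : C(A, B)} (hf : Good n (discsMap f)) (hA : TrivialUpTo n A) :
    TrivialUpTo n B := by
  obtain ⟨a⟩ := hA.nonempty
  refine ⟨⟨f a⟩, fun i hi x y hxy => ?_⟩
  obtain ⟨u, v, P, Q, huv, hPQ, hP0, hP1, hQ0, hQ1⟩ := exists_lift_pair hf i hi x y hxy
  have h1 : (discs C(I, B)).Rel i P Q := by
    refine (good_evI₀ i).inj i le_rfl P Q hPQ ?_
    show (discs B).Rel i ((evI 0).comp P) ((evI 0).comp Q)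
    rw [hP0, hQ0]
    exact (hA.rel i hi u v huv).map (discsMap f)
  have h2 : (discs B).Rel i ((evI 1).comp P) ((evI 1).comp Q) := h1.map (discsMap (evI 1))
  rwa [hP1, hQ1] at h2

theorem trivialUpTo_of_contractible {Y : Type} [TopologicalSpace Y] {y₀ : Y}
    (h : (ContinuousMap.id Y).Homotopic (ContinuousMap.const Y y₀)) (n : ℕ) : TrivialUpTo n Y := by
  have hg : Good n (discsMap (ContinuousMap.const Y ())) := by
    refine good_of_inverse _ (ContinuousMap.const Unit y₀) ?_ ?_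
    · exact h.symm
    · exact ⟨ContinuousMap.Homotopy.refl _⟩
  refine TrivialUpTo.of_good hg ⟨⟨()⟩, fun i _ a b _ => ?_⟩
  have : a = b := ContinuousMap.ext fun _ => Subsingleton.elim _ _
  rw [this]
  exact Groupoidal.refl (V := discs Unit) b

/-- A map between trivial spaces is good. -/
theorem good_of_trivial {f : C(A, B)} (hA : TrivialUpTo n A) (hB : TrivialUpTo n B) :
    Good n (discsMap f) := by
  refine ⟨fun v => ?_, fun i hi u v huv w hs ht => ?_, fun i hi u v huv _ => hA.rel i hi u v huv⟩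
  · obtain ⟨a⟩ := hA.nonempty
    exact ⟨ptDisc a, hB.rel 0 (Nat.zero_le n) _ _ True.intro⟩
  · obtain ⟨c, h₁, h₂⟩ := hA.rel i hi.le u v huv
    refine ⟨c, h₁, h₂, hB.rel (i + 1) hi (f.comp c) w ⟨?_, ?_⟩⟩
    · exact (congrArg (fun z => f.comp z) h₁).trans hs.symm
    · exact (congrArg (fun z => f.comp z) h₂).trans ht.symm

/-! ### Maps with trivial homotopy fibres -/

variable {P E : Type} [TopologicalSpace P] [TopologicalSpace E]

/-- The homotopy fibre over a point, for a plain map. -/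
abbrev Fibre (f : C(E, P)) (p : P) : Type := {z : E × C(I, P) // z.2 0 = f z.1 ∧ z.2 1 = p}

variable {m : ℕ}

/-- Radial scaling by a factor at most one. -/
theorem smul_mem_ball {c : ℝ} (h0 : 0 ≤ c) (h1 : c ≤ 1) (x : Ball m) :
    c • x.1 ∈ closedBall (0 : Eu m) 1 := by
  rw [mem_closedBall_zero_iff, norm_smul, Real.norm_eq_abs, abs_of_nonneg h0]
  nlinarith [norm_ball_le x, norm_nonneg x.1]

theorem exists_sphere_lift (f : C(E, P)) (h : ∀ p, TrivialUpTo n (Fibre f p)) {i : ℕ}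
    (hi : i ≤ n) (u v : C(Ball i, E)) (huv : (discs E).Par u v) (w : C(Ball (i + 1), P))
    (hs : w.comp hemS = f.comp u) (ht : w.comp hemT = f.comp v) :
    ∃ c : C(Ball (i + 1), E), c.comp hemS = u ∧ c.comp hemT = v ∧
      (discs P).Rel (i + 1) (f.comp c) w := by
  classical
  let o : Ball (i + 1) := ⟨0, by simp⟩
  let eb := glueSphere u v huv
  have hfe : ∀ z : sphere (0 : Eu (i + 1)) 1,
      f (eb z) = w ⟨z.1, sphere_subset_closedBall z.2⟩ := by
    intro z
    have h1 : ‖(⟨z.1, sphere_subset_closedBall z.2⟩ : Ball (i + 1)).1‖ = 1 :=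
      mem_sphere_zero_iff_norm.1 z.2
    simp only [eb, glueSphere, ContinuousMap.coe_mk]
    split_ifs with hl
    · exact ((DFunLike.congr_fun hs _).symm).trans
        (congrArg w ((eq_hem_of_norm_eq_one h1).1 hl).symm)
    · exact ((DFunLike.congr_fun ht _).symm).trans
        (congrArg w ((eq_hem_of_norm_eq_one h1).2 (le_of_not_ge hl)).symm)
  let ray : C((Ball i × I), Ball (i + 1)) :=
    ⟨fun q => ⟨(1 - (q.2 : ℝ)) • (hemS q.1).1,
      smul_mem_ball (by linarith [q.2.2.2]) (by linarith [q.2.2.1]) _⟩, by fun_prop⟩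
  let ray' : C((Ball i × I), Ball (i + 1)) :=
    ⟨fun q => ⟨(1 - (q.2 : ℝ)) • (hemT q.1).1,
      smul_mem_ball (by linarith [q.2.2.2]) (by linarith [q.2.2.1]) _⟩, by fun_prop⟩
  let u' : C(Ball i, Fibre f (w o)) :=
    ⟨fun x => ⟨(u x, (w.comp ray).curry x), by
      show w (ray (x, 0)) = f (u x)
      rw [show ray (x, 0) = hemS x from Subtype.ext (by simp [ray])]
      exact DFunLike.congr_fun hs x, by
      show w (ray (x, 1)) = w o
      rw [show ray (x, 1) = o from Subtype.ext (by simp [ray, o])]⟩, by fun_prop⟩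
  let v' : C(Ball i, Fibre f (w o)) :=
    ⟨fun x => ⟨(v x, (w.comp ray').curry x), by
      show w (ray' (x, 0)) = f (v x)
      rw [show ray' (x, 0) = hemT x from Subtype.ext (by simp [ray'])]
      exact DFunLike.congr_fun ht x, by
      show w (ray' (x, 1)) = w o
      rw [show ray' (x, 1) = o from Subtype.ext (by simp [ray', o])]⟩, by fun_prop⟩
  have hpar : (discs (Fibre f (w o))).Par u' v' := by
    cases i with
    | zero => exact True.intro
    | succ k =>
      obtain ⟨h₁, h₂⟩ := huv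
      constructor
      · refine ContinuousMap.ext fun x =>
          Subtype.ext (Prod.ext (DFunLike.congr_fun h₁ x) (ContinuousMap.ext fun t => ?_))
        show w (ray (hemS x, t)) = w (ray' (hemS x, t))
        refine congrArg w (Subtype.ext ?_)
        show (1 - (t : ℝ)) • (hemS (hemS x)).1 = (1 - (t : ℝ)) • (hemT (hemS x)).1
        rw [hemS_hemS]
      · refine ContinuousMap.ext fun x =>
          Subtype.ext (Prod.ext (DFunLike.congr_fun h₂ x) (ContinuousMap.ext fun t => ?_))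
        show w (ray (hemT x, t)) = w (ray' (hemT x, t))
        refine congrArg w (Subtype.ext ?_)
        show (1 - (t : ℝ)) • (hemS (hemT x)).1 = (1 - (t : ℝ)) • (hemT (hemT x)).1
        rw [hemS_hemT]
  obtain ⟨R₀, hR₁, hR₂⟩ := (h (w o)).rel i hi u' v' hpar
  let R : C(Ball (i + 1), Fibre f (w o)) := R₀
  have hR₁' : R.comp hemS = u' := hR₁
  have hR₂' : R.comp hemT = v' := hR₂
  have hRb : ∀ z : Ball (i + 1), ∀ hz : ‖z.1‖ = 1,
      (R z).1.1 = eb ⟨z.1, by simpa using hz⟩ ∧ ∀ t : I, (R z).1.2 t =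
        w ⟨(1 - (t : ℝ)) • z.1, smul_mem_ball (by linarith [t.2.2]) (by linarith [t.2.1]) _⟩ := by
    intro z hz
    rcases le_total (Eu.last z.1) 0 with hl | hl
    · obtain ⟨y, hy⟩ : ∃ y, z = hemS y := ⟨_, (eq_hem_of_norm_eq_one hz).1 hl⟩
      subst hy
      have : R (hemS y) = u' y := DFunLike.congr_fun hR₁' y
      rw [this]
      exact ⟨(glueSphere_hemS u v huv y).symm, fun t => rfl⟩
    · obtain ⟨y, hy⟩ : ∃ y, z = hemT y := ⟨_, (eq_hem_of_norm_eq_one hz).2 hl⟩
      subst hy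
      have : R (hemT y) = v' y := DFunLike.congr_fun hR₂' y
      rw [this]
      exact ⟨(glueSphere_hemT u v huv y).symm, fun t => rfl⟩
  -- total versions
  let a : Eu (i + 1) → E := extendFun _ (⟨fun z => (R z).1.1,
    continuous_fst.comp (continuous_subtype_val.comp R.continuous)⟩ : C(Ball (i + 1), E))
      ((R o).1.1)
  let ebT : Eu (i + 1) → E := extendFun _ eb ((R o).1.1)
  let ΓC : C(Ball (i + 1) × I, P) :=
    ⟨fun q => (R q.1).1.2 q.2, continuous_eval.comp
      ((continuous_snd.comp (continuous_subtype_val.comp (R.continuous.comp continuous_fst))).prodMk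
        continuous_snd)⟩
  let Γ : Eu (i + 1) × I → P := extendFun _
    (ΓC.comp ⟨fun q : ↥(closedBall (0 : Eu (i + 1)) 1 ×ˢ (univ : Set I)) =>
      ((⟨q.1.1, q.2.1⟩ : Ball (i + 1)), q.1.2), by fun_prop⟩) (w o)
  let wT : Eu (i + 1) → P := extendFun _ w (w o)
  have ha : ∀ z : Ball (i + 1), a z.1 = (R z).1.1 := fun z =>
    extendFun_apply (s := closedBall (0 : Eu (i + 1)) 1) _ _ z.2
  have hΓ : ∀ (z : Ball (i + 1)) (t : I), Γ (z.1, t) = (R z).1.2 t := fun z t =>
    extendFun_apply (s := closedBall (0 : Eu (i + 1)) 1 ×ˢ (univ : Set I)) _ _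
      (x := (z.1, t)) ⟨z.2, trivial⟩
  have hwT : ∀ z : Ball (i + 1), wT z.1 = w z := fun z =>
    extendFun_apply (s := closedBall (0 : Eu (i + 1)) 1) _ _ z.2
  have hmem2 : ∀ {x : Ball (i + 1)}, ‖x.1‖ ≤ 1 / 2 → (2 : ℝ) • x.1 ∈ closedBall (0 : Eu (i + 1)) 1 :=
    fun {x} hx => by rw [mem_closedBall_zero_iff, norm_smul]; norm_num; linarith
  have hdir : ∀ {x : Ball (i + 1)}, 1 / 2 ≤ ‖x.1‖ →
      ‖x.1‖⁻¹ • x.1 ∈ sphere (0 : Eu (i + 1)) 1 := fun {x} hx => by
    rw [mem_sphere_zero_iff_norm, norm_smul, norm_inv, norm_norm,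
      inv_mul_cancel₀ (by linarith : ‖x.1‖ ≠ 0)]
  have htwo : ∀ {x : Ball (i + 1)}, ‖x.1‖ = 1 / 2 → ‖x.1‖⁻¹ • x.1 = (2 : ℝ) • x.1 :=
    fun {x} hx => by rw [hx]; norm_num
  let cfun : Ball (i + 1) → E := fun x =>
    if ‖x.1‖ ≤ 1 / 2 then a ((2 : ℝ) • x.1) else ebT (‖x.1‖⁻¹ • x.1)
  have hcfun : Continuous cfun := by
    refine continuous_if_le (by fun_prop) continuous_const
      ((continuousOn_extendFun _ _).comp (by fun_prop) fun x hx => hmem2 hx)
      ((continuousOn_extendFun _ _).comp ?_ fun x hx => hdir hx) ?_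
    · have hn : Continuous fun x : Ball (i + 1) => ‖x.1‖ := by fun_prop
      refine (hn.continuousOn.inv₀ fun x hx => ?_).smul
        (continuous_subtype_val : Continuous fun x : Ball (i + 1) => x.1).continuousOn
      have : (1 / 2 : ℝ) ≤ ‖x.1‖ := hx
      linarith
    · intro x hx
      have hs' := hdir hx.ge
      rw [show a ((2 : ℝ) • x.1) = (R ⟨(2 : ℝ) • x.1, hmem2 hx.le⟩).1.1 from
          ha ⟨(2 : ℝ) • x.1, hmem2 (by linarith)⟩,
        show ebT (‖x.1‖⁻¹ • x.1) = eb ⟨_, hs'⟩ from extendFun_apply (s := sphere (0 : Eu (i+1)) 1) _ _ hs']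
      have hn : ‖(⟨(2 : ℝ) • x.1, hmem2 hx.le⟩ : Ball (i + 1)).1‖ = 1 := by
        show ‖(2 : ℝ) • x.1‖ = 1
        rw [norm_smul, hx]; norm_num
      rw [(hRb _ hn).1]
      exact congrArg eb (Subtype.ext (htwo hx).symm)
  let ρ : Ball (i + 1) × I → ℝ := fun q => max (1 - (q.2 : ℝ)) (2 * ‖q.1.1‖ - 1)
  have hρ : ∀ q, 0 ≤ ρ q ∧ ρ q ≤ 1 := fun q =>
    ⟨le_max_of_le_left (by linarith [q.2.2.2]),
      max_le (by linarith [q.2.2.1]) (by linarith [norm_ball_le q.1])⟩
  have hmemρ : ∀ {q : Ball (i + 1) × I}, 1 / 2 ≤ ‖q.1.1‖ →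
      (ρ q / ‖q.1.1‖) • q.1.1 ∈ closedBall (0 : Eu (i + 1)) 1 := fun {q} hq => by
    rw [mem_closedBall_zero_iff, norm_smul, norm_div, norm_norm, Real.norm_eq_abs,
      abs_of_nonneg (hρ q).1, div_mul_cancel₀ _ (by linarith : ‖q.1.1‖ ≠ 0)]
    exact (hρ q).2
  let hfun : Ball (i + 1) × I → P := fun q =>
    if ‖q.1.1‖ ≤ 1 / 2 then Γ ((2 : ℝ) • q.1.1, q.2) else wT ((ρ q / ‖q.1.1‖) • q.1.1)
  have hhfun : Continuous hfun := by
    refine continuous_if_le (by fun_prop) continuous_const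
      ((continuousOn_extendFun _ _).comp (by fun_prop) fun q hq => ⟨hmem2 hq, trivial⟩)
      ((continuousOn_extendFun _ _).comp ?_ fun q hq => hmemρ hq) ?_
    · have hn : Continuous fun q : Ball (i + 1) × I => ‖q.1.1‖ := by fun_prop
      have hρc : Continuous ρ := by fun_prop
      refine (hρc.continuousOn.div hn.continuousOn fun q hq => ?_).smul
        (continuous_subtype_val.comp continuous_fst :
          Continuous fun q : Ball (i + 1) × I => q.1.1).continuousOn
      have : (1 / 2 : ℝ) ≤ ‖q.1.1‖ := hq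
      linarith
    · intro q hq
      have hn : ‖(⟨(2 : ℝ) • q.1.1, hmem2 hq.le⟩ : Ball (i + 1)).1‖ = 1 := by
        show ‖(2 : ℝ) • q.1.1‖ = 1
        rw [norm_smul, hq]; norm_num
      rw [show Γ ((2 : ℝ) • q.1.1, q.2) = (R ⟨(2 : ℝ) • q.1.1, hmem2 hq.le⟩).1.2 q.2 from
        hΓ ⟨(2 : ℝ) • q.1.1, hmem2 hq.le⟩ q.2,
        show wT ((ρ q / ‖q.1.1‖) • q.1.1) = w ⟨_, hmemρ hq.ge⟩ from hwT ⟨_, hmemρ (by first | exact hq.ge | exact hx')⟩, (hRb _ hn).2]
      refine congrArg w (Subtype.ext ?_)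
      show (1 - (q.2 : ℝ)) • (2 : ℝ) • q.1.1 = (ρ q / ‖q.1.1‖) • q.1.1
      rw [smul_smul]
      congr 1
      simp only [ρ, hq]
      rw [max_eq_left (by linarith [q.2.2.2])]
      ring
  let c : C(Ball (i + 1), E) := ⟨cfun, hcfun⟩
  have hcS : ∀ x : Ball (i + 1), ∀ hx : ‖x.1‖ = 1, c x = eb ⟨x.1, by simpa using hx⟩ := by
    intro x hx
    show cfun x = _
    simp only [cfun, hx]
    rw [if_neg (by norm_num), inv_one, one_smul]
    exact extendFun_apply (s := sphere (0 : Eu (i + 1)) 1) _ _ (by simpa using hx)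
  refine ⟨c, ContinuousMap.ext fun x => ?_, ContinuousMap.ext fun x => ?_, ?_⟩
  · exact (hcS _ (norm_hemS x)).trans (glueSphere_hemS u v huv x)
  · exact (hcS _ (norm_hemT x)).trans (glueSphere_hemT u v huv x)
  let Hh : C(Ball (i + 1) × I, P) := ⟨hfun, hhfun⟩
  let w₁ : C(Ball (i + 1), P) := Hh.comp ⟨fun x => (x, 1), by fun_prop⟩
  have hR0 : ∀ z : Ball (i + 1), (R z).1.2 0 = f (R z).1.1 := fun z => (R z).2.1
  have hR1 : ∀ z : Ball (i + 1), (R z).1.2 1 = w o := fun z => (R z).2.2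
  have step₁ : (discs P).Rel (i + 1) (f.comp c) w₁ := by
    refine rel_of_homotopy Hh (fun x => ?_) (fun x => rfl) fun x hx t => ?_
    · show hfun (x, 0) = f (cfun x)
      simp only [hfun, cfun]
      split_ifs with hx
      · rw [show Γ ((2 : ℝ) • x.1, (0 : I)) = (R ⟨(2 : ℝ) • x.1, hmem2 hx⟩).1.2 0 from
          hΓ ⟨(2 : ℝ) • x.1, hmem2 hx⟩ 0,
          show a ((2 : ℝ) • x.1) = (R ⟨(2 : ℝ) • x.1, hmem2 hx⟩).1.1 from
          ha ⟨(2 : ℝ) • x.1, hmem2 (by linarith)⟩, hR0]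
      · have hx' : (1 / 2 : ℝ) ≤ ‖x.1‖ := le_of_not_ge hx
        rw [show ebT (‖x.1‖⁻¹ • x.1) = eb ⟨_, hdir hx'⟩ from
          extendFun_apply (s := sphere (0 : Eu (i + 1)) 1) _ _ (hdir hx'), hfe,
          show wT ((ρ (x, 0) / ‖x.1‖) • x.1) = w ⟨_, hmemρ (q := (x, 0)) hx'⟩ from hwT ⟨_, hmemρ (by first | exact hq.ge | exact hx')⟩]
        refine congrArg w (Subtype.ext ?_)
        show (ρ (x, 0) / ‖x.1‖) • x.1 = ‖x.1‖⁻¹ • x.1
        simp only [ρ, Icc.coe_zero, sub_zero]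
        rw [max_eq_left (by linarith [norm_ball_le x]), one_div]
    · show hfun (x, t) = f (c x)
      rw [hcS x hx, hfe]
      simp only [hfun, hx]
      rw [if_neg (by norm_num)]
      refine (congrArg wT ?_).trans (hwT x)
      simp only [ρ, hx]
      rw [max_eq_right (by linarith [t.2.1])]
      norm_num
  have step₂ : (discs P).Rel (i + 1) w w₁ := by
    let φ : Ball (i + 1) → ℝ := fun x => max (2 * ‖x.1‖ - 1) 0 / max ‖x.1‖ (1 / 2)
    have hφc : Continuous φ := by
      refine Continuous.div (by fun_prop) (by fun_prop) fun x => ?_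
      exact (lt_of_lt_of_le (by norm_num) (le_max_right _ _)).ne'
    have hφ : ∀ x, 0 ≤ φ x ∧ φ x ≤ 1 := fun x => by
      have hd : (0 : ℝ) < max ‖x.1‖ (1 / 2) := lt_of_lt_of_le (by norm_num) (le_max_right _ _)
      refine ⟨div_nonneg (le_max_right _ _) hd.le, (div_le_one hd).2 (max_le ?_ hd.le)⟩
      linarith [le_max_left ‖x.1‖ (1 / 2), norm_ball_le x]
    let G : C(Ball (i + 1) × I, P) := ⟨fun q =>
      w ⟨((1 - (q.2 : ℝ)) + q.2 * φ q.1) • q.1.1, smul_mem_ball
        (by nlinarith [(hφ q.1).1, q.2.2.1, q.2.2.2])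
        (by nlinarith [(hφ q.1).2, q.2.2.1, q.2.2.2]) _⟩, by fun_prop⟩
    refine rel_of_homotopy G (fun x => ?_) (fun x => ?_) fun x hx t => ?_
    · exact congrArg w (Subtype.ext (by simp))
    · show w _ = hfun (x, 1)
      simp only [hfun]
      split_ifs with hx
      · rw [show Γ ((2 : ℝ) • x.1, (1 : I)) = (R ⟨(2 : ℝ) • x.1, hmem2 hx⟩).1.2 1 from
          hΓ ⟨(2 : ℝ) • x.1, hmem2 hx⟩ 1, hR1]
        refine congrArg w (Subtype.ext ?_)
        have : φ x = 0 := by
          simp only [φ]; rw [max_eq_right (by linarith)]; exact zero_div _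
        simp [o, this]
      · have hx' : (1 / 2 : ℝ) ≤ ‖x.1‖ := le_of_not_ge hx
        rw [show wT ((ρ (x, 1) / ‖x.1‖) • x.1) = w ⟨_, hmemρ (q := (x, 1)) hx'⟩ from hwT ⟨_, hmemρ (by first | exact hq.ge | exact hx')⟩]
        refine congrArg w (Subtype.ext ?_)
        simp only [φ, ρ, Icc.coe_one, sub_self, zero_add, one_mul]
        rw [max_eq_left (by linarith : (0 : ℝ) ≤ 2 * ‖x.1‖ - 1),
          max_eq_right (by linarith : (0 : ℝ) ≤ 2 * ‖x.1‖ - 1), max_eq_left hx']
    · refine congrArg w (Subtype.ext ?_)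
      have : φ x = 1 := by simp only [φ, hx]; norm_num
      simp [this]
  exact Groupoidal.trans step₁ (Groupoidal.symm step₂)

/-- Trivial homotopy fibres make a map good. -/
theorem good_of_trivial_fibre (f : C(E, P)) (h : ∀ p, TrivialUpTo n (Fibre f p)) :
    Good n (discsMap f) := by
  refine ⟨fun v => ?_, fun i hi u v huv w hs ht => ?_, fun i hi u v huv hr => ?_⟩
  · obtain ⟨⟨⟨e, γ⟩, h0, h1⟩⟩ := (h (v (south 0))).nonempty
    refine ⟨ptDisc e, rel_of_homotopy ⟨fun q => γ q.2, by fun_prop⟩ (fun x => h0)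
      (fun x => ?_) fun x hx => ?_⟩
    · exact h1.trans (congrArg v (Subtype.ext (Subsingleton.elim _ _)))
    · rw [Subsingleton.elim x.1 0, norm_zero] at hx
      exact absurd hx (by norm_num)
  · exact exists_sphere_lift f h hi.le u v huv w hs ht
  · obtain ⟨w, hs, ht⟩ := hr
    obtain ⟨c, h₁, h₂, -⟩ := exists_sphere_lift f h hi u v huv w hs ht
    exact ⟨c, h₁, h₂⟩

/-- Quillen's criterion: good inclusions and trivial pieces give a good map. -/
theorem good_of_trivial_pieces {P : Type} [Preorder P] [TopologicalSpace P]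
    [Topology.IsUpperSet P] {E : Type} [TopologicalSpace E] (f : C(E, P))
    (h : ∀ p, TrivialUpTo n (VSpace f p)) : Good n (discsMap f) :=
  good_of_trivial_fibre f fun p => (h p).of_good'
    (good_toHof (fun p q _ => good_of_trivial (h q) (h p)) p)

end Vale.Agent.P259
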