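import Vale.Agent.P259.Good
import Mathlib.Analysis.Convex.GaugeRescale

/-!
# Balls and cubes; homotopies relative to the boundary
-/

noncomputable section

namespace Vale.Agent.P259

open scoped unitInterval Topology
open Metric Set

variable {m : ℕ}

/-- The unit cube inside Euclidean space. -/
def cubeSet (m : ℕ) : Set (Eu m) := {x | ∀ i, x i ∈ Icc (0 : ℝ) 1}

theorem interior_cubeSet (m : ℕ) : interior (cubeSet m) = {x | ∀ i, x i ∈ Ioo (0 : ℝ) 1} := by
  have h : cubeSet m = (PiLp.homeomorph 2 fun _ : Fin m => ℝ) ⁻¹' (univ.pi fun _ => Icc 0 1) := by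
    ext x
    simp only [cubeSet, mem_ofPred_eq, mem_preimage, mem_univ_pi]
    rfl
  rw [h, ← Homeomorph.preimage_interior, interior_pi_set finite_univ]
  ext x
  simp only [interior_Icc, mem_preimage, mem_univ_pi, mem_ofPred_eq]
  rfl

theorem isClosed_cubeSet (m : ℕ) : IsClosed (cubeSet m) := by
  simp only [cubeSet, ofPred_forall]
  exact isClosed_iInter fun i => isClosed_Icc.preimage (by fun_prop)

theorem frontier_cubeSet (m : ℕ) :
    frontier (cubeSet m) = {x | x ∈ cubeSet m ∧ ∃ i, x i = 0 ∨ x i = 1} := by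
  rw [(isClosed_cubeSet m).frontier_eq, interior_cubeSet]
  ext x
  simp only [mem_sdiff, mem_ofPred_eq, not_forall]
  refine and_congr_right fun hx => exists_congr fun i => ?_
  have := hx i
  rw [mem_Icc] at this
  rw [mem_Ioo, not_and_or, not_lt, not_lt]
  constructor
  · rintro (h | h)
    · exact Or.inl (le_antisymm h this.1)
    · exact Or.inr (le_antisymm this.2 h)
  · rintro (h | h) <;> simp [h]

theorem exists_cubeHomeo (m : ℕ) :
    ∃ e : Ball m ≃ₜ (I^(Fin m)), ∀ x, ‖x.1‖ = 1 ↔ e x ∈ Cube.boundary (Fin m) := by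
  have hc : Convex ℝ (cubeSet m) := by
    intro x hx y hy a b ha hb hab i
    exact convex_Icc (0 : ℝ) 1 (hx i) (hy i) ha hb hab
  have hne : (interior (cubeSet m)).Nonempty := by
    refine ⟨WithLp.toLp 2 fun _ => 1 / 2, ?_⟩
    rw [interior_cubeSet]
    intro i
    norm_num
  have hb : Bornology.IsBounded (cubeSet m) := by
    refine isBounded_iff_forall_norm_le.2 ⟨Real.sqrt m, fun x hx => ?_⟩
    refine Real.le_sqrt_of_sq_le ?_
    rw [EuclideanSpace.real_norm_sq_eq]
    calc ∑ i, x i ^ 2 ≤ ∑ _i : Fin m, (1 : ℝ) :=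
          Finset.sum_le_sum fun i _ => by nlinarith [(hx i).1, (hx i).2]
      _ = m := by simp
  obtain ⟨h, -, hcl, hfr⟩ :=
    exists_homeomorph_image_interior_closure_frontier_eq_unitBall hc hne hb
  rw [(isClosed_cubeSet m).closure_eq] at hcl
  have hsymm : ∀ x : Ball m, h.symm x.1 ∈ cubeSet m := fun x => by
    have : x.1 ∈ h '' cubeSet m := by rw [hcl]; exact x.2
    obtain ⟨y, hy, hxy⟩ := this
    rw [← hxy, h.symm_apply_apply]
    exact hy
  have hfwd : ∀ y : I^(Fin m), h (WithLp.toLp 2 fun i => (y i : ℝ)) ∈ closedBall (0 : Eu m) 1 :=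
    fun y => hcl ▸ mem_image_of_mem h (fun i => (y i).2 : (WithLp.toLp 2 fun i => (y i : ℝ)) ∈ cubeSet m)
  let e : Ball m ≃ₜ (I^(Fin m)) :=
    { toFun := fun x i => ⟨h.symm x.1 i, hsymm x i⟩
      invFun := fun y => ⟨h (WithLp.toLp 2 fun i => (y i : ℝ)), hfwd y⟩
      left_inv := fun x => Subtype.ext (h.apply_symm_apply x.1)
      right_inv := fun y => funext fun i => Subtype.ext (by simp)
      continuous_toFun := by fun_prop
      continuous_invFun := by fun_prop }
  refine ⟨e, fun x => ?_⟩
  rw [← mem_sphere_zero_iff_norm, ← hfr]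
  constructor
  · rintro ⟨y, hy, hxy⟩
    rw [frontier_cubeSet] at hy
    obtain ⟨i, hi⟩ := hy.2
    refine ⟨i, ?_⟩
    have : h.symm x.1 = y := by rw [← hxy, h.symm_apply_apply]
    simp only [e, Homeomorph.homeomorph_mk_coe, Equiv.coe_fn_mk, this]
    rcases hi with hi | hi
    · exact Or.inl (Subtype.ext hi)
    · exact Or.inr (Subtype.ext hi)
  · rintro ⟨i, hi⟩
    refine ⟨h.symm x.1, ?_, h.apply_symm_apply x.1⟩
    rw [frontier_cubeSet]
    refine ⟨hsymm x, i, ?_⟩
    rcases hi with hi | hi
    · exact Or.inl (congrArg Subtype.val hi)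
    · exact Or.inr (congrArg Subtype.val hi)

/-- A homeomorphism of the closed disc with the cube, matching the boundaries. -/
def cubeHomeo (m : ℕ) : Ball m ≃ₜ (I^(Fin m)) := Classical.choose (exists_cubeHomeo m)

theorem cubeHomeo_boundary {m : ℕ} (x : Ball m) :
    ‖x.1‖ = 1 ↔ cubeHomeo m x ∈ Cube.boundary (Fin m) :=
  Classical.choose_spec (exists_cubeHomeo m) x

variable {Y : Type} [TopologicalSpace Y] {n : ℕ}

/-- A map is continuous at the points of a constant fibre over a compact parameter. -/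
theorem continuousAt_param {A B : Type*} [TopologicalSpace A] [TopologicalSpace B]
    (G : C(A × I, B)) {X : Type*} [TopologicalSpace X] {φ : X → A} {ψ : X → I} {x₀ : X}
    (hφ : ContinuousAt φ x₀) (hconst : ∀ t, G (φ x₀, t) = G (φ x₀, ψ x₀)) :
    ContinuousAt (fun x => G (φ x, ψ x)) x₀ := by
  rw [ContinuousAt, _root_.tendsto_nhds]
  intro U hU hx
  have hall : ∀ t ∈ (univ : Set I), (φ x₀, t) ∈ G ⁻¹' U := fun t _ => by
    show G (φ x₀, t) ∈ U
    rw [hconst]; exact hx
  obtain ⟨V, W, hVo, -, hxV, hW, hVW⟩ := generalized_tube_lemma (isCompact_singleton (x := φ x₀))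
    isCompact_univ (hU.preimage G.continuous) (by
      rintro ⟨a, t⟩ ⟨rfl, -⟩; exact hall t trivial)
  filter_upwards [hφ (hVo.mem_nhds (hxV rfl))] with x hx'
  exact hVW ⟨hx', hW trivial⟩

/-- Homotopic discs, relative to the sphere, are related. -/
theorem rel_of_homotopy {a b : C(Ball n, Y)} (G : C(Ball n × I, Y))
    (h0 : ∀ x, G (x, 0) = a x) (h1 : ∀ x, G (x, 1) = b x)
    (hb : ∀ x : Ball n, ‖x.1‖ = 1 → ∀ t, G (x, t) = a x) : (discs Y).Rel n a b := by
  have hmem : ∀ z : Ball (n + 1), (Eu.last z.1 / width (proj z).1 + 1) / 2 ∈ Icc (0 : ℝ) 1 := by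
    intro z
    have hz := abs_le.1 (abs_last_le z)
    have hw : width (proj z).1 = width (Eu.init z.1) := rfl
    rw [hw]
    rcases (width_nonneg (Eu.init z.1)).eq_or_lt with h | h
    · rw [← h, div_zero]; norm_num
    · refine ⟨?_, ?_⟩
      · have : -1 ≤ Eu.last z.1 / width (Eu.init z.1) := by
          rw [le_div_iff₀ h]; linarith [hz.1]
        linarith
      · have : Eu.last z.1 / width (Eu.init z.1) ≤ 1 := by
          rw [div_le_iff₀ h]; linarith [hz.2]
        linarith
  let ψ : Ball (n + 1) → I := fun z => ⟨_, hmem z⟩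
  have hc : Continuous fun z => G (proj z, ψ z) := by
    refine continuous_iff_continuousAt.2 fun z => ?_
    by_cases hz : width (proj z).1 = 0
    · refine continuousAt_param G proj.continuous.continuousAt fun t => ?_
      have hx : ‖(proj z).1‖ = 1 := by
        have := width_sq (norm_ball_le (proj z))
        rw [hz] at this
        nlinarith [norm_nonneg (proj z).1, norm_ball_le (proj z)]
      rw [hb _ hx, hb _ hx]
    · refine G.continuous.continuousAt.comp (ContinuousAt.prodMk proj.continuous.continuousAt ?_)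
      refine Topology.IsInducing.subtypeVal.continuousAt_iff.2 ?_
      exact (((by fun_prop : Continuous fun z : Ball (n + 1) => Eu.last z.1).continuousAt.div
        (by fun_prop : Continuous fun z : Ball (n + 1) => width (proj z).1).continuousAt hz).add
        continuousAt_const).div_const 2
  refine ⟨⟨fun z => G (proj z, ψ z), hc⟩, ?_, ?_⟩
  · refine ContinuousMap.ext fun x => ?_
    show G (proj (hemS x), ψ (hemS x)) = a x
    rcases (width_nonneg x.1).eq_or_lt with h | h
    · have hx : ‖x.1‖ = 1 := by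
        have := width_sq (norm_ball_le x)
        rw [← h] at this
        nlinarith [norm_nonneg x.1, norm_ball_le x]
      rw [proj_hemS, hb _ hx]
    · have : ψ (hemS x) = 0 := Subtype.ext (by
        show (Eu.last (hemS x).1 / width (proj (hemS x)).1 + 1) / 2 = 0
        rw [proj_hemS, hemS_val, Eu.last_snoc, neg_div, div_self h.ne']; norm_num)
      rw [this, proj_hemS, h0]
  · refine ContinuousMap.ext fun x => ?_
    show G (proj (hemT x), ψ (hemT x)) = b x
    rcases (width_nonneg x.1).eq_or_lt with h | h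
    · have hx : ‖x.1‖ = 1 := by
        have := width_sq (norm_ball_le x)
        rw [← h] at this
        nlinarith [norm_nonneg x.1, norm_ball_le x]
      rw [proj_hemT, hb _ hx, ← h1, hb _ hx]
    · have : ψ (hemT x) = 1 := Subtype.ext (by
        show (Eu.last (hemT x).1 / width (proj (hemT x)).1 + 1) / 2 = 1
        rw [proj_hemT, hemT_val, Eu.last_snoc, div_self h.ne']; norm_num)
      rw [this, proj_hemT, h1]

end Vale.Agent.P259
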