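import Vale.Agent.P259.Good

/-!
# Hom globular sets and path spaces
-/

noncomputable section

namespace Vale.Agent.P259

open scoped unitInterval
open Metric

namespace GlobSet

/-- The initial vertex of a cell. -/
def vs (X : GlobSet) : ∀ n, X.cell n → X.cell 0
  | 0, c => c
  | n + 1, c => X.vs n (X.s n c)

/-- The final vertex of a cell. -/
def vt (X : GlobSet) : ∀ n, X.cell n → X.cell 0
  | 0, c => c
  | n + 1, c => X.vt n (X.t n c)

theorem vs_t (X : GlobSet) : ∀ n (c : X.cell (n + 1 + 1)),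
    X.vs (n + 1) (X.t (n + 1) c) = X.vs (n + 1) (X.s (n + 1) c) := fun n c =>
  congrArg (X.vs n) (X.ss n c).symm

theorem vt_s (X : GlobSet) : ∀ n (c : X.cell (n + 1 + 1)),
    X.vt (n + 1) (X.s (n + 1) c) = X.vt (n + 1) (X.t (n + 1) c) := fun n c =>
  congrArg (X.vt n) (X.tt n c)

theorem vs_map {X Y : GlobSet} (f : GlobMap X Y) :
    ∀ n (c : X.cell n), Y.vs n (f.app n c) = f.app 0 (X.vs n c)
  | 0, _ => rfl
  | n + 1, c => by simp only [vs]; rw [f.comm_s, vs_map f n]

theorem vt_map {X Y : GlobSet} (f : GlobMap X Y) :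
    ∀ n (c : X.cell n), Y.vt n (f.app n c) = f.app 0 (X.vt n c)
  | 0, _ => rfl
  | n + 1, c => by simp only [vt]; rw [f.comm_t, vt_map f n]

/-- The globular set of cells from `a` to `b`. -/
def hom (X : GlobSet) (a b : X.cell 0) : GlobSet where
  cell n := {c : X.cell (n + 1) // X.vs (n + 1) c = a ∧ X.vt (n + 1) c = b}
  s n c := ⟨X.s (n + 1) c.1, c.2.1, (X.vt_s n c.1).trans c.2.2⟩
  t n c := ⟨X.t (n + 1) c.1, (X.vs_t n c.1).trans c.2.1, c.2.2⟩
  ss n c := Subtype.ext (X.ss (n + 1) c.1)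
  tt n c := Subtype.ext (X.tt (n + 1) c.1)

theorem hom_par {X : GlobSet} {a b : X.cell 0} : ∀ {n : ℕ} {u v : (X.hom a b).cell n},
    (X.hom a b).Par u v → X.Par u.1 v.1
  | 0, u, v, _ => ⟨u.2.1.trans v.2.1.symm, u.2.2.trans v.2.2.symm⟩
  | _ + 1, _, _, ⟨h₁, h₂⟩ => ⟨congrArg Subtype.val h₁, congrArg Subtype.val h₂⟩

theorem rel_hom_iff {X : GlobSet} {a b : X.cell 0} {n : ℕ} {u v : (X.hom a b).cell n} :
    (X.hom a b).Rel n u v ↔ X.Rel (n + 1) u.1 v.1 := by
  constructor
  · rintro ⟨c, h₁, h₂⟩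
    exact ⟨c.1, congrArg Subtype.val h₁, congrArg Subtype.val h₂⟩
  · rintro ⟨c, h₁, h₂⟩
    refine ⟨⟨c, ?_, ?_⟩, Subtype.ext h₁, Subtype.ext h₂⟩
    · show X.vs (n + 1) (X.s (n + 1) c) = a
      rw [h₁]; exact u.2.1
    · show X.vt (n + 1) (X.t (n + 1) c) = b
      rw [h₂]; exact v.2.2

end GlobSet

instance {X : GlobSet} [Groupoidal X] {a b : X.cell 0} : Groupoidal (X.hom a b) where
  refl _ := GlobSet.rel_hom_iff.2 (Groupoidal.refl _)
  symm h := GlobSet.rel_hom_iff.2 (Groupoidal.symm (GlobSet.rel_hom_iff.1 h))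
  trans h h' := GlobSet.rel_hom_iff.2
    (Groupoidal.trans (GlobSet.rel_hom_iff.1 h) (GlobSet.rel_hom_iff.1 h'))

variable {U V : GlobSet}

/-- The induced map on hom globular sets. -/
def GlobMap.hom (θ : GlobMap U V) (a b : U.cell 0) :
    GlobMap (U.hom a b) (V.hom (θ.app 0 a) (θ.app 0 b)) where
  app n c := ⟨θ.app (n + 1) c.1, by rw [GlobSet.vs_map, c.2.1], by rw [GlobSet.vt_map, c.2.2]⟩
  comm_s n c := Subtype.ext (θ.comm_s (n + 1) c.1)
  comm_t n c := Subtype.ext (θ.comm_t (n + 1) c.1)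

theorem good_succ {n : ℕ} {θ : GlobMap U V} (h₀ : SurjZero θ) (h₁ : InjAt θ 0)
    (h : ∀ a b, Good n (θ.hom a b)) : Good (n + 1) θ := by
  refine ⟨h₀, fun i hi u v huv w hs ht => ?_, fun i hi u v huv hr => ?_⟩
  · cases i with
    | zero =>
      obtain ⟨c, hc⟩ := (h u v).surj0 ⟨w, hs, ht⟩
      exact ⟨c.1, c.2.1, c.2.2, GlobSet.rel_hom_iff.1 hc⟩
    | succ i =>
      obtain ⟨hv₁, hv₂⟩ := huv
      have hvs : U.vs (i + 1) v = U.vs (i + 1) u := congrArg (U.vs i) hv₁.symm
      have hvt : U.vt (i + 1) v = U.vt (i + 1) u := congrArg (U.vt i) hv₂.symm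
      let u' : (U.hom (U.vs (i + 1) u) (U.vt (i + 1) u)).cell i := ⟨u, rfl, rfl⟩
      let v' : (U.hom (U.vs (i + 1) u) (U.vt (i + 1) u)).cell i := ⟨v, hvs, hvt⟩
      have hpar : (U.hom (U.vs (i + 1) u) (U.vt (i + 1) u)).Par u' v' := by
        cases i with
        | zero => exact True.intro
        | succ i => exact ⟨Subtype.ext hv₁, Subtype.ext hv₂⟩
      have hw₁ : V.vs (i + 1 + 1) w = θ.app 0 (U.vs (i + 1) u) := by
        show V.vs (i + 1) (V.s (i + 1) w) = _
        rw [hs, GlobSet.vs_map]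
      have hw₂ : V.vt (i + 1 + 1) w = θ.app 0 (U.vt (i + 1) u) := by
        show V.vt (i + 1) (V.t (i + 1) w) = _
        rw [ht, GlobSet.vt_map, hvt]
      obtain ⟨c, hcs, hct, hc⟩ := (h _ _).surj i (by omega) u' v' hpar ⟨w, hw₁, hw₂⟩
        (Subtype.ext hs) (Subtype.ext ht)
      exact ⟨c.1, congrArg Subtype.val hcs, congrArg Subtype.val hct, GlobSet.rel_hom_iff.1 hc⟩
  · cases i with
    | zero => exact h₁ u v huv hr
    | succ i =>
      obtain ⟨hv₁, hv₂⟩ := huv
      have hvs : U.vs (i + 1) v = U.vs (i + 1) u := congrArg (U.vs i) hv₁.symm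
      have hvt : U.vt (i + 1) v = U.vt (i + 1) u := congrArg (U.vt i) hv₂.symm
      let u' : (U.hom (U.vs (i + 1) u) (U.vt (i + 1) u)).cell i := ⟨u, rfl, rfl⟩
      let v' : (U.hom (U.vs (i + 1) u) (U.vt (i + 1) u)).cell i := ⟨v, hvs, hvt⟩
      have hpar : (U.hom (U.vs (i + 1) u) (U.vt (i + 1) u)).Par u' v' := by
        cases i with
        | zero => exact True.intro
        | succ i => exact ⟨Subtype.ext hv₁, Subtype.ext hv₂⟩
      exact GlobSet.rel_hom_iff.1
        ((h _ _).inj i (by omega) u' v' hpar (GlobSet.rel_hom_iff.2 hr))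

namespace Eu

variable {n : ℕ}

/-- Prepend a coordinate. -/
def cons (h : ℝ) (x : Eu n) : Eu (n + 1) := WithLp.toLp 2 (Fin.cons h (fun i => x i))

/-- The first coordinate. -/
def head (z : Eu (n + 1)) : ℝ := z 0

/-- All but the first coordinate. -/
def tail (z : Eu (n + 1)) : Eu n := WithLp.toLp 2 (fun i => z i.succ)

theorem norm_cons_sq (h : ℝ) (x : Eu n) : ‖cons h x‖ ^ 2 = h ^ 2 + ‖x‖ ^ 2 := by
  rw [EuclideanSpace.real_norm_sq_eq, EuclideanSpace.real_norm_sq_eq, Fin.sum_univ_succ]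
  simp [cons]

@[simp] theorem cons_head_tail (z : Eu (n + 1)) : cons (head z) (tail z) = z := by
  ext i
  refine Fin.cases ?_ ?_ i
  · simp [cons, head]
  · intro j; simp [cons, tail]

theorem cons_snoc (h : ℝ) (x : Eu n) (y : ℝ) :
    cons h (snoc x y) = snoc (cons h x) y :=
  congrArg (WithLp.toLp 2) (Fin.cons_snoc_eq_snoc_cons h (fun i => x i) y)

@[fun_prop] theorem continuous_cons {A : Type*} [TopologicalSpace A] {f : A → ℝ} {g : A → Eu n}
    (hf : Continuous f) (hg : Continuous g) : Continuous fun a => cons (f a) (g a) := by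
  unfold cons; fun_prop

end Eu

variable {n : ℕ}

/-- The suspension `I × D_n → D_{n+1}` along the first coordinate. -/
def susp : C(I × Ball n, Ball (n + 1)) :=
  ⟨fun p => ⟨Eu.cons (2 * p.1.1 - 1) (Real.sqrt (1 - (2 * p.1.1 - 1) ^ 2) • p.2.1),
    mem_closedBall_zero_iff.2 (by
      have hh : (2 * p.1.1 - 1) ^ 2 ≤ 1 := by nlinarith [p.1.2.1, p.1.2.2]
      have h := Eu.norm_cons_sq (2 * p.1.1 - 1)
        (Real.sqrt (1 - (2 * p.1.1 - 1) ^ 2) • p.2.1)
      rw [norm_smul, mul_pow, Real.norm_eq_abs, sq_abs, Real.sq_sqrt (by linarith)] at h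
      have h2 : ‖p.2.1‖ ^ 2 ≤ 1 := by nlinarith [norm_nonneg p.2.1, norm_ball_le p.2]
      nlinarith [norm_nonneg (Eu.cons (2 * p.1.1 - 1)
        (Real.sqrt (1 - (2 * p.1.1 - 1) ^ 2) • p.2.1))])⟩, by fun_prop⟩

theorem susp_surjective : Function.Surjective (susp (n := n)) := by
  intro z
  have hz : ‖z.1‖ ≤ 1 := norm_ball_le z
  have h2 := Eu.norm_cons_sq (Eu.head z.1) (Eu.tail z.1)
  rw [Eu.cons_head_tail] at h2
  set h := Eu.head z.1 with hh
  have hb : h ^ 2 + ‖Eu.tail z.1‖ ^ 2 ≤ 1 := by nlinarith [norm_nonneg z.1]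
  have habs : |h| ≤ 1 := abs_le_one_iff_mul_self_le_one.2 (by nlinarith [sq_nonneg ‖Eu.tail z.1‖])
  set w := Real.sqrt (1 - h ^ 2) with hw
  have hw2 : w ^ 2 = 1 - h ^ 2 := Real.sq_sqrt (by nlinarith [sq_nonneg ‖Eu.tail z.1‖])
  have hmem : ‖w⁻¹ • Eu.tail z.1‖ ≤ 1 := by
    rcases eq_or_ne w 0 with hw0 | hw0
    · simp [hw0]
    · have hwpos : 0 < w := lt_of_le_of_ne (Real.sqrt_nonneg _) (Ne.symm hw0)
      rw [norm_smul, norm_inv, Real.norm_eq_abs, abs_of_pos hwpos, inv_mul_le_iff₀ hwpos, mul_one]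
      nlinarith [norm_nonneg (Eu.tail z.1)]
  refine ⟨(⟨(h + 1) / 2, by constructor <;> linarith [abs_le.1 habs]⟩,
    ⟨w⁻¹ • Eu.tail z.1, mem_closedBall_zero_iff.2 hmem⟩), Subtype.ext ?_⟩
  show Eu.cons _ _ = z.1
  have e : 2 * ((h + 1) / 2) - 1 = h := by ring
  simp only [e]
  rw [← hw]
  conv_rhs => rw [← Eu.cons_head_tail z.1]
  congr 1
  rcases eq_or_ne w 0 with hw0 | hw0
  · have : ‖Eu.tail z.1‖ = 0 := by
      rw [hw0] at hw2; nlinarith [norm_nonneg (Eu.tail z.1)]
    simp [norm_eq_zero.1 this]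
  · rw [smul_smul, mul_inv_cancel₀ hw0, one_smul]

theorem isQuotientMap_susp : Topology.IsQuotientMap (susp (n := n)) :=
  Topology.IsQuotientMap.of_surjective_continuous susp_surjective susp.continuous

theorem width_cons (h : ℝ) (hh : h ^ 2 ≤ 1) (x : Eu n) :
    width (Eu.cons h (Real.sqrt (1 - h ^ 2) • x)) = Real.sqrt (1 - h ^ 2) * width x := by
  rw [width, width, Eu.norm_cons_sq, norm_smul, mul_pow, Real.norm_eq_abs, sq_abs,
    Real.sq_sqrt (by linarith), ← Real.sqrt_mul (by linarith)]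
  congr 1; ring

theorem susp_hemS (t : I) (x : Ball n) : susp (t, hemS x) = hemS (susp (t, x)) := by
  apply Subtype.ext
  rw [hemS_val]
  show Eu.cons _ (_ • (hemS x).1) = Eu.snoc (Eu.cons _ _) (-width (Eu.cons _ _))
  rw [hemS_val, width_cons _ (by nlinarith [t.2.1, t.2.2]), ← Eu.cons_snoc]
  congr 1
  ext i
  refine Fin.lastCases ?_ ?_ i
  · simp [Eu.snoc]
  · intro j; simp [Eu.snoc]

theorem susp_hemT (t : I) (x : Ball n) : susp (t, hemT x) = hemT (susp (t, x)) := by
  apply Subtype.ext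
  rw [hemT_val]
  show Eu.cons _ (_ • (hemT x).1) = Eu.snoc (Eu.cons _ _) (width (Eu.cons _ _))
  rw [hemT_val, width_cons _ (by nlinarith [t.2.1, t.2.2]), ← Eu.cons_snoc]
  congr 1
  ext i
  refine Fin.lastCases ?_ ?_ i
  · simp [Eu.snoc]
  · intro j; simp [Eu.snoc]

/-- The south pole. -/
def south : (n : ℕ) → Ball n
  | 0 => ⟨0, by simp⟩
  | n + 1 => hemS (south n)

/-- The north pole. -/
def north : (n : ℕ) → Ball n
  | 0 => ⟨0, by simp⟩
  | n + 1 => hemT (north n)

theorem susp_zero : ∀ {n : ℕ} (x : Ball n), susp (0, x) = south (n + 1)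
  | 0, x => by
    apply Subtype.ext
    show Eu.cons _ _ = (hemS (south 0)).1
    rw [hemS_val]
    ext i
    fin_cases i
    simp [Eu.cons, Eu.snoc, width, south]
    rfl
  | m + 1, x => by
    have e : ∀ a b : Ball (m + 1), susp (0, a) = susp (0, b) := fun a b => by
      apply Subtype.ext; simp [susp]
    rw [e x (hemS (proj x)), susp_hemS, susp_zero]
    rfl

theorem susp_one : ∀ {n : ℕ} (x : Ball n), susp (1, x) = north (n + 1)
  | 0, x => by
    apply Subtype.ext
    show Eu.cons _ _ = (hemT (north 0)).1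
    rw [hemT_val]
    ext i
    fin_cases i
    norm_num [Eu.cons, Eu.snoc, width, north]
    rfl
  | m + 1, x => by
    have e : ∀ a b : Ball (m + 1), susp (1, a) = susp (1, b) := fun a b => by
      apply Subtype.ext; norm_num [susp]
    rw [e x (hemT (proj x)), susp_hemT, susp_one]
    rfl

variable {Y : Type} [TopologicalSpace Y]

/-- A point as a `0`-disc. -/
def ptDisc (y : Y) : C(Ball 0, Y) := ContinuousMap.const _ y

theorem ptDisc_eq (w : C(Ball 0, Y)) : ptDisc (w (south 0)) = w :=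
  ContinuousMap.ext fun x => congrArg w (Subtype.ext (Subsingleton.elim _ _))

theorem vs_discs : ∀ (n : ℕ) (w : C(Ball n, Y)), (discs Y).vs n w = ptDisc (w (south n))
  | 0, w => (ptDisc_eq w).symm
  | n + 1, w => (vs_discs n (w.comp hemS)).trans rfl

theorem vt_discs : ∀ (n : ℕ) (w : C(Ball n, Y)), (discs Y).vt n w = ptDisc (w (north n))
  | 0, w => (ptDisc_eq w).symm
  | n + 1, w => (vt_discs n (w.comp hemT)).trans rfl

theorem ptDisc_injective {y z : Y} (h : ptDisc y = ptDisc z) : y = z :=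
  DFunLike.congr_fun h (south 0)

variable (a b : Y)

/-- Currying: hom cells of discs are discs in the path space. -/
def homToPath : GlobMap ((discs Y).hom (ptDisc a) (ptDisc b)) (discs (Path a b)) where
  app n c :=
    let w : C(Ball (n + 1), Y) := c.1
    { toFun := fun x =>
        { toFun := fun t => w (susp (t, x))
          source' := by
            rw [susp_zero]
            exact ptDisc_injective ((vs_discs (n + 1) w).symm.trans c.2.1)
          target' := by
            rw [susp_one]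
            exact ptDisc_injective ((vt_discs (n + 1) w).symm.trans c.2.2) }
      continuous_toFun := Path.continuous_uncurry_iff.1 (by
        show Continuous fun p : Ball n × I => w (susp (p.2, p.1))
        fun_prop) }
  comm_s n c := by
    refine ContinuousMap.ext fun x => Path.ext (funext fun t => ?_)
    exact congrArg c.1 (susp_hemS t x)
  comm_t n c := by
    refine ContinuousMap.ext fun x => Path.ext (funext fun t => ?_)
    exact congrArg c.1 (susp_hemT t x)

/-- A family of paths as a map on the cylinder. -/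
def cylinder {n : ℕ} (v : C(Ball n, Path a b)) : C(I × Ball n, Y) :=
  ⟨fun p => v p.2 p.1, (Path.continuous_uncurry_iff.2 v.continuous).comp continuous_swap⟩

theorem cylinder_factors {n : ℕ} (v : C(Ball n, Path a b)) :
    Function.FactorsThrough (cylinder a b v) (susp (n := n)) := by
  rintro ⟨t, x⟩ ⟨t', x'⟩ h
  have h' : (susp (t, x)).1 = (susp (t', x')).1 := congrArg Subtype.val h
  have ht : t = t' := by
    have := congrArg Eu.head h'
    simp only [susp, ContinuousMap.coe_mk, Eu.head, Eu.cons, Fin.cons_zero] at this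
    exact Subtype.ext (by linarith)
  subst ht
  show v x t = v x' t
  by_cases hw : Real.sqrt (1 - (2 * t.1 - 1) ^ 2) = 0
  · have h0 : 1 - (2 * t.1 - 1) ^ 2 ≤ 0 := Real.sqrt_eq_zero'.1 hw
    have : t = 0 ∨ t = 1 := by
      have : t.1 * (1 - t.1) = 0 := by nlinarith [t.2.1, t.2.2]
      rcases mul_eq_zero.1 this with h | h
      · exact Or.inl (Subtype.ext h)
      · exact Or.inr (Subtype.ext (show t.1 = 1 by linarith))
    rcases this with rfl | rfl
    · rw [Path.source, Path.source]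
    · rw [Path.target, Path.target]
  · have : x = x' := by
      apply Subtype.ext
      have hc := congrArg Eu.tail h'
      have e : ∀ (r : ℝ) (y : Eu n), Eu.tail (Eu.cons r y) = y := fun r y => by
        ext i; simp [Eu.tail, Eu.cons]
      simp only [susp, ContinuousMap.coe_mk, e] at hc
      exact smul_right_injective _ hw hc
    rw [this]

/-- The disc of a family of paths with fixed endpoints. -/
def uncurryPath {n : ℕ} (v : C(Ball n, Path a b)) : C(Ball (n + 1), Y) :=
  Topology.IsQuotientMap.lift isQuotientMap_susp (cylinder a b v) (cylinder_factors a b v)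

theorem uncurryPath_susp {n : ℕ} (v : C(Ball n, Path a b)) (t : I) (x : Ball n) :
    uncurryPath a b v (susp (t, x)) = v x t :=
  DFunLike.congr_fun (Topology.IsQuotientMap.lift_comp isQuotientMap_susp (cylinder a b v)
    (cylinder_factors a b v)) (t, x)

/-- Uncurrying: discs in the path space are hom cells of discs. -/
def pathToHom : GlobMap (discs (Path a b)) ((discs Y).hom (ptDisc a) (ptDisc b)) where
  app n v := ⟨uncurryPath a b v,
    (vs_discs (n + 1) _).trans (congrArg ptDisc (by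
      rw [← susp_zero (south n), uncurryPath_susp, Path.source])),
    (vt_discs (n + 1) _).trans (congrArg ptDisc (by
      rw [← susp_one (south n), uncurryPath_susp, Path.target]))⟩
  comm_s n v := by
    refine Subtype.ext (ContinuousMap.ext fun z => ?_)
    obtain ⟨⟨t, x⟩, rfl⟩ := susp_surjective z
    show uncurryPath a b v (hemS (susp (t, x))) = uncurryPath a b _ (susp (t, x))
    rw [← susp_hemS, uncurryPath_susp, uncurryPath_susp]
    rfl
  comm_t n v := by
    refine Subtype.ext (ContinuousMap.ext fun z => ?_)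
    obtain ⟨⟨t, x⟩, rfl⟩ := susp_surjective z
    show uncurryPath a b v (hemT (susp (t, x))) = uncurryPath a b _ (susp (t, x))
    rw [← susp_hemT, uncurryPath_susp, uncurryPath_susp]
    rfl

theorem homToPath_pathToHom :
    (homToPath a b).comp (pathToHom a b) = GlobMap.id _ := by
  ext n c
  refine Subtype.ext (ContinuousMap.ext fun z => ?_)
  obtain ⟨⟨t, x⟩, rfl⟩ := susp_surjective z
  exact uncurryPath_susp a b _ t x

theorem pathToHom_homToPath :
    (pathToHom a b).comp (homToPath a b) = GlobMap.id _ := by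
  ext n v x t
  exact uncurryPath_susp a b v t x

theorem good_homToPath (n : ℕ) : Good n (homToPath a b) :=
  Good.of_inverse (g := pathToHom a b)
    (by rw [homToPath_pathToHom]; exact Good.id n) (by rw [pathToHom_homToPath]; exact Good.id n)

theorem good_pathToHom (n : ℕ) : Good n (pathToHom a b) :=
  Good.of_inverse (g := homToPath a b)
    (by rw [pathToHom_homToPath]; exact Good.id n) (by rw [homToPath_pathToHom]; exact Good.id n)

end Vale.Agent.P259
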