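import Vale.Agent.P259.Upper
import Vale.Agent.P259.Cubes
import Vale.Agent.P259.HomSet
import Vale.Agent.P259.Criterion

/-!
# Path spaces and homotopy fibres over a trivial space
-/

noncomputable section

namespace Vale.Agent.P259

open scoped unitInterval

variable {E P Y : Type} [TopologicalSpace E] [TopologicalSpace P] [TopologicalSpace Y] {n : ℕ}

/-- A good image of a globular set with all parallel cells related is trivial. -/
theorem trivialUpTo_of_good_glob {U : GlobSet} {θ : GlobMap U (discs Y)} (hθ : Good n θ)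
    (hU : ∀ i ≤ n, ∀ a b : U.cell i, U.Par a b → U.Rel i a b) (hne : Nonempty (U.cell 0)) :
    TrivialUpTo n Y := by
  obtain ⟨u⟩ := hne
  let y : C(Ball 0, Y) := θ.app 0 u
  refine ⟨⟨y (south 0)⟩, fun i hi a b hab => ?_⟩
  obtain ⟨u, v, A, B, huv, hAB, hA0, hA1, hB0, hB1⟩ := exists_lift_pair' hθ i hi a b hab
  have h1 : (discs C(I, Y)).Rel i A B := by
    refine (good_evI₀ i).inj i le_rfl A B hAB ?_
    show (discs Y).Rel i ((evI 0).comp A) ((evI 0).comp B)
    rw [hA0, hB0]
    exact (hU i hi u v huv).map θ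
  have h2 : (discs Y).Rel i ((evI 1).comp A) ((evI 1).comp B) := h1.map (discsMap (evI 1))
  rwa [hA1, hB1] at h2

theorem GlobSet.rel_hom_of_rel {U : GlobSet} {a b : U.cell 0}
    (hU : ∀ i ≤ n + 1, ∀ u v : U.cell i, U.Par u v → U.Rel i u v) :
    ∀ i ≤ n, ∀ u v : (U.hom a b).cell i, (U.hom a b).Par u v → (U.hom a b).Rel i u v :=
  fun i hi u v huv => GlobSet.rel_hom_iff.2 (hU (i + 1) (by omega) u.1 v.1 (GlobSet.hom_par huv))

/-- Path spaces of trivial spaces are trivial. -/
theorem TrivialUpTo.path (h : TrivialUpTo (n + 1) Y) (a b : Y) : TrivialUpTo n (Path a b) := by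
  refine trivialUpTo_of_good_glob (good_homToPath a b n) (GlobSet.rel_hom_of_rel h.rel) ?_
  obtain ⟨c, hs, ht⟩ := h.rel 0 (Nat.zero_le _) (ptDisc a) (ptDisc b) True.intro
  exact ⟨⟨c, hs, ht⟩⟩

/-- Paths from the image of a point, as points of the homotopy fibre. -/
def pathToHof (f : C(E, P)) (p : P) (e₀ : E) : C(Path (f e₀) p, Hof f p) :=
  ⟨fun α => ⟨(e₀, α.toContinuousMap), α.source, α.target⟩,
    (continuous_const.prodMk continuous_induced_dom).subtype_mk _⟩

variable {f : C(E, P)} {p : P} {e₀ : E}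

theorem exists_hof_slide (c : C(Ball n, Hof f p))
    (R : (discs E).Rel n ((⟨fun z => z.1.1, by fun_prop⟩ : C(Hof f p, E)).comp c)
      (ContinuousMap.const _ e₀)) :
    ∃ α : C(Ball n, Path (f e₀) p),
      (∀ x : Ball n, ‖x.1‖ = 1 → ∀ t, α x t = (c x).1.2 t) ∧
      (discs (Hof f p)).Rel n c ((pathToHof f p e₀).comp α) := by
  obtain ⟨G, hG0, hG1, hGb⟩ := exists_homotopy_of_rel R
  let A : C(Ball n, C(I, P)) := ⟨fun x => (c x).1.2, by fun_prop⟩
  have hA0 : ∀ x, f (G (x, 0)) = A x 0 := fun x => by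
    rw [hG0]; exact (c x).2.1.symm
  obtain ⟨H, h0, hst, hend, hHb⟩ := exists_slide A (f.comp G) hA0 fun x hx t =>
    (congrArg f (hGb x hx t)).trans (c x).2.1.symm
  let α : C(Ball n, Path (f e₀) p) :=
    ⟨fun x =>
      { toContinuousMap := H (x, 1)
        source' := (hst (x, 1)).trans (congrArg f (hG1 x))
        target' := (hend x 1).trans (c x).2.2 },
      Path.continuous_uncurry_iff.1 (by
        show Continuous fun q : Ball n × I => H (q.1, 1) q.2
        fun_prop)⟩
  refine ⟨α, fun x hx t => DFunLike.congr_fun (hHb x hx 1) t,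
    rel_of_homotopy ⟨fun q => ⟨(G q, H q), hst q, (hend q.1 q.2).trans (c q.1).2.2⟩, by fun_prop⟩
      (fun x => Subtype.ext (Prod.ext (hG0 x) (h0 x)))
      (fun x => Subtype.ext (Prod.ext (hG1 x) rfl))
      (fun x hx t => Subtype.ext (Prod.ext (hGb x hx t) (hHb x hx t)))⟩

theorem exists_hof_lift (hE : ∀ m, TrivialUpTo m E) {i : ℕ} {u v : C(Ball i, Path (f e₀) p)}
    (c : C(Ball (i + 1), Hof f p)) (hs : c.comp hemS = (pathToHof f p e₀).comp u)
    (ht : c.comp hemT = (pathToHof f p e₀).comp v) :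
    ∃ α : C(Ball (i + 1), Path (f e₀) p), α.comp hemS = u ∧ α.comp hemT = v ∧
      (discs (Hof f p)).Rel (i + 1) ((pathToHof f p e₀).comp α) c := by
  have hbd : ∀ x : Ball (i + 1), ‖x.1‖ = 1 → (c x).1.1 = e₀ := by
    intro x hx
    rcases le_total (Eu.last x.1) 0 with hl | hl
    · rw [(eq_hem_of_norm_eq_one hx).1 hl]
      exact congrArg (fun z : Hof f p => z.1.1) (DFunLike.congr_fun hs _)
    · rw [(eq_hem_of_norm_eq_one hx).2 hl]
      exact congrArg (fun z : Hof f p => z.1.1) (DFunLike.congr_fun ht _)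
  obtain ⟨α, hα, hrel⟩ := exists_hof_slide c ((hE (i + 1)).rel (i + 1) le_rfl _ _
    (discs_bdry_eq fun x hx => hbd x hx))
  refine ⟨α, ?_, ?_, Groupoidal.symm hrel⟩
  · ext x t
    exact (hα _ (norm_hemS x) t).trans
      (congrArg (fun z : Hof f p => z.1.2 t) (DFunLike.congr_fun hs x))
  · ext x t
    exact (hα _ (norm_hemT x) t).trans
      (congrArg (fun z : Hof f p => z.1.2 t) (DFunLike.congr_fun ht x))

/-- Over a trivial space, the homotopy fibre is the path space. -/
theorem good_pathToHof (hE : ∀ m, TrivialUpTo m E) (p : P) (e₀ : E) (n : ℕ) :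
    Good n (discsMap (pathToHof f p e₀)) := by
  refine ⟨fun w => ?_, fun i _ u v _ w hs ht => exists_hof_lift hE w hs ht,
    fun i _ u v _ h => ?_⟩
  · let c : C(Ball 0, Hof f p) := w
    obtain ⟨α, -, hrel⟩ := exists_hof_slide c (e₀ := e₀) ((hE 0).rel 0 le_rfl _ _ True.intro)
    exact ⟨α, Groupoidal.symm hrel⟩
  · obtain ⟨w, hs, ht⟩ := h
    obtain ⟨α, hα₁, hα₂, -⟩ := exists_hof_lift hE w hs ht
    exact ⟨α, hα₁, hα₂⟩

end Vale.Agent.P259
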