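import Vale.Agent.P259.Components
import Vale.Agent.P259.PathSpace

/-!
# The cells of a groupoid compute the homotopy classes of its space of strings
-/

noncomputable section

namespace Vale.Agent.P259

open CategoryTheory
open scoped unitInterval

theorem sa_hom_eq {A B : Type} [Category.{0} A] [Category.{0} B] {a : A} {T : B ⥤ A}
    {o o' : StructuredArrow a T} (hr : o.right = o'.right)
    (hh : Arrow.mk o.hom = Arrow.mk o'.hom) : o = o' :=
  (StructuredArrow.eq_mk o).trans ((sa_mk_eq _ _ hr hh).trans (StructuredArrow.eq_mk o').symm)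

namespace GlobMap

variable {V : GlobSet} {a b a' b' : V.cell 0}

/-- Change of endpoints along equalities. -/
def homCast (ha : a = a') (hb : b = b') : GlobMap (V.hom a b) (V.hom a' b') where
  app _ c := ⟨c.1, c.2.1.trans ha, c.2.2.trans hb⟩
  comm_s _ _ := rfl
  comm_t _ _ := rfl

theorem good_homCast [Groupoidal V] (ha : a = a') (hb : b = b') (n : ℕ) :
    Good n (homCast ha hb) := by
  subst ha; subst hb
  exact Good.id n

end GlobMap

theorem QW.ext' {C D : Type} [Category.{0} C] [Category.{0} D] {F : D ⥤ C} {z z' : QW F}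
    (hp : z.p = z'.p) (hw : z.w = z'.w) : z = z' := by
  cases z; cases z'; cases hp; cases hw; rfl

theorem Str.map_congr {C D : Type} [Category.{0} C] [Category.{0} D] (p : Str C) {F G : C ⥤ D}
    (h : F = G) : p.map F = p.map G := by rw [h]

namespace Gpd

variable {K : Coherator}

theorem rep_all_rel (T : Tree) : ∀ (i : ℕ) (u v : (rep K.colim T).glob.cell i),
    (rep K.colim T).glob.Par u v → (rep K.colim T).glob.Rel i u v := by
  intro i u v h
  have hp : K.colim.Parallel (n := i) (S := T) u v := by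
    cases i with
    | zero => exact True.intro
    | succ i => exact h
  obtain ⟨c, hc₁, hc₂⟩ := K.contractible (n := i) (S := T) u v hp
  exact ⟨c, hc₁, hc₂⟩

variable (K) in
/-- The strings of elements, as a functor of pointed groupoids. -/
def pathF : BiPt K ⥤ TopCat.{0} where
  obj p := TopCat.of (Path (p.X.pt p.x) (p.X.pt p.y))
  map {p q} φ := TopCat.ofHom
    ⟨fun α => { toFun := fun t => strMap (El.map φ.1) (α t)
                source' := (congrArg (strMap (El.map φ.1)) α.source).trans (map_pt φ.1 φ.2.1)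
                target' := (congrArg (strMap (El.map φ.1)) α.target).trans (map_pt φ.1 φ.2.2) },
      Path.continuous_uncurry_iff.1 (by
        show Continuous fun r : Path (p.X.pt p.x) (p.X.pt p.y) × I =>
          strMap (El.map φ.1) (r.1 r.2)
        fun_prop)⟩
  map_id _ := rfl
  map_comp _ _ := rfl

variable (K) in
/-- The comma categories, as a functor of pointed groupoids. -/
def ovF : BiPt K ⥤ TopCat.{0} where
  obj p := TopCat.of (Str (Ov p.x (⟨Tree.nil, p.y⟩ : El p.X)))
  map φ := TopCat.ofHom (strMap (ovMap φ.1 φ.2.1 φ.2.2))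
  map_id _ := rfl
  map_comp _ _ := rfl

/-- Functoriality of the pairs of strings. -/
def qwMap {p q : BiPt K} (φ : p ⟶ q) : C(QW (Pt.forget p.X p.x), QW (Pt.forget q.X q.x)) :=
  monoMap (fun z => ⟨z.p.map (El.map φ.1), z.w.map (Pt.map φ.1 φ.2.1),
      Str.map_mono (El.map φ.1) z.le, z.upper⟩) fun _ _ h =>
    QW.le_iff.2 ⟨Str.map_mono _ (QW.le_iff.1 h).1, Str.map_mono _ (QW.le_iff.1 h).2⟩

theorem qwMap_id (p : BiPt K) (z : QW (Pt.forget p.X p.x)) : qwMap (𝟙 p) z = z := rfl

theorem qwMap_comp {p q r : BiPt K} (φ : p ⟶ q) (ψ : q ⟶ r) (z : QW (Pt.forget p.X p.x)) :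
    qwMap (φ ≫ ψ) z = qwMap ψ (qwMap φ z) := rfl

theorem piece_cond {p q : BiPt K} (φ : p ⟶ q) (z : Piece (Pt.forget p.X p.x) (p.X.pt p.y)) :
    q.X.pt q.y ≤ (qwMap φ z.1).p :=
  map_pt φ.1 φ.2.2 ▸ Str.map_mono (El.map φ.1) z.le_p

variable (K) in
/-- The pieces, as a functor of pointed groupoids. -/
def pieceF : BiPt K ⥤ TopCat.{0} where
  obj p := TopCat.of (Piece (Pt.forget p.X p.x) (p.X.pt p.y))
  map φ := TopCat.ofHom ⟨fun z => ⟨qwMap φ z.1, piece_cond φ z⟩, by fun_prop⟩
  map_id _ := rfl
  map_comp _ _ := rfl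

theorem hof_cond {p q : BiPt K} (φ : p ⟶ q)
    (z : Hof (QW.pr (Pt.forget p.X p.x)) (p.X.pt p.y)) :
    (strMap (El.map φ.1)).comp z.1.2 0 = QW.pr (Pt.forget q.X q.x) (qwMap φ z.1.1) ∧
      (strMap (El.map φ.1)).comp z.1.2 1 = q.X.pt q.y :=
  ⟨congrArg (strMap (El.map φ.1)) z.2.1,
    (congrArg (strMap (El.map φ.1)) z.2.2).trans (map_pt φ.1 φ.2.2)⟩

variable (K) in
/-- The homotopy fibres, as a functor of pointed groupoids. -/
def hofF : BiPt K ⥤ TopCat.{0} where
  obj p := TopCat.of (Hof (QW.pr (Pt.forget p.X p.x)) (p.X.pt p.y))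
  map φ := TopCat.ofHom
    ⟨fun z => ⟨(qwMap φ z.1.1, (strMap (El.map φ.1)).comp z.1.2), hof_cond φ z⟩, by fun_prop⟩
  map_id _ := rfl
  map_comp _ _ := rfl

theorem el_arrow_eq {Y : Gpd K.colim} {o o' u u' : El Y} {f : o ⟶ u} {g : o' ⟶ u'} (ho : o = o')
    (hu : u = u') (h : HEq f.1 g.1) : Arrow.mk f = Arrow.mk g := by
  subst ho; subst hu
  rw [El.hom_ext (eq_of_heq h)]

variable (K) in
/-- The comparison with the comma categories. -/
def pieceNat : pieceF K ⟶ ovF K where
  app p := TopCat.ofHom (pieceMap (Pt.forget p.X p.x) (p.X.pt p.y))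
  naturality p q φ := by
    refine TopCat.hom_ext (ContinuousMap.ext fun z => ?_)
    let z' : Piece (Pt.forget q.X q.x) (q.X.pt q.y) := ⟨qwMap φ z.1, piece_cond φ z⟩
    show z'.toComma = (z.toComma).map (ovMap φ.1 φ.2.1 φ.2.2)
    have hobj : ∀ (b : z.1.w.A) (hb : (p.X.pt p.y).hi.1 ≤ b.1),
        StructuredArrow.mk (z'.leg b hb) =
          (ovMap φ.1 φ.2.1 φ.2.2).obj (StructuredArrow.mk (z.leg b hb)) := by
      intro b hb
      refine sa_hom_eq rfl ((z'.arrow_leg b hb).trans ?_)
      refine (congrArg (El.map φ.1).mapArrow.obj (z.arrow_leg b hb)).symm.trans ?_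
      exact el_arrow_eq (congrArg (El.mk Tree.nil) φ.2.2) rfl HEq.rfl
    exact le_antisymm (Str.le_iff.2 ⟨Finset.Subset.refl _,
        fun a b _ => saArrow_eq (hobj _ _) (hobj _ _) rfl⟩)
      (Str.le_iff.2 ⟨Finset.Subset.refl _,
        fun a b _ => saArrow_eq (hobj _ _).symm (hobj _ _).symm rfl⟩)

variable (K) in
/-- The comparison of the pieces with the homotopy fibres. -/
def toHofNat : pieceF K ⟶ hofF K where
  app p := TopCat.ofHom (toHof (QW.pr (Pt.forget p.X p.x)) (p.X.pt p.y))
  naturality p q φ := by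
    refine TopCat.hom_ext (ContinuousMap.ext fun z => Subtype.ext (Prod.ext rfl ?_))
    refine ContinuousMap.ext fun t => ?_
    show (jumpFun _ _) ((⟨qwMap φ z.1, piece_cond φ z⟩ :
      Piece (Pt.forget q.X q.x) (q.X.pt q.y)), t) = strMap (El.map φ.1) (jumpFun _ _ (z, t))
    show (if (t : ℝ) < 1 / 2 then _ else _) = strMap (El.map φ.1) (if (t : ℝ) < 1 / 2 then _ else _)
    exact ((apply_ite (strMap (El.map φ.1)) _ _ _).trans
      (if_congr Iff.rfl rfl (map_pt φ.1 φ.2.2))).symm

/-- The base point of the pairs of strings. -/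
def basePair {X : Gpd K.colim} (x : X.cell 0) : QW (Pt.forget X x) :=
  QW.sec (Pt.forget X x) (Str.single 0 (Pt.init X x))

theorem pr_basePair {X : Gpd K.colim} (x : X.cell 0) :
    QW.pr (Pt.forget X x) (basePair x) = X.pt x := Str.map_single _ _ _

theorem map_single_init {X Y : Gpd K.colim} (φ : X ⟶ Y) {x : X.cell 0} {x' : Y.cell 0}
    (hx : φ.app _ x = x') :
    (Str.single 0 (Pt.init X x)).map (Pt.map φ hx) = Str.single 0 (Pt.init Y x') := by
  subst hx
  exact Str.map_single _ _ _

theorem qwMap_basePair {p q : BiPt K} (φ : p ⟶ q) : qwMap φ (basePair p.x) = basePair q.x :=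
  QW.ext'
    ((congrArg (Str.map (El.map φ.1)) (pr_basePair p.x)).trans
      ((map_pt φ.1 φ.2.1).trans (pr_basePair q.x).symm))
    (map_single_init φ.1 φ.2.1)

/-- Paths as points of the homotopy fibre over the base point. -/
def fibreMap {X : Gpd K.colim} (x y : X.cell 0) :
    C(Path (X.pt x) (X.pt y), Hof (QW.pr (Pt.forget X x)) (X.pt y)) :=
  ⟨fun α => ⟨(basePair x, α.toContinuousMap), α.source.trans (pr_basePair x).symm, α.target⟩,
    (continuous_const.prodMk continuous_induced_dom).subtype_mk _⟩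

theorem trivial_qw {X : Gpd K.colim} (x : X.cell 0) (m : ℕ) :
    TrivialUpTo m (QW (Pt.forget X x)) :=
  trivialUpTo_of_contractible
    (QW.homotopic_const_of_initial _ (Pt.init X x) (Pt.fromInit X x)) m

/-- The path with a corrected initial point. -/
def castSource {Y : Type} [TopologicalSpace Y] {a a' b : Y} (h : a' = a) :
    C(Path a b, Path a' b) :=
  ⟨fun α => α.cast h rfl, by subst h; exact continuous_id⟩

theorem good_fibreMap {X : Gpd K.colim} (x y : X.cell 0) (n : ℕ) :
    Good n (discsMap (fibreMap x y)) := by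
  have e : fibreMap x y = (pathToHof (QW.pr (Pt.forget X x)) (X.pt y) (basePair x)).comp
      (castSource (pr_basePair x)) := rfl
  rw [e, discsMap_comp]
  refine Good.comp ?_ (good_pathToHof (trivial_qw x) _ _ n)
  refine good_of_inverse _ (castSource (pr_basePair x).symm) ?_ ?_ <;>
    exact ⟨ContinuousMap.Homotopy.refl _⟩

variable (K) in
/-- The comparison of path spaces with homotopy fibres. -/
def fibreNat : pathF K ⟶ hofF K where
  app p := TopCat.ofHom (fibreMap p.x p.y)
  naturality _ _ φ := TopCat.hom_ext (ContinuousMap.ext fun _ =>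
    Subtype.ext (Prod.ext (qwMap_basePair φ).symm rfl))

section Reps

variable (K) (n m : ℕ)

theorem trivial_path_reps : TrivialUpTo m ((pathF K).obj ((BiPt.reps K).obj n)) :=
  TrivialUpTo.path (El.trivial_rep _ (m + 1)) _ _

/-- The terminal object of a comma category of a free cell. -/
def ovTop : Ov (BiPt.free K n).x (⟨Tree.nil, (BiPt.free K n).y⟩ : El (BiPt.free K n).X) :=
  StructuredArrow.mk
    (Y := (⟨El.top _, (BiPt.free K n).x, K.colim.comp_id _⟩ : Pt (BiPt.free K n).X _))
    ⟨(BiPt.free K n).y, K.colim.comp_id _⟩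

theorem trivial_ov_reps : TrivialUpTo m ((ovF K).obj ((BiPt.reps K).obj n)) := by
  have : Nonempty (Ov (BiPt.free K n).x (⟨Tree.nil, (BiPt.free K n).y⟩ : El (BiPt.free K n).X)) :=
    ⟨ovTop K n⟩
  exact trivial_of_terminal (ovTop K n)
    { app := fun o => ovHom o.right.U.a (K.colim.comp_id _) o.right.hv o.hom.2
      naturality := fun o o' k => ov_hom_ext (by
        show K.colim.comp k.right.1.1 o'.right.U.a = K.colim.comp o.right.U.a (K.colim.id _)
        rw [K.colim.comp_id]
        exact k.right.1.2) } m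

theorem trivial_piece_reps : TrivialUpTo m ((pieceF K).obj ((BiPt.reps K).obj n)) :=
  (trivial_ov_reps K n m).of_good (good_pieceMap _ _ m)

theorem trivial_hof_reps : TrivialUpTo m ((hofF K).obj ((BiPt.reps K).obj n)) :=
  (trivial_path_reps K n m).of_good' (good_fibreMap (X := (BiPt.free K n).X) _ _ m)

end Reps

variable (θ : globF K.colim ⟶ strF K.colim ⋙ discsF)
variable (hθ : ∀ (X : Gpd K.colim) (x : X.cell 0), (θ.app X).app 0 x = ptDisc (X.pt x))

/-- The natural map on cells between two objects induced by a natural map. -/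
def pathFamily : BiPt.homCells K ⟶ pathF K ⋙ discsF where
  app p := ((θ.app p.X).hom p.x p.y).comp ((GlobMap.homCast (V := discs (Str (El p.X)))
    (hθ p.X p.x) (hθ p.X p.y)).comp (homToPath (p.X.pt p.x) (p.X.pt p.y)))
  naturality p q φ := GlobMap.ext' fun n c => by
    refine ContinuousMap.ext fun x => Path.ext (funext fun t => ?_)
    exact congrArg (fun h : GlobMap p.X.glob (discs (Str (El q.X))) =>
      (h.app (n + 1) c.1 : C(Ball (n + 1), Str (El q.X))) (susp (t, x))) (θ.naturality φ.1)

/-- The natural map through suspension. -/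
def suspFamily : BiPt.homCells K ⟶ ovF K ⋙ discsF where
  app p := (BiPt.toHomGpd p).comp ((θ.app (p.X.homGpd p.x p.y)).comp
    (discsMap (strMap (suspOv p.x p.y))))
  naturality p q φ := GlobMap.ext' fun n c => by
    refine ContinuousMap.ext fun x => ?_
    have h := congrArg (fun h : GlobMap (p.X.homGpd p.x p.y).glob
        (discs (Str (El (q.X.homGpd q.x q.y)))) =>
      (h.app n ((BiPt.toHomGpd p).app n c) : C(Ball n, Str (El (q.X.homGpd q.x q.y)))) x)
      (θ.naturality (homMap φ.1 φ.2.1 φ.2.2))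
    exact (congrArg (Str.map (suspOv q.x q.y)) h).trans rfl

variable {θ} {n : ℕ}

include hθ in
theorem surjZero_theta (X : Gpd K.colim) : SurjZero (θ.app X : GlobMap X.glob (discs (Str (El X)))) := by
  intro w
  let w' : C(Ball 0, Str (El X)) := w
  refine ⟨X.map (K.colim.v₀ _) (w' (south 0)).last.a, ?_⟩
  show (discs (Str (El X))).Rel 0 ((θ.app X).app 0 _) w'
  rw [hθ, ← ptDisc_eq w']
  exact rel_pt (w' (south 0))

include hθ in
theorem injAt_theta (X : Gpd K.colim) [Groupoidal X.glob] :
    InjAt (θ.app X : GlobMap X.glob (discs (Str (El X)))) 0 := by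
  intro u v _ h
  exact rel_of_rel_pt K.contractible
    (Eq.mp (congrArg₂ (fun a b => (discs (Str (El X))).Rel 0 a b) (hθ X u) (hθ X v)) h)

theorem trivial_hom_rep
    (ih : ∀ X, Good n (θ.app X : GlobMap X.glob (discs (Str (El X))))) (T : Tree)
    (v q : K.colim.Hom Tree.nil T) :
    TrivialUpTo n (Str (El ((rep K.colim T).homGpd v q))) := by
  let p : BiPt K := ⟨rep K.colim T, v, q⟩
  refine trivialUpTo_of_good_glob (ih _) (fun i hi a b hab => ?_) ?_
  · exact (GlobSet.rel_hom_of_rel (n := i) (fun j _ => rep_all_rel T j) i le_rfl _ _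
      (GlobSet.par_map (BiPt.ofHomGpd p) hab)).map (BiPt.toHomGpd p)
  · obtain ⟨c, hs, ht⟩ := rep_all_rel (K := K) T 0 v q True.intro
    exact ⟨(BiPt.toHomGpd p).app 0 ⟨c, hs, ht⟩⟩

include hθ in
theorem good_hom_theta (ih : ∀ X, Good n (θ.app X : GlobMap X.glob (discs (Str (El X)))))
    (p : BiPt K) :
    Good n ((θ.app p.X : GlobMap p.X.glob (discs (Str (El p.X)))).hom p.x p.y) := by
  obtain ⟨y₀⟩ := (trivial_piece_reps K 0 0).nonempty
  obtain ⟨θV, -⟩ := exists_natural (BiPt.reps K) (pieceF K) (trivial_piece_reps K) y₀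
  have hS : Good n ((suspFamily θ).app p) :=
    BiPt.good_toHomGpd_comp p ((ih _).comp (good_suspOv p.x (trivial_hom_rep ih) p.y))
  have hR : Good n ((θV ≫ Functor.whiskerRight (pieceNat K) discsF).app p) :=
    (good_iff_of_natural (BiPt.reps K) (ovF K) (trivial_ov_reps K) _ _ p n).1 hS
  have hV : Good n (θV.app p : GlobMap _ (discs (Piece (Pt.forget p.X p.x) (p.X.pt p.y)))) :=
    Good.of_comp (g := discsMap (pieceMap (Pt.forget p.X p.x) (p.X.pt p.y))) hR
      (good_pieceMap _ _ n)
  have hH : Good n ((θV.app p : GlobMap _ (discs (Piece (Pt.forget p.X p.x) (p.X.pt p.y)))).comp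
      (discsMap (toHof (QW.pr (Pt.forget p.X p.x)) (p.X.pt p.y)))) :=
    hV.comp (good_toHof_of_transitions (Pt.forget p.X p.x)
      (fun f => good_transition p.x (trivial_hom_rep ih) f) (p.X.pt p.y))
  have hJ : Good n ((pathFamily θ hθ ≫ Functor.whiskerRight (fibreNat K) discsF).app p) :=
    (good_iff_of_natural (BiPt.reps K) (hofF K) (trivial_hof_reps K)
      (θV ≫ Functor.whiskerRight (toHofNat K) discsF) _ p n).1 hH
  have hP : Good n ((pathFamily θ hθ).app p : GlobMap _ (discs (Path (p.X.pt p.x) (p.X.pt p.y)))) :=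
    Good.of_comp (g := discsMap (fibreMap p.x p.y)) hJ (good_fibreMap _ _ n)
  exact Good.of_comp (g := (GlobMap.homCast (V := discs (Str (El p.X)))
    (hθ p.X p.x) (hθ p.X p.y)).comp (homToPath (p.X.pt p.x) (p.X.pt p.y))) hP
    ((GlobMap.good_homCast _ _ n).comp (good_homToPath _ _ n))

include hθ in
/-- The natural map from cells to discs of strings is good in every dimension. -/
theorem good_theta (hgr : ∀ X : Gpd K.colim, Groupoidal X.glob) :
    ∀ (n : ℕ) (X : Gpd K.colim), Good n (θ.app X : GlobMap X.glob (discs (Str (El X)))) := by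
  intro n
  induction n with
  | zero =>
    intro X
    have := hgr X
    exact ⟨surjZero_theta hθ X, fun i hi => absurd hi (Nat.not_lt_zero i),
      fun i hi => by obtain rfl := Nat.le_zero.1 hi; exact injAt_theta hθ X⟩
  | succ n ih =>
    intro X
    have := hgr X
    exact good_succ (surjZero_theta hθ X) (injAt_theta hθ X)
      fun a b => good_hom_theta hθ ih ⟨X, a, b⟩

variable (K) in
/-- There is a natural map from cells to discs of strings sending a vertex to its point. -/
theorem exists_theta : ∃ θ : globF K.colim ⟶ strF K.colim ⋙ discsF,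
    ∀ (X : Gpd K.colim) (x : X.cell 0), (θ.app X).app 0 x = ptDisc (X.pt x) := by
  obtain ⟨θ, h⟩ := exists_natural (reps K.colim) (strF K.colim)
    (fun n m => El.trivial_rep _ m)
    ((rep K.colim (Tree.disc 0)).pt (K.colim.id _))
  refine ⟨θ, fun X x => ?_⟩
  have hn := congrArg (fun φ : GlobMap (rep K.colim (Tree.disc 0)).glob (discs (Str (El X))) =>
    (φ.app 0 (K.colim.id _) : C(Ball 0, Str (El X)))) (θ.naturality (yoneda x))
  have e : (globF K.colim).map (yoneda x) = globMap (yoneda x) := rfl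
  refine Eq.trans ?_ (hn.trans ?_)
  · exact congrArg ((θ.app X).app 0) (yoneda_id x).symm
  · show (strMap (El.map (yoneda x))).comp ((θ.app _).app 0 (K.colim.id _)) = _
    rw [show (θ.app (rep K.colim (Tree.disc 0))).app 0 (K.colim.id _) = _ from h]
    exact ContinuousMap.ext fun _ => map_pt (yoneda x) (yoneda_id x)

end Gpd

end Vale.Agent.P259
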