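import Vale.Agent.P259.Elements
import Vale.Agent.P259.Cubes
import Mathlib.Topology.LocallyConstant.Basic

/-!
# Components of the space of strings of elements
-/

noncomputable section

namespace Vale.Agent.P259

open CategoryTheory
open scoped unitInterval

theorem rel_zero_of_homotopic {Y : Type} [TopologicalSpace Y] {a b : C(Unit, Y)}
    (h : a.Homotopic b) : (discs Y).Rel 0 (ptDisc (a ())) (ptDisc (b ())) := by
  obtain ⟨H⟩ := h
  exact rel_of_homotopy ⟨fun q => H (q.2, ()), by fun_prop⟩ (fun _ => H.apply_zero ())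
    (fun _ => H.apply_one ()) fun x hx => by
      rw [Subsingleton.elim x.1 0, norm_zero] at hx
      exact absurd hx (by norm_num)

theorem rel_zero_of_le {P : Type} [Preorder P] [TopologicalSpace P] [Topology.IsUpperSet P]
    {a b : P} (h : a ≤ b) : (discs P).Rel 0 (ptDisc a) (ptDisc b) :=
  rel_zero_of_homotopic
    (homotopic_of_le (ContinuousMap.const Unit a) (ContinuousMap.const Unit b) fun _ => h)

theorem Str.map_single {C D : Type} [Category.{0} C] [Category.{0} D] (F : C ⥤ D) (a : ℤ)
    (c : C) : (Str.single a c).map F = Str.single a (F.obj c) :=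
  le_antisymm (Str.le_iff.2 ⟨Finset.Subset.refl _, fun _ _ _ => congrArg Arrow.mk (F.map_id c)⟩)
    (Str.le_iff.2 ⟨Finset.Subset.refl _, fun _ _ _ => (congrArg Arrow.mk (F.map_id c)).symm⟩)

theorem Str.single_hi_le {C : Type} [Category.{0} C] (p : Str C) :
    Str.single p.hi.1 p.last ≤ p := by
  refine ⟨Finset.singleton_subset_iff.2 p.hi.2, fun a b h => ?_⟩
  have ha : a.1 = p.hi.1 := Finset.mem_singleton.1 a.2
  have hb : b.1 = p.hi.1 := Finset.mem_singleton.1 b.2
  exact (p.arr_self le_rfl).symm.trans (p.arr_congr (Subtype.ext ha.symm) (Subtype.ext hb.symm))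

theorem Str.single_le_constant {C : Type} [Category.{0} C] {a : ℤ} {A : Finset ℤ}
    {hA : A.Nonempty} (c : C) (h : a ∈ A) : Str.single a c ≤ Str.constant A hA c :=
  ⟨Finset.singleton_subset_iff.2 h, fun _ _ _ => rfl⟩

theorem rel_single {C : Type} [Category.{0} C] (a b : ℤ) (c : C) :
    (discs (Str C)).Rel 0 (ptDisc (Str.single a c)) (ptDisc (Str.single b c)) := by
  have hne : ({a, b} : Finset ℤ).Nonempty := ⟨a, by simp⟩
  exact Groupoidal.trans
    (rel_zero_of_le (Str.single_le_constant (hA := hne) c (by simp)))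
    (Groupoidal.symm (rel_zero_of_le (Str.single_le_constant (hA := hne) c (by simp))))

theorem rel_of_hom {C : Type} [Category.{0} C] {c c' : C} (f : c ⟶ c') :
    (discs (Str C)).Rel 0 (ptDisc (Str.single 0 c)) (ptDisc (Str.single 0 c')) := by
  have h := (strMap_homotopic ((Functor.const (Discrete Unit)).map f)).comp
    (ContinuousMap.Homotopic.refl
      (ContinuousMap.const Unit (Str.single 0 (⟨()⟩ : Discrete Unit))))
  have := rel_zero_of_homotopic h
  simp only [ContinuousMap.comp_apply, ContinuousMap.const_apply] at this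
  rwa [show (strMap ((Functor.const (Discrete Unit)).obj c)) (Str.single 0 ⟨()⟩) =
      Str.single 0 c from Str.map_single _ _ _,
    show (strMap ((Functor.const (Discrete Unit)).obj c')) (Str.single 0 ⟨()⟩) =
      Str.single 0 c' from Str.map_single _ _ _] at this

instance : PreconnectedSpace (Ball 1) :=
  Subtype.preconnectedSpace (convex_closedBall _ _).isPreconnected

theorem eq_of_rel_zero {P Q : Type} [Preorder P] [TopologicalSpace P] [Topology.IsUpperSet P]
    (f : P → Q) (hf : ∀ a b, a ≤ b → f a = f b) {a b : P}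
    (h : (discs P).Rel 0 (ptDisc a) (ptDisc b)) : f a = f b := by
  obtain ⟨w0, hs, ht⟩ := h
  let w : C(Ball 1, P) := w0
  have hlc : IsLocallyConstant f := fun s =>
    Topology.IsUpperSet.isOpen_iff_isUpperSet.2 fun x y hxy (hx : f x ∈ s) =>
      show f y ∈ s from hf x y hxy ▸ hx
  have h1 : w (hemS (south 0)) = a := DFunLike.congr_fun hs (south 0)
  have h2 : w (hemT (south 0)) = b := DFunLike.congr_fun ht (south 0)
  rw [← h1, ← h2]
  exact (hlc.comp_continuous w.continuous).apply_eq_of_preconnectedSpace _ _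

namespace Gpd

variable {C : GlobExt} {X Y : Gpd C}

/-- The point of a vertex. -/
def pt (X : Gpd C) (x : X.cell 0) : Str (El X) := Str.single 0 ⟨Tree.nil, x⟩

theorem map_pt (φ : X ⟶ Y) {x : X.cell 0} {x' : Y.cell 0} (hx : φ.app _ x = x') :
    (X.pt x).map (El.map φ) = Y.pt x' := by
  subst hx
  exact Str.map_single _ _ _

theorem rel_pt (p : Str (El X)) :
    (discs (Str (El X))).Rel 0 (ptDisc (X.pt (X.map (C.v₀ p.last.S) p.last.a))) (ptDisc p) := by
  have h₁ : (discs (Str (El X))).Rel 0
      (ptDisc (X.pt (X.map (C.v₀ p.last.S) p.last.a))) (ptDisc (Str.single 0 p.last)) :=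
    rel_of_hom (C := El X) (c := ⟨Tree.nil, X.map (C.v₀ p.last.S) p.last.a⟩) ⟨C.v₀ _, rfl⟩
  exact Groupoidal.trans h₁
    (Groupoidal.trans (rel_single 0 p.hi.1 p.last) (rel_zero_of_le p.single_hi_le))

/-- The component of the first vertex of the last object. -/
def component (p : Str (El X)) : X.π0 := Quot.mk _ (X.map (C.v₀ p.last.S) p.last.a)

theorem component_eq (hC : C.Contractible) {p q : Str (El X)} (h : p ≤ q) :
    component p = component q := by
  have key : ∀ {o o' : El X} (_ : o ⟶ o'),
      Quot.mk (X.Rel 0) (X.map (C.v₀ o.S) o.a) = Quot.mk (X.Rel 0) (X.map (C.v₀ o'.S) o'.a) := by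
    intro o o' f
    obtain ⟨e, he₁, he₂⟩ := hC (n := 0) (C.comp (C.v₀ o.S) f.1) (C.v₀ o'.S) True.intro
    refine Quot.sound ⟨X.map e o'.a, ?_, ?_⟩
    · exact ((X.map_comp _ _ _).symm.trans (congrArg (fun k => X.map k o'.a) he₁)).trans
        ((X.map_comp _ _ _).trans (congrArg (X.map (C.v₀ o.S)) f.2))
    · exact (X.map_comp _ _ _).symm.trans (congrArg (fun k => X.map k o'.a) he₂)
  exact key (Str.lastMap h)

theorem component_pt (x : X.cell 0) : component (X.pt x) = Quot.mk _ x := by
  refine congrArg (Quot.mk _) ?_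
  show X.map (C.v₀ Tree.nil) x = x
  exact (congrArg (fun f => X.map f x) C.v₀_nil).trans (X.map_id x)

/-- Points of vertices are joined only if the vertices are related. -/
theorem rel_of_rel_pt (hC : C.Contractible) [Groupoidal X.glob] {x y : X.cell 0}
    (h : (discs (Str (El X))).Rel 0 (ptDisc (X.pt x)) (ptDisc (X.pt y))) : X.glob.Rel 0 x y := by
  have e := eq_of_rel_zero component (fun _ _ => component_eq hC) h
  rw [component_pt, component_pt] at e
  clear h
  have := Quot.eqvGen_exact e
  clear e
  induction this with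
  | rel _ _ h => exact h
  | refl _ => exact Groupoidal.refl _
  | symm _ _ _ ih => exact Groupoidal.symm ih
  | trans _ _ _ _ _ ih ih' => exact Groupoidal.trans ih ih'

end Gpd

end Vale.Agent.P259
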