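import Vale.Agent.P259.Hom

/-!
# Gluing along the decomposition of a globular sum into a suspension and a rest
-/

noncomputable section

namespace Vale.Agent.P259

open CategoryTheory

namespace Tree

/-- The suspended part of a globular sum, on cells. -/
def inclLApp (R S : Tree) : ∀ n, (susp R).Cell n → (cons R S).Cell n
  | 0, none => none
  | 0, some _ => some S.first
  | _ + 1, Sum.inl c => Sum.inl c
  | _ + 1, Sum.inr c => nomatch c

/-- The suspended part of a globular sum. -/
def inclL (R S : Tree) : GlobMap (susp R).glob (cons R S).glob where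
  app := inclLApp R S
  comm_s
    | 0, Sum.inl _ => rfl
    | _ + 1, Sum.inl _ => rfl
    | _, Sum.inr c => nomatch c
  comm_t
    | 0, Sum.inl _ => rfl
    | _ + 1, Sum.inl _ => rfl
    | _, Sum.inr c => nomatch c

/-- The rest of a globular sum, on cells. -/
def inclRApp (R S : Tree) : ∀ n, S.Cell n → (cons R S).Cell n
  | 0, c => some c
  | _ + 1, c => Sum.inr c

/-- The rest of a globular sum. -/
def inclR (R S : Tree) : GlobMap S.glob (cons R S).glob where
  app := inclRApp R S
  comm_s
    | 0, _ => rfl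
    | _ + 1, _ => rfl
  comm_t
    | 0, _ => rfl
    | _ + 1, _ => rfl

end Tree

namespace GlobExt

variable (C : GlobExt)

/-- The first vertex of a globular sum. -/
def v₀ (S : Tree) : C.Hom Tree.nil S := C.emb (Tree.cellGlob S.first)

theorem v₀_nil : C.v₀ Tree.nil = C.id Tree.nil :=
  (congrArg C.emb (cellGlob_top 0)).trans (C.emb_id _)

theorem σ_zero : C.v₀ (Tree.disc 1) = C.σ 0 := rfl

theorem srcPole_inclL (R S : Tree) :
    C.comp (C.srcPole R) (C.emb (Tree.inclL R S)) = C.v₀ (Tree.cons R S) :=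
  C.emb_cell_comp _ _

theorem tgtPole_inclL (R S : Tree) :
    C.comp (C.tgtPole R) (C.emb (Tree.inclL R S)) = C.comp (C.v₀ S) (C.emb (Tree.inclR R S)) :=
  (C.emb_cell_comp _ _).trans (C.emb_cell_comp (n := 0) S.first (Tree.inclR R S)).symm

end GlobExt

namespace Gpd

variable {C : GlobExt} (X : Gpd C)

theorem map_cellGlob_comp {S T : Tree} (θ : GlobMap S.glob T.glob) {n : ℕ} (c : S.Cell n)
    (z : X.obj T) :
    X.map (C.emb (Tree.cellGlob (θ.app n c))) z =
      X.map (C.emb (Tree.cellGlob c)) (X.map (C.emb θ) z) := by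
  rw [← X.map_comp, C.emb_cell_comp]

theorem map_σ_cell {S : Tree} {n : ℕ} (c : S.Cell (n + 1)) (z : X.obj S) :
    X.map (C.σ n) (X.map (C.emb (Tree.cellGlob c)) z) =
      X.map (C.emb (Tree.cellGlob (S.src n c))) z := by
  rw [← X.map_comp, GlobExt.σ, C.σ_cell]

theorem map_τ_cell {S : Tree} {n : ℕ} (c : S.Cell (n + 1)) (z : X.obj S) :
    X.map (C.τ n) (X.map (C.emb (Tree.cellGlob c)) z) =
      X.map (C.emb (Tree.cellGlob (S.tgt n c))) z := by
  rw [← X.map_comp, GlobExt.τ, C.τ_cell]

/-- The family of cells of a glued element. -/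
def consFamily {R S : Tree} (h : X.obj (Tree.susp R)) (a : X.obj S) :
    ∀ n, (Tree.cons R S).Cell n → X.obj (Tree.disc n)
  | 0, none => X.map (C.srcPole R) h
  | 0, some c => X.map (C.emb (Tree.cellGlob c)) a
  | n + 1, Sum.inl c =>
      X.map (C.emb (Tree.cellGlob (S := Tree.susp R) (n := n + 1) (Sum.inl c))) h
  | _ + 1, Sum.inr c => X.map (C.emb (Tree.cellGlob c)) a

/-- An element of a glued sum is the same as a compatible pair. -/
theorem cons_glue {R S : Tree} (h : X.obj (Tree.susp R)) (a : X.obj S)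
    (hc : X.map (C.tgtPole R) h = X.map (C.v₀ S) a) :
    ∃! b : X.obj (Tree.cons R S),
      X.map (C.emb (Tree.inclL R S)) b = h ∧ X.map (C.emb (Tree.inclR R S)) b = a := by
  obtain ⟨b, hb, hu⟩ := X.segal (S := Tree.cons R S) (X.consFamily h a)
    (fun n c => by
      match n, c with
      | 0, Sum.inl c => exact X.map_σ_cell (S := Tree.susp R) (n := 0) (Sum.inl c) h
      | n + 1, Sum.inl c => exact X.map_σ_cell (S := Tree.susp R) (n := n + 1) (Sum.inl c) h
      | 0, Sum.inr c => exact X.map_σ_cell c a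
      | n + 1, Sum.inr c => exact X.map_σ_cell c a)
    (fun n c => by
      match n, c with
      | 0, Sum.inl c => exact (X.map_τ_cell (S := Tree.susp R) (n := 0) (Sum.inl c) h).trans hc
      | n + 1, Sum.inl c => exact X.map_τ_cell (S := Tree.susp R) (n := n + 1) (Sum.inl c) h
      | 0, Sum.inr c => exact X.map_τ_cell c a
      | n + 1, Sum.inr c => exact X.map_τ_cell c a)
  have key : ∀ b' : X.obj (Tree.cons R S), X.map (C.emb (Tree.inclL R S)) b' = h →
      X.map (C.emb (Tree.inclR R S)) b' = a → ∀ n c,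
        X.map (C.emb (Tree.cellGlob c)) b' = X.consFamily h a n c := by
    intro b' h₁ h₂ n c
    match n, c with
    | 0, none =>
      exact (X.map_cellGlob_comp (Tree.inclL R S) (n := 0) none b').trans (by rw [h₁]; rfl)
    | 0, some c =>
      exact (X.map_cellGlob_comp (Tree.inclR R S) (n := 0) c b').trans (by rw [h₂]; rfl)
    | n + 1, Sum.inl c =>
      exact (X.map_cellGlob_comp (Tree.inclL R S) (n := n + 1) (Sum.inl c) b').trans
        (by rw [h₁]; rfl)
    | n + 1, Sum.inr c =>
      exact (X.map_cellGlob_comp (Tree.inclR R S) (n := n + 1) c b').trans (by rw [h₂]; rfl)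
  have ext : ∀ {T : Tree} (z z' : X.obj T),
      (∀ n c, X.map (C.emb (Tree.cellGlob c)) z = X.map (C.emb (Tree.cellGlob c)) z') → z = z' :=
    fun {T} z z' e => (X.segal (fun n c => X.map (C.emb (Tree.cellGlob c)) z')
      (fun n c => X.map_σ_cell c z') (fun n c => X.map_τ_cell c z')).unique e (fun _ _ => rfl)
  refine ⟨b, ⟨ext _ _ fun n c => ?_, ext _ _ fun n c => ?_⟩,
    fun b' hb' => hu b' (key b' hb'.1 hb'.2)⟩
  · refine (X.map_cellGlob_comp (Tree.inclL R S) c b).symm.trans ?_
    match n, c with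
    | 0, none => exact hb 0 none
    | 0, some () => exact (hb 0 (some S.first)).trans hc.symm
    | n + 1, Sum.inl c => exact hb (n + 1) (Sum.inl c)
    | n + 1, Sum.inr c => exact nomatch c
  · refine (X.map_cellGlob_comp (Tree.inclR R S) c b).symm.trans ?_
    match n, c with
    | 0, c => exact hb 0 (some c)
    | n + 1, c => exact hb (n + 1) (Sum.inr c)

end Gpd

/-- Maps out of a glued sum are determined by the two parts. -/
theorem GlobExt.cons_ext {C : GlobExt} {R S U : Tree} {f g : C.Hom (Tree.cons R S) U}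
    (h₁ : C.comp (C.emb (Tree.inclL R S)) f = C.comp (C.emb (Tree.inclL R S)) g)
    (h₂ : C.comp (C.emb (Tree.inclR R S)) f = C.comp (C.emb (Tree.inclR R S)) g) : f = g :=
  ((Gpd.rep C U).cons_glue (C.comp (C.emb (Tree.inclL R S)) g)
    (C.comp (C.emb (Tree.inclR R S)) g) (by
      show C.comp _ (C.comp _ g) = C.comp _ (C.comp _ g)
      rw [← C.assoc, ← C.assoc, C.tgtPole_inclL])).unique ⟨h₁, h₂⟩ ⟨rfl, rfl⟩

/-- Maps out of a glued sum from the two parts. -/
theorem GlobExt.exists_cons_desc {C : GlobExt} {R S U : Tree} (f : C.Hom (Tree.susp R) U)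
    (g : C.Hom S U) (h : C.comp (C.tgtPole R) f = C.comp (C.v₀ S) g) :
    ∃ k : C.Hom (Tree.cons R S) U,
      C.comp (C.emb (Tree.inclL R S)) k = f ∧ C.comp (C.emb (Tree.inclR R S)) k = g :=
  ((Gpd.rep C U).cons_glue f g h).exists

end Vale.Agent.P259
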