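import Mathlib.Topology.Category.CompactlyGenerated
import Mathlib.Topology.Homotopy.HomotopyGroup
import Mathlib.Analysis.InnerProductSpace.PiL2
import Mathlib.CategoryTheory.Localization.Construction

/-!
# Globular extensions, coherators, infinity-groupoids, disc functors

Definitions for the Grothendieck homotopy hypothesis, in the conventions of Ara and Maltsiniotis.
-/

namespace Vale.Agent.P259

open CategoryTheory

/-- Globular sets: presheaves on the globe category. -/
structure GlobSet where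
  cell : ℕ → Type
  s : ∀ n, cell (n + 1) → cell n
  t : ∀ n, cell (n + 1) → cell n
  ss : ∀ n x, s n (s (n + 1) x) = s n (t (n + 1) x)
  tt : ∀ n x, t n (s (n + 1) x) = t n (t (n + 1) x)

/-- Morphisms of globular sets. -/
@[ext]
structure GlobMap (X Y : GlobSet) where
  app : ∀ n, X.cell n → Y.cell n
  comm_s : ∀ n x, Y.s n (app (n + 1) x) = app n (X.s n x)
  comm_t : ∀ n x, Y.t n (app (n + 1) x) = app n (X.t n x)

def GlobMap.id (X : GlobSet) : GlobMap X X :=
  ⟨fun _ x => x, fun _ _ => rfl, fun _ _ => rfl⟩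

def GlobMap.comp {X Y Z : GlobSet} (f : GlobMap X Y) (g : GlobMap Y Z) : GlobMap X Z :=
  ⟨fun n x => g.app n (f.app n x), fun n x => by rw [g.comm_s, f.comm_s],
    fun n x => by rw [g.comm_t, f.comm_t]⟩

/-- Finite planar trees index the globular sums: `nil` is `D_0`, and `cons h t` is the gluing of
the suspension of `h` and of `t`, target vertex of the former to first vertex of the latter. -/
inductive Tree : Type
  | nil : Tree
  | cons (h t : Tree) : Tree
  deriving DecidableEq

namespace Tree

/-- The disc `D_n`. -/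
def disc : ℕ → Tree
  | 0 => nil
  | n + 1 => cons (disc n) nil

/-- The dimension of a globular sum. -/
def dim : Tree → ℕ
  | nil => 0
  | cons h t => max (dim h + 1) (dim t)

/-- The cells of a globular sum, as a globular set. -/
def Cell : Tree → ℕ → Type
  | nil, 0 => Unit
  | nil, _ + 1 => Empty
  | cons _ t, 0 => Option (Cell t 0)
  | cons h t, n + 1 => Cell h n ⊕ Cell t (n + 1)

/-- The first vertex. -/
def first : (S : Tree) → Cell S 0
  | nil => ()
  | cons _ _ => none

def src : (S : Tree) → (n : ℕ) → Cell S (n + 1) → Cell S n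
  | nil, _ => Empty.elim
  | cons _ t, 0 => Sum.elim (fun _ => none) (fun c => some (src t 0 c))
  | cons h t, n + 1 => Sum.map (src h n) (src t (n + 1))

def tgt : (S : Tree) → (n : ℕ) → Cell S (n + 1) → Cell S n
  | nil, _ => Empty.elim
  | cons _ t, 0 => Sum.elim (fun _ => some (first t)) (fun c => some (tgt t 0 c))
  | cons h t, n + 1 => Sum.map (tgt h n) (tgt t (n + 1))

theorem src_src : ∀ (S : Tree) (n : ℕ) (c : Cell S (n + 1 + 1)),
    src S n (src S (n + 1) c) = src S n (tgt S (n + 1) c)
  | nil, _, c => nomatch c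
  | cons _ _, 0, Sum.inl _ => rfl
  | cons _ t, 0, Sum.inr c => congrArg some (src_src t 0 c)
  | cons h _, n + 1, Sum.inl c => congrArg Sum.inl (src_src h n c)
  | cons _ t, n + 1, Sum.inr c => congrArg Sum.inr (src_src t (n + 1) c)

theorem tgt_tgt : ∀ (S : Tree) (n : ℕ) (c : Cell S (n + 1 + 1)),
    tgt S n (src S (n + 1) c) = tgt S n (tgt S (n + 1) c)
  | nil, _, c => nomatch c
  | cons _ _, 0, Sum.inl _ => rfl
  | cons _ t, 0, Sum.inr c => congrArg some (tgt_tgt t 0 c)
  | cons h _, n + 1, Sum.inl c => congrArg Sum.inl (tgt_tgt h n c)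
  | cons _ t, n + 1, Sum.inr c => congrArg Sum.inr (tgt_tgt t (n + 1) c)

/-- A globular sum as a globular set. -/
def glob (S : Tree) : GlobSet := ⟨Cell S, src S, tgt S, src_src S, tgt_tgt S⟩

/-- The top cell of the disc. -/
def top : (n : ℕ) → Cell (disc n) n
  | 0 => ()
  | n + 1 => Sum.inl (top n)

end Tree

/-- The globular set of cells one dimension up. -/
def GlobSet.shift (X : GlobSet) : GlobSet :=
  ⟨fun n => X.cell (n + 1), fun n => X.s (n + 1), fun n => X.t (n + 1),
    fun n => X.ss (n + 1), fun n => X.tt (n + 1)⟩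

/-- The value on the cell `c` of `D_n` of the map classifying the `n`-cell `x`. -/
def classify : (X : GlobSet) → (n : ℕ) → X.cell n → (m : ℕ) → Tree.Cell (Tree.disc n) m → X.cell m
  | _, 0, x, 0 => fun _ => x
  | _, 0, _, _ + 1 => Empty.elim
  | X, n + 1, x, 0 => fun c => Option.elim c (X.s 0 (classify X.shift n x 0 (Tree.disc n).first))
      fun _ => X.t 0 (classify X.shift n x 0 (Tree.disc n).first)
  | X, n + 1, x, m + 1 => Sum.elim (classify X.shift n x m) Empty.elim

theorem classify_vertex : ∀ (X : GlobSet) (n : ℕ) (x : X.shift.cell n)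
    (c : Tree.Cell (Tree.disc n) 0),
    X.s 0 (classify X.shift n x 0 c) = X.s 0 (classify X.shift n x 0 (Tree.disc n).first) ∧
    X.t 0 (classify X.shift n x 0 c) = X.t 0 (classify X.shift n x 0 (Tree.disc n).first)
  | _, 0, _, _ => ⟨rfl, rfl⟩
  | _, _ + 1, _, none => ⟨rfl, rfl⟩
  | X, _ + 1, _, some _ => ⟨(X.ss 0 _).symm, (X.tt 0 _).symm⟩

theorem classify_comm_s : ∀ (X : GlobSet) (n : ℕ) (x : X.cell n) (m : ℕ)
    (c : Tree.Cell (Tree.disc n) (m + 1)),
    X.s m (classify X n x (m + 1) c) = classify X n x m (Tree.src (Tree.disc n) m c)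
  | _, 0, _, _, c => nomatch c
  | X, n + 1, x, 0, Sum.inl c => (classify_vertex X n x c).1
  | X, n + 1, x, m + 1, Sum.inl c => classify_comm_s X.shift n x m c
  | _, _ + 1, _, _, Sum.inr c => nomatch c

theorem classify_comm_t : ∀ (X : GlobSet) (n : ℕ) (x : X.cell n) (m : ℕ)
    (c : Tree.Cell (Tree.disc n) (m + 1)),
    X.t m (classify X n x (m + 1) c) = classify X n x m (Tree.tgt (Tree.disc n) m c)
  | _, 0, _, _, c => nomatch c
  | X, n + 1, x, 0, Sum.inl c => (classify_vertex X n x c).2
  | X, n + 1, x, m + 1, Sum.inl c => classify_comm_t X.shift n x m c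
  | _, _ + 1, _, _, Sum.inr c => nomatch c

/-- The map `D_n → S` picking out the `n`-cell `c`. -/
def Tree.cellGlob {S : Tree} {n : ℕ} (c : S.Cell n) : GlobMap (Tree.disc n).glob S.glob :=
  ⟨classify S.glob n c, classify_comm_s S.glob n c, classify_comm_t S.glob n c⟩

/-- The cosource `σ_n : D_n → D_{n+1}`. -/
def σG (n : ℕ) : GlobMap (Tree.disc n).glob (Tree.disc (n + 1)).glob :=
  Tree.cellGlob (Tree.src _ n (Tree.top (n + 1)))

/-- The cotarget `τ_n : D_n → D_{n+1}`. -/
def τG (n : ℕ) : GlobMap (Tree.disc n).glob (Tree.disc (n + 1)).glob :=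
  Tree.cellGlob (Tree.tgt _ n (Tree.top (n + 1)))

/-- A globular extension: a category whose objects are the globular sums, with a functor from
the category of globular sums that is the identity on objects and preserves globular sums. -/
structure GlobExt where
  Hom : Tree → Tree → Type
  id : ∀ S, Hom S S
  comp : ∀ {S T U}, Hom S T → Hom T U → Hom S U
  id_comp : ∀ {S T} (f : Hom S T), comp (id S) f = f
  comp_id : ∀ {S T} (f : Hom S T), comp f (id T) = f
  assoc : ∀ {S T U V} (f : Hom S T) (g : Hom T U) (h : Hom U V),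
    comp (comp f g) h = comp f (comp g h)
  emb : ∀ {S T : Tree}, GlobMap S.glob T.glob → Hom S T
  emb_id : ∀ S, emb (GlobMap.id S.glob) = id S
  emb_comp : ∀ {S T U : Tree} (f : GlobMap S.glob T.glob) (g : GlobMap T.glob U.glob),
    emb (f.comp g) = comp (emb f) (emb g)
  glue : ∀ {S T : Tree} (f : ∀ n, S.Cell n → Hom (Tree.disc n) T),
    (∀ n c, comp (emb (σG n)) (f (n + 1) c) = f n (S.src n c)) →
    (∀ n c, comp (emb (τG n)) (f (n + 1) c) = f n (S.tgt n c)) →
    ∃! g : Hom S T, ∀ n (c : S.Cell n), comp (emb (Tree.cellGlob c)) g = f n c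

namespace GlobExt

variable (C : GlobExt)

def σ (n : ℕ) : C.Hom (Tree.disc n) (Tree.disc (n + 1)) := C.emb (σG n)

def τ (n : ℕ) : C.Hom (Tree.disc n) (Tree.disc (n + 1)) := C.emb (τG n)

/-- Two maps out of `D_n` are parallel: always for `n = 0`, else they agree on source and
target. -/
def Parallel : {n : ℕ} → {S : Tree} → C.Hom (Tree.disc n) S → C.Hom (Tree.disc n) S → Prop
  | 0, _, _, _ => True
  | n + 1, _, f, g => C.comp (C.σ n) f = C.comp (C.σ n) g ∧ C.comp (C.τ n) f = C.comp (C.τ n) g

/-- A lift of a pair of maps out of `D_n`. -/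
def IsLift {n : ℕ} {S : Tree} (f g : C.Hom (Tree.disc n) S)
    (h : C.Hom (Tree.disc (n + 1)) S) : Prop :=
  C.comp (C.σ n) h = f ∧ C.comp (C.τ n) h = g

/-- A parallel pair. -/
structure Pair where
  n : ℕ
  S : Tree
  f : C.Hom (Tree.disc n) S
  g : C.Hom (Tree.disc n) S
  parallel : C.Parallel f g

/-- Every parallel pair has a lift. -/
def Contractible : Prop :=
  ∀ {n : ℕ} {S : Tree} (f g : C.Hom (Tree.disc n) S), C.Parallel f g → ∃ h, C.IsLift f g h

end GlobExt

/-- A morphism of globular extensions. -/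
@[ext]
structure ExtHom (C E : GlobExt) where
  map : ∀ {S T : Tree}, C.Hom S T → E.Hom S T
  map_comp : ∀ {S T U : Tree} (f : C.Hom S T) (g : C.Hom T U),
    map (C.comp f g) = E.comp (map f) (map g)
  map_emb : ∀ {S T : Tree} (f : GlobMap S.glob T.glob), map (C.emb f) = E.emb f

/-- `C'` universally adjoins to `C` the lifts `h i` of the pairs `p i`. -/
def UniversallyAdjoins {C C' : GlobExt} (j : ExtHom C C') {I : Type} (p : I → C.Pair)
    (h : ∀ i, C'.Hom (Tree.disc ((p i).n + 1)) (p i).S) : Prop :=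
  (∀ i, C'.IsLift (j.map (p i).f) (j.map (p i).g) (h i)) ∧
  ∀ (E : GlobExt) (F : ExtHom C E) (k : ∀ i, E.Hom (Tree.disc ((p i).n + 1)) (p i).S),
    (∀ i, E.IsLift (F.map (p i).f) (F.map (p i).g) (k i)) →
    ∃! G : ExtHom C' E,
      (∀ {S T : Tree} (f : C.Hom S T), G.map (j.map f) = F.map f) ∧ ∀ i, G.map (h i) = k i

/-- The composite of `d` consecutive steps of a tower of globular extensions. -/
def stepIter (stage : ℕ → GlobExt) (step : ∀ k, ExtHom (stage k) (stage (k + 1))) (k : ℕ)
    {S T : Tree} (f : (stage k).Hom S T) : (d : ℕ) → (stage (k + d)).Hom S T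
  | 0 => f
  | d + 1 => (step (k + d)).map (stepIter stage step k f d)

/-- A coherator in the sense of Ara. -/
structure Coherator where
  stage : ℕ → GlobExt
  step : ∀ k, ExtHom (stage k) (stage (k + 1))
  stage_zero : ∀ S T, Function.Bijective ((stage 0).emb (S := S) (T := T))
  Index : ℕ → Type
  pair : ∀ k, Index k → (stage k).Pair
  dim_le : ∀ k i, (pair k i).S.dim ≤ (pair k i).n + 1
  adjoined : ∀ k i, (stage (k + 1)).Hom (Tree.disc ((pair k i).n + 1)) (pair k i).S
  universal : ∀ k, UniversallyAdjoins (step k) (pair k) (adjoined k)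
  colim : GlobExt
  incl : ∀ k, ExtHom (stage k) colim
  incl_step : ∀ k {S T : Tree} (f : (stage k).Hom S T),
    (incl (k + 1)).map ((step k).map f) = (incl k).map f
  incl_surj : ∀ {S T : Tree} (f : colim.Hom S T), ∃ k g, (incl k).map g = f
  incl_inj : ∀ k {S T : Tree} (f g : (stage k).Hom S T), (incl k).map f = (incl k).map g →
    ∃ d, stepIter stage step k f d = stepIter stage step k g d
  contractible : colim.Contractible

/-- An `∞`-groupoid over a globular extension: a presheaf sending globular sums to iterated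
fibre products. -/
structure Gpd (C : GlobExt) where
  obj : Tree → Type
  map : ∀ {S T : Tree}, C.Hom S T → obj T → obj S
  map_id : ∀ {S} (x : obj S), map (C.id S) x = x
  map_comp : ∀ {S T U} (f : C.Hom S T) (g : C.Hom T U) (x : obj U),
    map (C.comp f g) x = map f (map g x)
  segal : ∀ {S : Tree} (a : ∀ n, S.Cell n → obj (Tree.disc n)),
    (∀ n c, map (C.σ n) (a (n + 1) c) = a n (S.src n c)) →
    (∀ n c, map (C.τ n) (a (n + 1) c) = a n (S.tgt n c)) →
    ∃! x : obj S, ∀ n (c : S.Cell n), map (C.emb (Tree.cellGlob c)) x = a n c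

namespace Gpd

variable {C : GlobExt}

/-- Morphisms: natural transformations. -/
@[ext]
structure Hom (X Y : Gpd C) where
  app : ∀ S, X.obj S → Y.obj S
  natural : ∀ {S T : Tree} (f : C.Hom S T) (x : X.obj T),
    app S (X.map f x) = Y.map f (app T x)

instance : Category (Gpd C) where
  Hom X Y := Hom X Y
  id _ := ⟨fun _ x => x, fun _ _ => rfl⟩
  comp f g := ⟨fun S x => g.app S (f.app S x), fun h x => by rw [f.natural, g.natural]⟩

/-- `n`-cells. -/
abbrev cell (X : Gpd C) (n : ℕ) : Type := X.obj (Tree.disc n)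

variable (hC : C.Contractible)

theorem exists_idLift (hC : C.Contractible) (n : ℕ) :
    ∃ h, C.IsLift (C.id (Tree.disc n)) (C.id (Tree.disc n)) h :=
  hC _ _ (by cases n with
    | zero => exact True.intro
    | succ m => exact ⟨rfl, rfl⟩)

/-- The map `D_{n+1} → D_n` giving identity cells. -/
noncomputable def idLift (n : ℕ) : C.Hom (Tree.disc (n + 1)) (Tree.disc n) :=
  Classical.choose (exists_idLift hC n)

/-- The iterated identity cell `1^n_x`. -/
noncomputable def one (X : Gpd C) (x : X.cell 0) : ∀ n, X.cell n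
  | 0 => x
  | n + 1 => X.map (idLift hC n) (one X x n)

theorem one_natural {X Y : Gpd C} (f : Hom X Y) (x : X.cell 0) :
    ∀ n, f.app _ (X.one hC x n) = Y.one hC (f.app _ x) n
  | 0 => rfl
  | n + 1 => by simp only [one]; rw [f.natural, one_natural f x n]

/-- The relation: there is an `(n+1)`-cell from `a` to `b`. -/
def Rel (X : Gpd C) (n : ℕ) (a b : X.cell n) : Prop :=
  ∃ c : X.cell (n + 1), X.map (C.σ n) c = a ∧ X.map (C.τ n) c = b

/-- The set of connected components. -/
def π0 (X : Gpd C) : Type := Quot (X.Rel 0)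

/-- The `(n+1)`-cells from `1^n_x` to itself. -/
def Loop (X : Gpd C) (x : X.cell 0) (n : ℕ) : Type :=
  {a : X.cell (n + 1) // X.map (C.σ n) a = X.one hC x n ∧ X.map (C.τ n) a = X.one hC x n}

/-- `π (n+1)` at `x`. -/
def π (X : Gpd C) (x : X.cell 0) (n : ℕ) : Type :=
  Quot (fun a b : X.Loop hC x n => X.Rel (n + 1) a.1 b.1)

theorem Rel.map {X Y : Gpd C} (f : Hom X Y) {n : ℕ} {a b : X.cell n} (h : X.Rel n a b) :
    Y.Rel n (f.app _ a) (f.app _ b) := by
  obtain ⟨c, ha, hb⟩ := h
  exact ⟨f.app _ c, by rw [← f.natural, ha], by rw [← f.natural, hb]⟩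

def π0map {X Y : Gpd C} (f : Hom X Y) : X.π0 → Y.π0 :=
  Quot.map (f.app _) (fun _ _ h => h.map f)

def πmap {X Y : Gpd C} (f : Hom X Y) (x : X.cell 0) (n : ℕ) :
    X.π hC x n → Y.π hC (f.app _ x) n :=
  Quot.map
    (fun a => ⟨f.app _ a.1, by
      constructor <;> rw [← f.natural]
      · rw [a.2.1, one_natural]
      · rw [a.2.2, one_natural]⟩)
    (fun _ _ h => h.map f)

/-- Weak equivalences. -/
def IsWeakEquiv {X Y : Gpd C} (f : Hom X Y) : Prop :=
  Function.Bijective (π0map f) ∧ ∀ x n, Function.Bijective (πmap hC f x n)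

/-- The class of weak equivalences. -/
def weakEquivs : MorphismProperty (Gpd C) := fun _ _ f => IsWeakEquiv hC f

end Gpd

/-- Compactly generated spaces. -/
abbrev CGTop : Type 1 := CompactlyGenerated.{0, 0}

section Top

open scoped unitInterval Topology
open Topology.Homotopy

variable {X Y : Type} [TopologicalSpace X] [TopologicalSpace Y]

/-- The map induced on generalized loops. -/
def genLoopMap (f : C(X, Y)) {n : ℕ} {x : X} (p : Ω^ (Fin n) X x) : Ω^ (Fin n) Y (f x) :=
  ⟨f.comp p.1, fun y hy => congrArg f (p.2 y hy)⟩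

theorem genLoopMap_homotopic (f : C(X, Y)) {n : ℕ} {x : X} {p q : Ω^ (Fin n) X x}
    (h : GenLoop.Homotopic p q) : GenLoop.Homotopic (genLoopMap f p) (genLoopMap f q) :=
  h.map fun H =>
    { toHomotopy := (ContinuousMap.Homotopy.refl f).comp H.toHomotopy
      prop' := fun t y hy => congrArg f (H.prop' t y hy) }

/-- The map induced on homotopy groups. -/
def homotopyGroupMap (f : C(X, Y)) (n : ℕ) (x : X) :
    HomotopyGroup.Pi n X x → HomotopyGroup.Pi n Y (f x) :=
  Quotient.map (genLoopMap f) fun _ _ h => genLoopMap_homotopic f h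

theorem joined_map (f : C(X, Y)) {a b : X} (h : Joined a b) : Joined (f a) (f b) :=
  let ⟨p⟩ := h
  ⟨p.map f.continuous⟩

/-- The map induced on path components. -/
def componentsMap (f : C(X, Y)) : ZerothHomotopy X → ZerothHomotopy Y :=
  Quotient.map f fun _ _ h => joined_map f h

/-- Weak homotopy equivalences. -/
def IsWeakHomotopyEquiv (f : C(X, Y)) : Prop :=
  Function.Bijective (componentsMap f) ∧
    ∀ (n : ℕ) (x : X), Function.Bijective (homotopyGroupMap f (n + 1) x)

end Top

/-- The class of weak homotopy equivalences. -/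
def weakHomotopyEquivs : MorphismProperty CGTop := fun _ _ f => IsWeakHomotopyEquiv f.hom.hom

/-- The closed `n`-disc. -/
abbrev Ball (n : ℕ) : Type := Metric.closedBall (0 : EuclideanSpace ℝ (Fin n)) 1

/-- A point of a hemisphere bounding the `(n+1)`-disc: the last coordinate is
`ε * √(1 - ‖x‖²)`. -/
noncomputable def hemisphere {n : ℕ} (ε : ℝ) (x : EuclideanSpace ℝ (Fin n)) :
    EuclideanSpace ℝ (Fin (n + 1)) :=
  WithLp.toLp 2 (Fin.snoc (fun i => x i) (ε * Real.sqrt (1 - ‖x‖ ^ 2)))

/-- Homeomorphisms of a space with the closed `n`-disc. -/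
abbrev DiscHomeo (A : CGTop) (n : ℕ) : Type := A ≃ₜ Ball n

/-- The coordinates of a point of a space identified with a closed disc. -/
def discCoord {n : ℕ} {A : CGTop} (e : DiscHomeo A n) (p : A) : EuclideanSpace ℝ (Fin n) :=
  (e.toEquiv p).1

/-- The map `f`, read in the disc coordinates `e` and `e'`, is the boundary hemisphere of sign
`ε`. -/
def IsHemisphere {n : ℕ} (ε : ℝ) {A B : CGTop} (e : DiscHomeo A n) (e' : DiscHomeo B (n + 1))
    (f : A ⟶ B) : Prop :=
  ∀ p, discCoord e' (f p) = hemisphere ε (discCoord e p)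

/-- A disc functor: a functor to spaces that sends globular sums to colimits, `D_n` to the
closed `n`-disc and `σ`, `τ` to the two boundary hemispheres. -/
structure DiscFunctor (C : GlobExt) where
  space : Tree → CGTop
  map : ∀ {S T : Tree}, C.Hom S T → (space S ⟶ space T)
  map_id : ∀ S, map (C.id S) = 𝟙 (space S)
  map_comp : ∀ {S T U} (f : C.Hom S T) (g : C.Hom T U), map (C.comp f g) = map f ≫ map g
  disc : ∀ n, DiscHomeo (space (Tree.disc n)) n
  disc_σ : ∀ n, IsHemisphere (-1) (disc n) (disc (n + 1)) (map (C.σ n))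
  disc_τ : ∀ n, IsHemisphere 1 (disc n) (disc (n + 1)) (map (C.τ n))
  colimit : ∀ {S : Tree} (Y : CGTop) (f : ∀ n, S.Cell n → (space (Tree.disc n) ⟶ Y)),
    (∀ n c, map (C.σ n) ≫ f (n + 1) c = f n (S.src n c)) →
    (∀ n c, map (C.τ n) ≫ f (n + 1) c = f n (S.tgt n c)) →
    ∃! g : space S ⟶ Y, ∀ n (c : S.Cell n), map (C.emb (Tree.cellGlob c)) ≫ g = f n c

namespace DiscFunctor

variable {C : GlobExt} (D : DiscFunctor C)

/-- The `S`-cells of a space: the maps from the space of `S`. -/
abbrev piCell (Y : CGTop) (S : Tree) : Type := D.space S ⟶ Y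

/-- The action of the globular extension on cells. -/
abbrev piMap (Y : CGTop) {S T : Tree} (f : C.Hom S T) (x : D.piCell Y T) : D.piCell Y S :=
  D.map f ≫ x

theorem piMap_id (Y : CGTop) {S : Tree} (x : D.piCell Y S) : D.piMap Y (C.id S) x = x := by
  simp only [piMap, D.map_id, Category.id_comp]

theorem piMap_comp (Y : CGTop) {S T U : Tree} (f : C.Hom S T) (g : C.Hom T U) (x : D.piCell Y U) :
    D.piMap Y (C.comp f g) x = D.piMap Y f (D.piMap Y g x) := by
  simp only [piMap, D.map_comp, Category.assoc]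

theorem piMap_segal (Y : CGTop) {S : Tree} (a : ∀ n, S.Cell n → D.piCell Y (Tree.disc n))
    (h₁ : ∀ n c, D.piMap Y (C.σ n) (a (n + 1) c) = a n (S.src n c))
    (h₂ : ∀ n c, D.piMap Y (C.τ n) (a (n + 1) c) = a n (S.tgt n c)) :
    ∃! x : D.piCell Y S, ∀ n (c : S.Cell n), D.piMap Y (C.emb (Tree.cellGlob c)) x = a n c :=
  D.colimit Y a h₁ h₂

/-- The fundamental `∞`-groupoid of a space. -/
abbrev piObj (Y : CGTop) : Gpd C :=
  ⟨D.piCell Y, D.piMap Y, D.piMap_id Y, D.piMap_comp Y, D.piMap_segal Y⟩

theorem piHom_natural {X Y : CGTop} (g : X ⟶ Y) {S T : Tree} (f : C.Hom S T)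
    (x : D.piCell X T) : D.piMap X f x ≫ g = D.piMap Y f (x ≫ g) :=
  Category.assoc _ _ _

/-- The morphism of `∞`-groupoids given by a map of spaces. -/
abbrev piHom {X Y : CGTop} (g : X ⟶ Y) : Gpd.Hom (D.piObj X) (D.piObj Y) :=
  ⟨fun _ x => x ≫ g, D.piHom_natural g⟩

/-- The fundamental `∞`-groupoid functor of a disc functor. -/
def PiInfty : CGTop ⥤ Gpd C where
  obj Y := D.piObj Y
  map g := D.piHom g
  map_id Y := by
    apply Gpd.Hom.ext
    funext S x
    exact Category.comp_id x
  map_comp g h := by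
    apply Gpd.Hom.ext
    funext S x
    exact (Category.assoc _ _ _).symm

end DiscFunctor

/-- The homotopy hypothesis for a coherator: a disc functor exists and, for every disc functor,
the fundamental groupoid functor preserves weak equivalences and induces an equivalence of the
localizations. -/
def HomotopyHypothesis (K : Coherator) : Prop :=
  Nonempty (DiscFunctor K.colim) ∧
    ∀ D : DiscFunctor K.colim,
      (∀ ⦃X Y : CGTop⦄ (f : X ⟶ Y), weakHomotopyEquivs f →
        Gpd.weakEquivs K.contractible (D.PiInfty.map f)) ∧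
      ∃ h : weakHomotopyEquivs.IsInvertedBy
          (D.PiInfty ⋙ (Gpd.weakEquivs K.contractible).Q),
        (Localization.Construction.lift
          (D.PiInfty ⋙ (Gpd.weakEquivs K.contractible).Q) h).IsEquivalence

end Vale.Agent.P259
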