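import Vale.Agent.P259.Criterion

/-!
# A map into a directed union of opens with homotopy inverses on each of them
-/

noncomputable section

namespace Vale.Agent.P259

open scoped unitInterval Topology
open Set

variable {A B : Type} [TopologicalSpace A] [TopologicalSpace B] {n : ℕ}

theorem exists_subset_of_compact {K : Type} [TopologicalSpace K] [CompactSpace K] {O : ℕ → Set B}
    (ho : ∀ j, IsOpen (O j)) (hm : Monotone O) (hcov : ∀ b, ∃ j, b ∈ O j) (W : C(K, B)) :
    ∃ j, ∀ x, W x ∈ O j := by
  obtain ⟨j, hj⟩ := (isCompact_range W.continuous).elim_directed_cover O ho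
    (fun b _ => mem_iUnion.2 (hcov b))
    (fun i j => ⟨max i j, hm (le_max_left i j), hm (le_max_right i j)⟩)
  exact ⟨j, fun x => hj (mem_range_self x)⟩

/-- A map with homotopy inverses on an exhausting sequence of open sets is good. -/
theorem good_of_open_cover (f : C(A, B)) (O : ℕ → Set B) (ho : ∀ j, IsOpen (O j))
    (hm : Monotone O) (hcov : ∀ b, ∃ j, b ∈ O j) (hf : ∀ j a, f a ∈ O j) (g : ∀ j, C(O j, A))
    (h₁ : ∀ j, ((g j).comp ⟨fun a => ⟨f a, hf j a⟩, by fun_prop⟩).Homotopic (ContinuousMap.id A))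
    (h₂ : ∀ j, (f.comp (g j)).Homotopic ⟨Subtype.val, continuous_subtype_val⟩) :
    Good n (discsMap f) := by
  have hgf : ∀ j i, i ≤ n → InjAt
      (discsMap ((g j).comp ⟨fun a => ⟨f a, hf j a⟩, by fun_prop⟩)) i := fun j i hi =>
    (good_homotopic (h₁ j).symm (by rw [discsMap_id]; exact Good.id n)).inj i hi
  refine ⟨fun w => ?_, fun i hi u v huv w hs ht => ?_, fun i hi u v huv hr => ?_⟩
  · let w' : C(Ball 0, B) := w
    obtain ⟨j, hj⟩ := exists_subset_of_compact ho hm hcov w'
    let W : C(Ball 0, O j) := ⟨fun x => ⟨w' x, hj x⟩, by fun_prop⟩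
    refine ⟨(g j).comp W, ?_⟩
    obtain ⟨H⟩ := h₂ j
    exact rel_of_homotopy
      ⟨fun q : Ball 0 × I => H (q.2, W q.1), by fun_prop⟩
      (fun x => H.apply_zero _) (fun x => H.apply_one _)
      fun x hx => by rw [Subsingleton.elim x.1 0, norm_zero] at hx; exact absurd hx (by norm_num)
  · let w' : C(Ball (i + 1), B) := w
    obtain ⟨j, hj⟩ := exists_subset_of_compact ho hm hcov w'
    let F : C(A, O j) := ⟨fun a => ⟨f a, hf j a⟩, by fun_prop⟩
    let W : C(Ball (i + 1), O j) := ⟨fun x => ⟨w' x, hj x⟩, by fun_prop⟩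
    have hWs : W.comp hemS = F.comp u :=
      ContinuousMap.ext fun x => Subtype.ext (DFunLike.congr_fun hs x)
    have hWt : W.comp hemT = F.comp v :=
      ContinuousMap.ext fun x => Subtype.ext (DFunLike.congr_fun ht x)
    obtain ⟨c, hcs, hct, hc⟩ :=
      (good_homotopic (h₁ j).symm (by rw [discsMap_id]; exact Good.id n)).surj i hi u v huv
        ((g j).comp W) (congrArg (fun z => (g j).comp z) hWs)
        (congrArg (fun z => (g j).comp z) hWt)
    let c' : C(Ball (i + 1), A) := c
    refine ⟨c, hcs, hct, ?_⟩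
    obtain ⟨H⟩ := h₂ j
    let K : C(O j, C(I, B)) := (H.toContinuousMap.comp ContinuousMap.prodSwap).curry
    have e0 : (evI 0).comp K = f.comp (g j) := ContinuousMap.ext fun a => H.apply_zero a
    have e1 : (evI 1).comp K = (⟨Subtype.val, continuous_subtype_val⟩ : C(O j, B)) :=
      ContinuousMap.ext fun a => H.apply_one a
    have hp : (discs (O j)).Par (F.comp c') W :=
      ⟨(congrArg (fun z => F.comp z) hcs).trans hWs.symm,
        (congrArg (fun z => F.comp z) hct).trans hWt.symm⟩
    have key : (discs C(I, B)).Rel (i + 1) (K.comp (F.comp c')) (K.comp W) := by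
      refine (good_evI₀ (i + 1)).inj (i + 1) le_rfl _ _
        (GlobSet.par_map (discsMap K) hp) ?_
      show (discs B).Rel (i + 1) (((evI 0).comp K).comp (F.comp c')) (((evI 0).comp K).comp W)
      rw [e0]
      exact hc.map (discsMap f)
    have key' : (discs B).Rel (i + 1) (((evI 1).comp K).comp (F.comp c'))
        (((evI 1).comp K).comp W) := key.map (discsMap (evI 1))
    rw [e1] at key'
    exact key'
  · obtain ⟨w, hs, ht⟩ := hr
    let w' : C(Ball (i + 1), B) := w
    obtain ⟨j, hj⟩ := exists_subset_of_compact ho hm hcov w'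
    let W : C(Ball (i + 1), O j) := ⟨fun x => ⟨w' x, hj x⟩, by fun_prop⟩
    refine hgf j i hi u v huv ⟨(g j).comp W, ?_, ?_⟩
    · exact congrArg (fun z => (g j).comp z)
        (ContinuousMap.ext fun x => Subtype.ext (DFunLike.congr_fun hs x) :
          W.comp hemS = ContinuousMap.comp ⟨fun a => ⟨f a, hf j a⟩, by fun_prop⟩ u)
    · exact congrArg (fun z => (g j).comp z)
        (ContinuousMap.ext fun x => Subtype.ext (DFunLike.congr_fun ht x) :
          W.comp hemT = ContinuousMap.comp ⟨fun a => ⟨f a, hf j a⟩, by fun_prop⟩ v)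

end Vale.Agent.P259
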