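import Vale.Agent.P259.HomSet
import Vale.Agent.P259.Criterion
import Vale.Agent.P259.ExistenceCells

/-!
# Disc functors: cells, maps out of a sum of discs, and contractibility
-/

noncomputable section

namespace Vale.Agent.P259

open CategoryTheory
open scoped unitInterval Topology

/-- A space with its compactly generated topology. -/
def KTop (Y : Type) : Type := Y

instance KTop.instTopologicalSpace (Y : Type) [TopologicalSpace Y] : TopologicalSpace (KTop Y) :=
  TopologicalSpace.compactlyGenerated.{0} Y

/-- A map from a compact Hausdorff space, into the compactly generated topology. -/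
def kincl {Y : Type} [TopologicalSpace Y] (S : CompHaus.{0}) (g : C(S, Y)) : C(S, KTop Y) where
  toFun s := g s
  continuous_toFun := by
    have h : @Continuous ((i : (T : CompHaus.{0}) × C(T, Y)) × i.fst) (KTop Y) inferInstance
        (KTop.instTopologicalSpace Y) (fun x => x.1.2 x.2) := continuous_coinduced_rng
    exact h.comp (continuous_sigmaMk (i := (⟨S, g⟩ : (T : CompHaus.{0}) × C(T, Y))))

instance KTop.instCompactlyGenerated (Y : Type) [TopologicalSpace Y] :
    UCompactlyGeneratedSpace.{0} (KTop Y) :=
  uCompactlyGeneratedSpace_of_continuous_maps fun {Z} _ f h =>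
    continuous_from_compactlyGenerated (X := Y) (fun y => f y) fun S g =>
      h S (kincl S g)

/-- Maps from a compactly generated space lift to the compactly generated topology. -/
def toK {X Y : Type} [TopologicalSpace X] [UCompactlyGeneratedSpace.{0} X] [TopologicalSpace Y]
    (f : C(X, Y)) : C(X, KTop Y) :=
  ⟨fun x => f x, continuous_from_uCompactlyGeneratedSpace _ fun S g =>
    (kincl S (f.comp g)).continuous⟩

/-- The compactly generated topology maps to the given one. -/
def fromK (Y : Type) [TopologicalSpace Y] : C(KTop Y, Y) :=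
  ⟨fun y => (y : Y), continuous_from_compactlyGenerated (X := Y) (fun y => y)
    fun _ g => g.continuous⟩

/-- A path of maps gives a homotopy between its ends. -/
theorem homotopic_of_path {X Y : Type} [TopologicalSpace X] [TopologicalSpace Y]
    (H : C(X, C(I, Y))) : ((evI 0).comp H).Homotopic ((evI 1).comp H) :=
  ⟨{ toFun := fun q => H q.2 q.1
     continuous_toFun := H.uncurry.continuous.comp continuous_swap
     map_zero_left := fun _ => rfl
     map_one_left := fun _ => rfl }⟩

namespace DiscFunctor

variable {C : GlobExt} (D : DiscFunctor C)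

/-- The disc of a cell. -/
def cellDisc {S : Tree} (n : ℕ) (c : S.Cell n) : C(Ball n, D.space S) :=
  ((D.map (C.emb (Tree.cellGlob c))).hom.hom).comp ⟨(D.disc n).symm, (D.disc n).symm.continuous⟩

theorem map_σ_apply {n : ℕ} (p : D.space (Tree.disc n)) :
    D.disc (n + 1) (D.map (C.σ n) p) = hemS (D.disc n p) := by
  apply Subtype.ext
  refine (D.disc_σ n p).trans ?_
  show hemisphere (-1) (D.disc n p).1 = _
  rw [hemS_val]
  simp [hemisphere, Eu.snoc, width]

theorem map_τ_apply {n : ℕ} (p : D.space (Tree.disc n)) :
    D.disc (n + 1) (D.map (C.τ n) p) = hemT (D.disc n p) := by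
  apply Subtype.ext
  refine (D.disc_τ n p).trans ?_
  show hemisphere 1 (D.disc n p).1 = _
  rw [hemT_val]
  simp [hemisphere, Eu.snoc, width]

/-- The cells of a sum of discs, as discs in its space. -/
def cellDiscs (S : Tree) : GlobMap S.glob (discs (D.space S)) where
  app := D.cellDisc
  comm_s n c := by
    refine ContinuousMap.ext fun x => ?_
    show D.map (C.emb (Tree.cellGlob c)) ((D.disc (n + 1)).symm (hemS x)) =
      D.map (C.emb (Tree.cellGlob (S.src n c))) ((D.disc n).symm x)
    refine Eq.trans ?_ (congrArg (fun θ => D.map (C.emb θ) ((D.disc n).symm x))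
      (σG_comp_cellGlob (S := S) c))
    show _ = D.map (C.emb ((σG n).comp (Tree.cellGlob (S := S) c))) ((D.disc n).symm x)
    rw [C.emb_comp, D.map_comp]
    show _ = D.map (C.emb (Tree.cellGlob c)) (D.map (C.σ n) ((D.disc n).symm x))
    congr 1
    apply (D.disc (n + 1)).injective
    rw [map_σ_apply, Homeomorph.apply_symm_apply, Homeomorph.apply_symm_apply]
  comm_t n c := by
    refine ContinuousMap.ext fun x => ?_
    show D.map (C.emb (Tree.cellGlob c)) ((D.disc (n + 1)).symm (hemT x)) =
      D.map (C.emb (Tree.cellGlob (S.tgt n c))) ((D.disc n).symm x)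
    refine Eq.trans ?_ (congrArg (fun θ => D.map (C.emb θ) ((D.disc n).symm x))
      (τG_comp_cellGlob (S := S) c))
    show _ = D.map (C.emb ((τG n).comp (Tree.cellGlob (S := S) c))) ((D.disc n).symm x)
    rw [C.emb_comp, D.map_comp]
    show _ = D.map (C.emb (Tree.cellGlob c)) (D.map (C.τ n) ((D.disc n).symm x))
    congr 1
    apply (D.disc (n + 1)).injective
    rw [map_τ_apply, Homeomorph.apply_symm_apply, Homeomorph.apply_symm_apply]

/-- Maps out of a sum of discs into any space are the compatible families of discs. -/
theorem exists_desc {S : Tree} {Y : Type} [TopologicalSpace Y] (f : GlobMap S.glob (discs Y)) :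
    ∃! g : C(D.space S, Y), ∀ n (c : S.Cell n), g.comp (D.cellDisc n c) = f.app n c := by
  let a : ∀ n, S.Cell n → (D.space (Tree.disc n) ⟶ CompactlyGenerated.of (KTop Y)) := fun n c =>
    ConcreteCategory.ofHom (toK ((f.app n c : C(Ball n, Y)).comp ⟨D.disc n, (D.disc n).continuous⟩))
  obtain ⟨g, hg, hu⟩ := D.colimit (CompactlyGenerated.of (KTop Y)) a
    (fun n c => by
      ext p
      show (f.app (n + 1) c : C(Ball (n + 1), Y)) (D.disc (n + 1) (D.map (C.σ n) p)) =
        (f.app n (S.src n c) : C(Ball n, Y)) (D.disc n p)
      rw [map_σ_apply]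
      exact DFunLike.congr_fun (f.comm_s n c) (D.disc n p))
    (fun n c => by
      ext p
      show (f.app (n + 1) c : C(Ball (n + 1), Y)) (D.disc (n + 1) (D.map (C.τ n) p)) =
        (f.app n (S.tgt n c) : C(Ball n, Y)) (D.disc n p)
      rw [map_τ_apply]
      exact DFunLike.congr_fun (f.comm_t n c) (D.disc n p))
  refine ⟨(fromK Y).comp g.hom.hom, fun n c => ContinuousMap.ext fun x => ?_, fun g' hg' => ?_⟩
  · have h := congrArg (fun φ : D.space (Tree.disc n) ⟶ CompactlyGenerated.of (KTop Y) =>
      fromK Y (φ ((D.disc n).symm x))) (hg n c)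
    refine Eq.trans (Eq.trans ?_ h) ?_
    · rfl
    · show (f.app n c : C(Ball n, Y)) (D.disc n ((D.disc n).symm x)) = _
      rw [Homeomorph.apply_symm_apply]
  · have h := hu (ConcreteCategory.ofHom (toK g')) fun n c => by
      ext p
      show g' (D.map (C.emb (Tree.cellGlob c)) p) = (f.app n c : C(Ball n, Y)) (D.disc n p)
      rw [← hg' n c]
      show _ = g' (D.map (C.emb (Tree.cellGlob c)) ((D.disc n).symm (D.disc n p)))
      rw [Homeomorph.symm_apply_apply]
    rw [← h]
    rfl

/-- The map out of a sum of discs given by a compatible family of discs. -/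
def desc {S : Tree} {Y : Type} [TopologicalSpace Y] (f : GlobMap S.glob (discs Y)) :
    C(D.space S, Y) :=
  Classical.choose (D.exists_desc f).exists

theorem desc_cellDisc {S : Tree} {Y : Type} [TopologicalSpace Y] (f : GlobMap S.glob (discs Y))
    (n : ℕ) (c : S.Cell n) : (D.desc f).comp (D.cellDisc n c) = f.app n c :=
  Classical.choose_spec (D.exists_desc f).exists n c

theorem maps_ext {S : Tree} {Y : Type} [TopologicalSpace Y] {g g' : C(D.space S, Y)}
    (h : ∀ n (c : S.Cell n), g.comp (D.cellDisc n c) = g'.comp (D.cellDisc n c)) : g = g' :=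
  (D.exists_desc ((D.cellDiscs S).comp (discsMap g'))).unique h fun _ _ => rfl

/-- The point of the first vertex. -/
def basePoint (S : Tree) : D.space S := D.cellDisc 0 S.first (south 0)

variable (h t : Tree)

/-- The tail of a tree, as a part of it. -/
def tailIn : GlobMap t.glob (Tree.cons h t).glob where
  app n := match n with
    | 0 => fun c => some c
    | _ + 1 => fun c => Sum.inr c
  comm_s n c := by cases n <;> rfl
  comm_t n c := by cases n <;> rfl

/-- The point of the vertex before the head. -/
def startPt : D.space (Tree.cons h t) := D.cellDisc (S := Tree.cons h t) 0 none (south 0)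

/-- The point of the vertex after the head. -/
def endPt : D.space (Tree.cons h t) :=
  D.cellDisc (S := Tree.cons h t) 0 (some t.first) (south 0)

theorem vs_inl : ∀ (n : ℕ) (c : h.Cell n), (Tree.cons h t).glob.vs (n + 1) (Sum.inl c) = none
  | 0, _ => rfl
  | n + 1, c => vs_inl n (h.src n c)

theorem vt_inl : ∀ (n : ℕ) (c : h.Cell n),
    (Tree.cons h t).glob.vt (n + 1) (Sum.inl c) = some t.first
  | 0, _ => rfl
  | n + 1, c => vt_inl n (h.tgt n c)

/-- The head of a tree, as hom cells. -/
def headHom : GlobMap h.glob
    ((discs (D.space (Tree.cons h t))).hom (ptDisc (D.startPt h t)) (ptDisc (D.endPt h t))) where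
  app n c := ⟨(D.cellDiscs (Tree.cons h t)).app (n + 1) (Sum.inl c),
    (GlobSet.vs_map (D.cellDiscs (Tree.cons h t)) (n + 1) (Sum.inl c)).trans
      ((congrArg ((D.cellDiscs (Tree.cons h t)).app 0) (vs_inl h t n c)).trans (ptDisc_eq _).symm),
    (GlobSet.vt_map (D.cellDiscs (Tree.cons h t)) (n + 1) (Sum.inl c)).trans
      ((congrArg ((D.cellDiscs (Tree.cons h t)).app 0) (vt_inl h t n c)).trans (ptDisc_eq _).symm)⟩
  comm_s n c := Subtype.ext ((D.cellDiscs (Tree.cons h t)).comm_s (n + 1) (Sum.inl c))
  comm_t n c := Subtype.ext ((D.cellDiscs (Tree.cons h t)).comm_t (n + 1) (Sum.inl c))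

/-- The suspended head. -/
def headPath : C(D.space h, Path (D.startPt h t) (D.endPt h t)) :=
  D.desc ((D.headHom h t).comp (homToPath (D.startPt h t) (D.endPt h t)))

theorem headPath_cell {n : ℕ} (c : h.Cell n) (u : I) (x : Ball n) :
    D.headPath h t (D.cellDisc n c x) u =
      D.cellDisc (S := Tree.cons h t) (n + 1) (Sum.inl c) (susp (u, x)) := by
  have := DFunLike.congr_fun
    (D.desc_cellDisc ((D.headHom h t).comp (homToPath (D.startPt h t) (D.endPt h t))) n c) x
  exact congrArg (fun γ : Path (D.startPt h t) (D.endPt h t) => γ u) this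

/-- The inclusion of the tail. -/
def tailMap : C(D.space t, D.space (Tree.cons h t)) :=
  D.desc ((tailIn h t).comp (D.cellDiscs (Tree.cons h t)))

theorem tailMap_base : D.tailMap h t (D.basePoint t) = D.endPt h t :=
  DFunLike.congr_fun (D.desc_cellDisc ((tailIn h t).comp (D.cellDiscs (Tree.cons h t))) 0 t.first)
    (south 0)

variable {h t}

/-- Maps out of a tree are determined on the suspended head and on the tail. -/
theorem cons_ext {Z : Type} [TopologicalSpace Z] {G G' : C(D.space (Tree.cons h t), Z)}
    (hL : ∀ q u, G (D.headPath h t q u) = G' (D.headPath h t q u))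
    (hJ : ∀ q, G (D.tailMap h t q) = G' (D.tailMap h t q)) : G = G' := by
  refine D.maps_ext fun n c => ContinuousMap.ext fun x => ?_
  have hj : ∀ (m : ℕ) (d : t.Cell m) (y : Ball m),
      D.tailMap h t (D.cellDisc m d y) =
        D.cellDisc (S := Tree.cons h t) m ((tailIn h t).app m d) y := fun m d y =>
    DFunLike.congr_fun (D.desc_cellDisc ((tailIn h t).comp (D.cellDiscs (Tree.cons h t))) m d) y
  match n, c, x with
  | 0, none, x =>
    have e : D.cellDisc (S := Tree.cons h t) 0 none x = D.headPath h t (D.basePoint h) 0 := by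
      rw [Path.source]
      exact congrArg _ (Subtype.ext (Subsingleton.elim _ _))
    show G (D.cellDisc (S := Tree.cons h t) 0 none x) =
      G' (D.cellDisc (S := Tree.cons h t) 0 none x)
    rw [e]
    exact hL _ _
  | 0, some d, x =>
    have := hJ (D.cellDisc 0 d x)
    rw [hj] at this
    exact this
  | m + 1, Sum.inr d, x =>
    have := hJ (D.cellDisc (m + 1) d x)
    rw [hj] at this
    exact this
  | m + 1, Sum.inl d, x =>
    obtain ⟨⟨u, y⟩, rfl⟩ := susp_surjective x
    have := hL (D.cellDisc m d y) u
    rw [D.headPath_cell h t] at this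
    exact this

/-- Maps out of a tree from a family of paths on the head and a map on the tail. -/
theorem exists_cons {Z : Type} [TopologicalSpace Z] {A B : Z} (Φ : C(D.space h, Path A B))
    (F : C(D.space t, Z)) (hF : F (D.basePoint t) = B) :
    ∃ G : C(D.space (Tree.cons h t), Z),
      (∀ q u, G (D.headPath h t q u) = Φ q u) ∧ ∀ q, G (D.tailMap h t q) = F q := by
  let φ := ((D.cellDiscs h).comp (discsMap Φ)).comp (pathToHom A B)
  let ψ := (D.cellDiscs t).comp (discsMap F)
  have hB : ψ.app 0 t.first = ptDisc B := by rw [← hF]; exact (ptDisc_eq _).symm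
  let f : GlobMap (Tree.cons h t).glob (discs Z) :=
    { app := fun n => match n with
        | 0 => fun c => match c with
          | none => ptDisc A
          | some d => ψ.app 0 d
        | m + 1 => fun c => match c with
          | Sum.inl d => (φ.app m d).1
          | Sum.inr d => ψ.app (m + 1) d
      comm_s := fun n c => by
        match n, c with
        | 0, Sum.inl d => exact (φ.app 0 d).2.1
        | 0, Sum.inr d => exact ψ.comm_s 0 d
        | m + 1, Sum.inl d => exact congrArg Subtype.val (φ.comm_s m d)
        | m + 1, Sum.inr d => exact ψ.comm_s (m + 1) d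
      comm_t := fun n c => by
        match n, c with
        | 0, Sum.inl d => exact (φ.app 0 d).2.2.trans hB.symm
        | 0, Sum.inr d => exact ψ.comm_t 0 d
        | m + 1, Sum.inl d => exact congrArg Subtype.val (φ.comm_t m d)
        | m + 1, Sum.inr d => exact ψ.comm_t (m + 1) d }
  refine ⟨D.desc f, fun q u => ?_, fun q => ?_⟩
  · let P : C(D.space h, C(I, Z)) :=
      ⟨fun q => (Φ q).toContinuousMap, ContinuousMap.continuous_of_continuous_uncurry _
        (Path.continuous_uncurry_iff.2 Φ.continuous)⟩
    let Q : C(D.space h, C(I, Z)) :=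
      ⟨fun q => (D.desc f).comp (D.headPath h t q).toContinuousMap,
        ContinuousMap.continuous_of_continuous_uncurry _ ((D.desc f).continuous.comp
          (Path.continuous_uncurry_iff.2 (D.headPath h t).continuous))⟩
    have e : Q = P := D.maps_ext fun n c => ContinuousMap.ext fun x => ContinuousMap.ext fun u => by
      show D.desc f (D.headPath h t (D.cellDisc n c x) u) = Φ (D.cellDisc n c x) u
      rw [D.headPath_cell h t]
      refine (DFunLike.congr_fun (D.desc_cellDisc f (n + 1) (Sum.inl c)) (susp (u, x))).trans ?_
      exact uncurryPath_susp A B (Φ.comp (D.cellDisc n c)) u x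
    exact DFunLike.congr_fun (DFunLike.congr_fun e q) u
  · have e : (D.desc f).comp (D.tailMap h t) = F := D.maps_ext fun n c => by
      show (D.desc f).comp ((D.tailMap h t).comp (D.cellDisc n c)) = _
      rw [show (D.tailMap h t).comp (D.cellDisc n c) = _ from D.desc_cellDisc _ n c]
      cases n with
      | zero => exact D.desc_cellDisc f 0 (some c)
      | succ m => exact D.desc_cellDisc f (m + 1) (Sum.inr c)
    exact DFunLike.congr_fun e q

/-- The space of a globular sum is contractible. -/
theorem contractible (S : Tree) :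
    ∃ x, (ContinuousMap.id (D.space S)).Homotopic (ContinuousMap.const _ x) := by
  induction S with
  | nil =>
    refine ⟨D.basePoint Tree.nil, ?_⟩
    have : ContinuousMap.id (D.space Tree.nil) =
        ContinuousMap.const _ (D.basePoint Tree.nil) := ContinuousMap.ext fun p => by
      apply (D.disc 0).injective
      exact Subtype.ext (Subsingleton.elim _ _)
    rw [this]
  | cons h t ihh iht =>
    obtain ⟨q₀, ⟨Hh⟩⟩ := ihh
    obtain ⟨p, hp⟩ := iht
    let L := D.headPath h t
    let J := D.tailMap h t
    have hLc : Continuous fun q : D.space h × I => L q.1 q.2 :=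
      Path.continuous_uncurry_iff.2 L.continuous
    -- the first homotopy contracts the head
    let a' : C(I, D.space (Tree.cons h t)) := ContinuousMap.const _ (D.startPt h t)
    let b' : C(I, D.space (Tree.cons h t)) := ContinuousMap.const _ (D.endPt h t)
    let Ψ₁ : C((D.space h × I) × I, D.space (Tree.cons h t)) :=
      ⟨fun z => L (Hh (z.2, z.1.1)) z.1.2, hLc.comp (by fun_prop : Continuous
        fun z : (D.space h × I) × I => (Hh (z.2, z.1.1), z.1.2))⟩
    let Φ₁ : C(D.space h, Path a' b') :=
      { toFun := fun q =>
          { toFun := fun u => Ψ₁.curry (q, u)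
            continuous_toFun := Ψ₁.curry.continuous.comp (by fun_prop)
            source' := ContinuousMap.ext fun s => (L _).source
            target' := ContinuousMap.ext fun s => (L _).target }
        continuous_toFun := Path.continuous_uncurry_iff.1 Ψ₁.curry.continuous }
    let F₁ : C(D.space t, C(I, D.space (Tree.cons h t))) :=
      (ContinuousMap.const (D.space t × I) (D.endPt h t)).curry
    let F₁' : C(D.space t, C(I, D.space (Tree.cons h t))) := (J.comp ContinuousMap.fst).curry
    have hF₁ : F₁' (D.basePoint t) = b' := ContinuousMap.ext fun _ => D.tailMap_base h t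
    obtain ⟨G₁, hG₁L, hG₁J⟩ := D.exists_cons Φ₁ F₁' hF₁
    -- the second homotopy slides the contracted head to its end
    let L₀ : Path (D.startPt h t) (D.endPt h t) := L q₀
    let smax : C((D.space h × I) × I, I) := ⟨fun z => max z.1.2 z.2, by fun_prop⟩
    let Ψ₂ : C((D.space h × I) × I, D.space (Tree.cons h t)) := L₀.toContinuousMap.comp smax
    let Φ₂ : C(D.space h, Path L₀.toContinuousMap b') :=
      { toFun := fun q =>
          { toFun := fun u => Ψ₂.curry (q, u)
            continuous_toFun := Ψ₂.curry.continuous.comp (by fun_prop)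
            source' := ContinuousMap.ext fun s => congrArg L₀ (max_eq_right s.2.1)
            target' := ContinuousMap.ext fun s => by
              show L₀ (max 1 s) = D.endPt h t
              rw [max_eq_left (show s ≤ 1 from s.2.2), Path.target] }
        continuous_toFun := Path.continuous_uncurry_iff.1 Ψ₂.curry.continuous }
    obtain ⟨G₂, hG₂L, hG₂J⟩ := D.exists_cons Φ₂ F₁' hF₁
    let Φ₃ : C(D.space h, Path (D.basePoint t) (D.basePoint t)) :=
      ContinuousMap.const _ (Path.refl _)
    obtain ⟨r, hrL, hrJ⟩ := D.exists_cons Φ₃ (ContinuousMap.id _) rfl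
    have e₀ : (evI 0).comp G₁ = ContinuousMap.id _ := D.cons_ext
      (fun q u => by
        show G₁ (L q u) 0 = L q u
        rw [hG₁L]
        show L (Hh (0, q)) u = L q u
        rw [Hh.apply_zero]
        rfl)
      (fun q => by
        show G₁ (J q) 0 = J q
        rw [hG₁J]
        rfl)
    have e₁ : (evI 1).comp G₁ = (evI 0).comp G₂ := D.cons_ext
      (fun q u => by
        show G₁ (L q u) 1 = G₂ (L q u) 0
        rw [hG₁L, hG₂L]
        show L (Hh (1, q)) u = L₀ (max u 0)
        rw [Hh.apply_one, max_eq_left (show (0 : I) ≤ u from u.2.1)]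
        rfl)
      (fun q => by
        show G₁ (J q) 1 = G₂ (J q) 0
        rw [hG₁J, hG₂J]
        rfl)
    have e₂ : (evI 1).comp G₂ = J.comp r := D.cons_ext
      (fun q u => by
        show G₂ (L q u) 1 = J (r (L q u))
        rw [hG₂L, hrL]
        show L₀ (max u 1) = J (D.basePoint t)
        rw [max_eq_right (show u ≤ 1 from u.2.2), Path.target]
        exact (D.tailMap_base h t).symm)
      (fun q => by
        show G₂ (J q) 1 = J (r (J q))
        rw [hG₂J, hrJ]
        rfl)
    refine ⟨J p, ?_⟩
    have h₁ := homotopic_of_path G₁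
    rw [e₀, e₁] at h₁
    have h₂ := homotopic_of_path G₂
    rw [e₂] at h₂
    have h₃ : (J.comp r).Homotopic (ContinuousMap.const _ (J p)) := by
      have h4 := ((ContinuousMap.Homotopic.refl J).comp hp).comp (ContinuousMap.Homotopic.refl r)
      exact h4
    exact (h₁.trans h₂).trans h₃

end DiscFunctor

end Vale.Agent.P259
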