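import Vale.Agent.P259.Defs

/-!
# Maps out of a coherator
-/

noncomputable section

namespace Vale.Agent.P259

/-- The identity morphism of extensions. -/
def ExtHom.comp {A B C : GlobExt} (F : ExtHom A B) (G : ExtHom B C) : ExtHom A C where
  map f := G.map (F.map f)
  map_comp f g := by rw [F.map_comp, G.map_comp]
  map_emb f := by rw [F.map_emb, G.map_emb]

theorem GlobExt.parallel_map {A B : GlobExt} (F : ExtHom A B) {n : ℕ} {S : Tree}
    {f g : A.Hom (Tree.disc n) S} (h : A.Parallel f g) : B.Parallel (F.map f) (F.map g) := by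
  cases n with
  | zero => exact True.intro
  | succ n =>
    obtain ⟨h₁, h₂⟩ := h
    exact ⟨by rw [GlobExt.σ, ← F.map_emb, ← F.map_comp, ← F.map_comp]; exact congrArg F.map h₁,
      by rw [GlobExt.τ, ← F.map_emb, ← F.map_comp, ← F.map_comp]; exact congrArg F.map h₂⟩

theorem GlobExt.isLift_map {A B : GlobExt} (F : ExtHom A B) {n : ℕ} {S : Tree}
    {f g : A.Hom (Tree.disc n) S} {h : A.Hom (Tree.disc (n + 1)) S} (hh : A.IsLift f g h) :
    B.IsLift (F.map f) (F.map g) (F.map h) := by
  constructor
  · rw [GlobExt.σ, ← F.map_emb, ← F.map_comp]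
    exact congrArg F.map hh.1
  · rw [GlobExt.τ, ← F.map_emb, ← F.map_comp]
    exact congrArg F.map hh.2

namespace Coherator

variable (K : Coherator) {E : GlobExt}

theorem map_stepIter (G : ∀ k, ExtHom (K.stage k) E)
    (hG : ∀ k {S T : Tree} (f : (K.stage k).Hom S T), (G (k + 1)).map ((K.step k).map f) = (G k).map f)
    (k : ℕ) {S T : Tree} (f : (K.stage k).Hom S T) :
    ∀ d, (G (k + d)).map (stepIter K.stage K.step k f d) = (G k).map f
  | 0 => rfl
  | d + 1 => (hG (k + d) _).trans (map_stepIter G hG k f d)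

/-- A compatible family of maps out of the stages extends to the colimit. -/
theorem exists_desc (G : ∀ k, ExtHom (K.stage k) E)
    (hG : ∀ k {S T : Tree} (f : (K.stage k).Hom S T), (G (k + 1)).map ((K.step k).map f) = (G k).map f) :
    ∃ H : ExtHom K.colim E, ∀ k {S T : Tree} (f : (K.stage k).Hom S T),
      H.map ((K.incl k).map f) = (G k).map f := by
  have step_emb : ∀ k d {S T : Tree} (f : (K.stage k).Hom S T),
      (K.incl (k + d)).map (stepIter K.stage K.step k f d) = (K.incl k).map f :=
    fun k d S T f => K.map_stepIter K.incl (fun k _ _ f => K.incl_step k f) k f d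
  have key : ∀ k l {S T : Tree} (f : (K.stage k).Hom S T) (g : (K.stage l).Hom S T),
      (K.incl k).map f = (K.incl l).map g → (G k).map f = (G l).map g := by
    suffices h : ∀ k e {S T : Tree} (f : (K.stage k).Hom S T) (g : (K.stage (k + e)).Hom S T),
        (K.incl k).map f = (K.incl (k + e)).map g → (G k).map f = (G (k + e)).map g by
      intro k l S T f g hfg
      rcases Nat.le_total k l with hkl | hkl
      · obtain ⟨e, rfl⟩ := Nat.exists_eq_add_of_le hkl
        exact h k e f g hfg
      · obtain ⟨e, rfl⟩ := Nat.exists_eq_add_of_le hkl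
        exact (h l e g f hfg.symm).symm
    intro k e S T f g hfg
    obtain ⟨d, hd⟩ := K.incl_inj (k + e) (stepIter K.stage K.step k f e) g
      ((step_emb k e f).trans hfg)
    have h := congrArg (G (k + e + d)).map hd
    rw [K.map_stepIter G hG, K.map_stepIter G hG, K.map_stepIter G hG] at h
    exact h
  choose lv rep hrep using fun (S T : Tree) (f : K.colim.Hom S T) => K.incl_surj f
  have hval : ∀ k {S T : Tree} (f : (K.stage k).Hom S T),
      (G (lv S T ((K.incl k).map f))).map (rep S T ((K.incl k).map f)) = (G k).map f :=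
    fun k S T f => key _ _ _ _ (hrep S T _)
  refine ⟨{ map := fun {S T} f => (G (lv S T f)).map (rep S T f)
            map_comp := fun {S T U} f g => ?_
            map_emb := fun {S T} f => ?_ }, hval⟩
  · obtain ⟨k, f', rfl⟩ := K.incl_surj f
    obtain ⟨l, g', rfl⟩ := K.incl_surj g
    have lift : ∀ k e {S T : Tree} (f : (K.stage k).Hom S T) m, k + e = m →
        ∃ f'' : (K.stage m).Hom S T, (K.incl m).map f'' = (K.incl k).map f := by
      rintro k e S T f m rfl
      exact ⟨_, step_emb k e f⟩
    obtain ⟨f'', hf⟩ := lift k l f' (k + l) rfl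
    obtain ⟨g'', hg⟩ := lift l k g' (k + l) (Nat.add_comm l k)
    rw [← hf, ← hg, ← (K.incl (k + l)).map_comp, hval, hval, hval, (G (k + l)).map_comp]
  · rw [← (K.incl 0).map_emb, hval, (G 0).map_emb]

/-- The map from stage zero. -/
def fromZero (E : GlobExt) : ExtHom (K.stage 0) E where
  map f := E.emb (Classical.choose ((K.stage_zero _ _).surjective f))
  map_comp {S T U} f g := by
    rw [← E.emb_comp]
    refine congrArg E.emb ((K.stage_zero _ _).injective ?_)
    rw [Classical.choose_spec ((K.stage_zero _ _).surjective ((K.stage 0).comp f g)),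
      (K.stage 0).emb_comp, Classical.choose_spec ((K.stage_zero _ _).surjective f),
      Classical.choose_spec ((K.stage_zero _ _).surjective g)]
  map_emb f := by
    refine congrArg E.emb ((K.stage_zero _ _).injective ?_)
    exact Classical.choose_spec ((K.stage_zero _ _).surjective _)

/-- If pairs over a map to the colimit lift over every lift, the map has a section. -/
theorem exists_section_ext (P : ExtHom E K.colim)
    (hlift : ∀ {n : ℕ} {S : Tree} (f g : E.Hom (Tree.disc n) S), E.Parallel f g →
      ∀ h, K.colim.IsLift (P.map f) (P.map g) h → ∃ h', E.IsLift f g h' ∧ P.map h' = h) :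
    ∃ G : ExtHom K.colim E, ∀ {S T : Tree} (f : K.colim.Hom S T), P.map (G.map f) = f := by
  have hstep : ∀ k (G : {G : ExtHom (K.stage k) E //
      ∀ (S T : Tree) (f : (K.stage k).Hom S T), P.map (G.map f) = (K.incl k).map f}),
      ∃ G' : {G : ExtHom (K.stage (k + 1)) E //
        ∀ (S T : Tree) (f : (K.stage (k + 1)).Hom S T), P.map (G.map f) = (K.incl (k + 1)).map f},
      ∀ {S T : Tree} (f : (K.stage k).Hom S T), G'.1.map ((K.step k).map f) = G.1.map f := by
    rintro k ⟨G, hG⟩
    obtain ⟨hlifts, huniv⟩ := K.universal k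
    have hinc : ∀ i, K.colim.IsLift (P.map (G.map (K.pair k i).f)) (P.map (G.map (K.pair k i).g))
        ((K.incl (k + 1)).map (K.adjoined k i)) := fun i => by
      rw [hG, hG]
      have h := GlobExt.isLift_map (K.incl (k + 1)) (hlifts i)
      rwa [K.incl_step, K.incl_step] at h
    choose h' hh' hPh' using fun i =>
      hlift _ _ (GlobExt.parallel_map G (K.pair k i).parallel) _ (hinc i)
    obtain ⟨G', ⟨hG', hadj⟩, -⟩ := huniv E G h' hh'
    refine ⟨⟨G', ?_⟩, hG'⟩
    have e : G'.comp P = K.incl (k + 1) := by
      refine (huniv K.colim (K.incl k) (fun i => (K.incl (k + 1)).map (K.adjoined k i))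
        (fun i => ?_)).unique ⟨fun f => ?_, fun i => ?_⟩ ⟨fun f => K.incl_step k f, fun _ => rfl⟩
      · have := hinc i; rwa [hG, hG] at this
      · show P.map (G'.map _) = _
        rw [hG', hG]
      · show P.map (G'.map _) = _
        rw [hadj, hPh']
    exact fun S T f => congrArg (fun H : ExtHom (K.stage (k + 1)) K.colim => H.map f) e
  choose next hnext using hstep
  have h0 : ∀ (S T : Tree) (f : (K.stage 0).Hom S T),
      P.map ((K.fromZero E).map f) = (K.incl 0).map f := fun S T f => by
    obtain ⟨g, rfl⟩ := (K.stage_zero S T).surjective f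
    rw [(K.fromZero E).map_emb, P.map_emb, (K.incl 0).map_emb]
  let seq : ∀ k, {G : ExtHom (K.stage k) E //
      ∀ (S T : Tree) (f : (K.stage k).Hom S T), P.map (G.map f) = (K.incl k).map f} :=
    fun k => Nat.rec ⟨K.fromZero E, h0⟩ (fun k G => next k G) k
  obtain ⟨H, hH⟩ := K.exists_desc (fun k => (seq k).1) (fun k _ _ f => hnext k (seq k) f)
  refine ⟨H, fun {S T} f => ?_⟩
  obtain ⟨k, g, rfl⟩ := K.incl_surj f
  rw [hH, (seq k).2]

/-- A coherator maps to every contractible globular extension. -/
theorem exists_extHom (hE : E.Contractible) : Nonempty (ExtHom K.colim E) := by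
  have hstep : ∀ k (G : ExtHom (K.stage k) E), ∃ G' : ExtHom (K.stage (k + 1)) E,
      ∀ {S T : Tree} (f : (K.stage k).Hom S T), G'.map ((K.step k).map f) = G.map f := by
    intro k G
    obtain ⟨-, huniv⟩ := K.universal k
    choose h' hh' using fun i => hE _ _ (GlobExt.parallel_map G (K.pair k i).parallel)
    obtain ⟨G', ⟨hG', -⟩, -⟩ := huniv E G h' hh'
    exact ⟨G', hG'⟩
  choose next hnext using hstep
  let seq : ∀ k, ExtHom (K.stage k) E := fun k => Nat.rec (K.fromZero E) (fun k G => next k G) k
  obtain ⟨H, -⟩ := K.exists_desc seq (fun k _ _ f => hnext k (seq k) f)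
  exact ⟨H⟩

end Coherator

end Vale.Agent.P259
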