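import Vale.Agent.P259.DiscBasics
import Vale.Agent.P259.Universal

/-!
# Disc functors exist for every coherator
-/

noncomputable section

namespace Vale.Agent.P259

open CategoryTheory
open scoped unitInterval Topology

namespace SumDiscs

variable (S : Tree)

/-- The disjoint sum of the discs of the cells. -/
abbrev Pieces : Type := Σ p : (Σ n, S.Cell n), Ball p.1

/-- A boundary point is glued to the point of the face. -/
def Step (x y : Pieces S) : Prop :=
  ∃ n, ∃ c : S.Cell (n + 1), ∃ q : Ball n,
    (x = ⟨⟨n, S.src n c⟩, q⟩ ∧ y = ⟨⟨n + 1, c⟩, hemS q⟩) ∨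
    (x = ⟨⟨n, S.tgt n c⟩, q⟩ ∧ y = ⟨⟨n + 1, c⟩, hemT q⟩)

/-- The sum of discs of a globular sum. -/
abbrev Carrier : Type := Quotient (Relation.EqvGen.setoid (Step S))

/-- The disc of a cell. -/
def cells : GlobMap S.glob (discs (Carrier S)) where
  app n c := ⟨fun q => Quotient.mk _ (⟨⟨n, c⟩, q⟩ : Pieces S),
    continuous_quotient_mk'.comp (continuous_sigmaMk (i := (⟨n, c⟩ : Σ n, S.Cell n)))⟩
  comm_s n c := ContinuousMap.ext fun q =>
    (Quotient.sound (Relation.EqvGen.rel _ _ ⟨n, c, q, Or.inl ⟨rfl, rfl⟩⟩)).symm
  comm_t n c := ContinuousMap.ext fun q =>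
    (Quotient.sound (Relation.EqvGen.rel _ _ ⟨n, c, q, Or.inr ⟨rfl, rfl⟩⟩)).symm

variable {S}

/-- The map out of a sum of discs. -/
def lift {Y : Type} [TopologicalSpace Y] (f : GlobMap S.glob (discs Y)) : C(Carrier S, Y) where
  toFun := Quotient.lift (fun x : Pieces S => (f.app x.1.1 x.1.2 : C(Ball x.1.1, Y)) x.2)
    fun x y h => by
      induction h with
      | rel x y h =>
        obtain ⟨n, c, q, ⟨rfl, rfl⟩ | ⟨rfl, rfl⟩⟩ := h
        · exact (DFunLike.congr_fun (f.comm_s n c) q).symm
        · exact (DFunLike.congr_fun (f.comm_t n c) q).symm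
      | refl => rfl
      | symm _ _ _ ih => exact ih.symm
      | trans _ _ _ _ _ ih ih' => exact ih.trans ih'
  continuous_toFun := Continuous.quotient_lift
    (continuous_sigma fun p => (f.app p.1 p.2 : C(Ball p.1, Y)).continuous) _

theorem hom_ext {Y : Type} [TopologicalSpace Y] {g g' : C(Carrier S, Y)}
    (h : ∀ n (c : S.Cell n) (q : Ball n), g ((cells S).app n c q) = g' ((cells S).app n c q)) :
    g = g' :=
  ContinuousMap.ext fun x => Quotient.inductionOn x fun ⟨⟨n, c⟩, q⟩ => h n c q

/-- The functoriality. -/
def push {T : Tree} (θ : GlobMap S.glob T.glob) : C(Carrier S, Carrier T) :=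
  lift (θ.comp (cells T))

/-- The identity disc as a cell of the discs of a ball. -/
def topDisc (n : ℕ) : GlobMap (Tree.disc n).glob (discs (Ball n)) where
  app := classify (discs (Ball n)) n (ContinuousMap.id (Ball n))
  comm_s := classify_comm_s (discs (Ball n)) n (ContinuousMap.id (Ball n))
  comm_t := classify_comm_t (discs (Ball n)) n (ContinuousMap.id (Ball n))

/-- The sum of the discs of the cells of a disc is the disc. -/
def discHomeo (n : ℕ) : Carrier (Tree.disc n) ≃ₜ Ball n where
  toFun := lift (topDisc n)
  invFun q := (cells (Tree.disc n)).app n (Tree.top n) q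
  left_inv := by
    have key : (cells (Tree.disc n)) =
        (topDisc n).comp (discsMap ((cells (Tree.disc n)).app n (Tree.top n))) :=
      GlobMap.disc_ext (congrArg
        (fun w => ContinuousMap.comp ((cells (Tree.disc n)).app n (Tree.top n)) w)
        (classify_top (discs (Ball n)) n (ContinuousMap.id (Ball n)))).symm
    intro x
    refine DFunLike.congr_fun (hom_ext
      (g := ContinuousMap.comp ((cells (Tree.disc n)).app n (Tree.top n)) (lift (topDisc n)))
      (g' := ContinuousMap.id _) fun m c q => ?_) x
    exact (DFunLike.congr_fun (congrArg (fun φ => GlobMap.app φ m c) key) q).symm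
  right_inv q := DFunLike.congr_fun
    (classify_top (discs (Ball n)) n (ContinuousMap.id (Ball n))) q
  continuous_toFun := (lift (topDisc n)).continuous
  continuous_invFun := ((cells (Tree.disc n)).app n (Tree.top n) : C(Ball n, _)).continuous

theorem push_cellGlob {n : ℕ} (c : S.Cell n) (x : Carrier (Tree.disc n)) :
    push (Tree.cellGlob c) x = (cells S).app n c (discHomeo n x) := by
  obtain ⟨q, rfl⟩ := (discHomeo n).symm.surjective x
  rw [Homeomorph.apply_symm_apply]
  show ((Tree.cellGlob c).comp (cells S)).app n (Tree.top n) q = _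
  exact congrArg (fun d => (cells S).app n d q) (classify_top S.glob n c)

/-- The disc functor on globular sums. -/
def discFunctor : DiscFunctor thetaZero where
  space S := CompactlyGenerated.of (Carrier S)
  map θ := CompactlyGenerated.ofHom (push θ)
  map_id S := by
    refine ConcreteCategory.hom_ext _ _ fun x => ?_
    exact DFunLike.congr_fun (hom_ext (g := push (GlobMap.id S.glob))
      (g' := ContinuousMap.id _) fun n c q => rfl) x
  map_comp {S T U} f g := by
    refine ConcreteCategory.hom_ext _ _ fun x => ?_
    exact DFunLike.congr_fun (hom_ext (g := push (f.comp g))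
      (g' := (push g).comp (push f)) fun n c q => rfl) x
  disc n := discHomeo n
  disc_σ n p := by
    show (discHomeo (n + 1) (push (Tree.cellGlob (Tree.src _ n (Tree.top (n + 1)))) p)).1 = _
    rw [push_cellGlob]
    show ((lift (topDisc (n + 1))) ((cells _).app n _ (discHomeo n p))).1 = _
    have h : (topDisc (n + 1)).app n (Tree.src _ n (Tree.top (n + 1))) = hemS := by
      refine ((topDisc (n + 1)).comm_s n (Tree.top (n + 1))).symm.trans ?_
      exact congrArg ((discs (Ball (n + 1))).s n) (classify_top (discs (Ball (n + 1))) (n + 1) _)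
    refine (congrArg Subtype.val (DFunLike.congr_fun h (discHomeo n p))).trans ?_
    show (hemS (discHomeo n p)).1 = hemisphere (-1) (discHomeo n p).1
    rw [hemS_val]
    simp [hemisphere, Eu.snoc, width]
  disc_τ n p := by
    show (discHomeo (n + 1) (push (Tree.cellGlob (Tree.tgt _ n (Tree.top (n + 1)))) p)).1 = _
    rw [push_cellGlob]
    show ((lift (topDisc (n + 1))) ((cells _).app n _ (discHomeo n p))).1 = _
    have h : (topDisc (n + 1)).app n (Tree.tgt _ n (Tree.top (n + 1))) = hemT := by
      refine ((topDisc (n + 1)).comm_t n (Tree.top (n + 1))).symm.trans ?_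
      exact congrArg ((discs (Ball (n + 1))).t n) (classify_top (discs (Ball (n + 1))) (n + 1) _)
    refine (congrArg Subtype.val (DFunLike.congr_fun h (discHomeo n p))).trans ?_
    show (hemT (discHomeo n p)).1 = hemisphere 1 (discHomeo n p).1
    rw [hemT_val]
    simp [hemisphere, Eu.snoc, width]
  colimit {S} Y a hs ht := by
    let f : GlobMap S.glob (discs Y) :=
      { app := fun n c => (a n c).hom.hom.comp
          ⟨(discHomeo n).symm, (discHomeo n).symm.continuous⟩
        comm_s := fun n c => ContinuousMap.ext fun q => by
          refine Eq.trans ?_ (congrArg (fun φ : CompactlyGenerated.of (Carrier (Tree.disc n)) ⟶ Y =>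
            φ ((discHomeo n).symm q)) (hs n c))
          show a (n + 1) c ((discHomeo (n + 1)).symm (hemS q)) =
            a (n + 1) c (push (σG n) ((discHomeo n).symm q))
          congr 1
          rw [σG, push_cellGlob, Homeomorph.apply_symm_apply]
          exact DFunLike.congr_fun ((cells (Tree.disc (n + 1))).comm_s n (Tree.top (n + 1))) q
        comm_t := fun n c => ContinuousMap.ext fun q => by
          refine Eq.trans ?_ (congrArg (fun φ : CompactlyGenerated.of (Carrier (Tree.disc n)) ⟶ Y =>
            φ ((discHomeo n).symm q)) (ht n c))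
          show a (n + 1) c ((discHomeo (n + 1)).symm (hemT q)) =
            a (n + 1) c (push (τG n) ((discHomeo n).symm q))
          congr 1
          rw [τG, push_cellGlob, Homeomorph.apply_symm_apply]
          exact DFunLike.congr_fun ((cells (Tree.disc (n + 1))).comm_t n (Tree.top (n + 1))) q }
    refine ⟨ConcreteCategory.ofHom (lift f), fun n c => ?_, fun g hg => ?_⟩
    · refine ConcreteCategory.hom_ext _ _ fun x => ?_
      show lift f (push (Tree.cellGlob c) x) = a n c x
      rw [push_cellGlob]
      show a n c ((discHomeo n).symm (discHomeo n x)) = _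
      rw [Homeomorph.symm_apply_apply]
    · refine ConcreteCategory.hom_ext _ _ fun x => ?_
      refine DFunLike.congr_fun (hom_ext (g := g.hom.hom) (g' := lift f) fun n c q => ?_) x
      show g ((cells S).app n c q) = a n c ((discHomeo n).symm q)
      rw [← hg n c]
      show _ = g (push (Tree.cellGlob c) ((discHomeo n).symm q))
      rw [push_cellGlob, Homeomorph.apply_symm_apply]

end SumDiscs

namespace DiscFunctor

variable {C : GlobExt} (D : DiscFunctor C)

/-- All maps between the spaces of globular sums form a globular extension. -/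
def mapsExt : GlobExt where
  Hom S T := C(D.space S, D.space T)
  id S := ContinuousMap.id (D.space S)
  comp f g := g.comp f
  id_comp _ := rfl
  comp_id _ := rfl
  assoc _ _ _ := rfl
  emb θ := (D.map (C.emb θ)).hom.hom
  emb_id S := by rw [C.emb_id, D.map_id]; rfl
  emb_comp f g := by rw [C.emb_comp, D.map_comp]; rfl
  glue {S T} f hs ht := by
    let a : GlobMap S.glob (discs (D.space T)) :=
      { app := fun n c => (f n c).comp ⟨(D.disc n).symm, (D.disc n).symm.continuous⟩
        comm_s := fun n c => ContinuousMap.ext fun q => by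
          refine Eq.trans ?_ (DFunLike.congr_fun (hs n c) ((D.disc n).symm q))
          show f (n + 1) c ((D.disc (n + 1)).symm (hemS q)) =
            f (n + 1) c (D.map (C.σ n) ((D.disc n).symm q))
          congr 1
          apply (D.disc (n + 1)).injective
          rw [map_σ_apply, Homeomorph.apply_symm_apply, Homeomorph.apply_symm_apply]
        comm_t := fun n c => ContinuousMap.ext fun q => by
          refine Eq.trans ?_ (DFunLike.congr_fun (ht n c) ((D.disc n).symm q))
          show f (n + 1) c ((D.disc (n + 1)).symm (hemT q)) =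
            f (n + 1) c (D.map (C.τ n) ((D.disc n).symm q))
          congr 1
          apply (D.disc (n + 1)).injective
          rw [map_τ_apply, Homeomorph.apply_symm_apply, Homeomorph.apply_symm_apply] }
    refine ⟨D.desc a, fun n c => ContinuousMap.ext fun p => ?_, fun g hg => D.maps_ext fun n c => ?_⟩
    · have := DFunLike.congr_fun (D.desc_cellDisc a n c) (D.disc n p)
      refine Eq.trans (Eq.trans ?_ this) ?_
      · show D.desc a (D.map (C.emb (Tree.cellGlob c)) p) =
          D.desc a (D.map (C.emb (Tree.cellGlob c)) ((D.disc n).symm (D.disc n p)))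
        rw [Homeomorph.symm_apply_apply]
      · show f n c ((D.disc n).symm (D.disc n p)) = _
        rw [Homeomorph.symm_apply_apply]
    · rw [D.desc_cellDisc a n c]
      show _ = (f n c).comp _
      rw [← hg n c]
      rfl

/-- A morphism of `mapsExt` as a continuous map. -/
def toMap {S T : Tree} (f : D.mapsExt.Hom S T) : C(D.space S, D.space T) := f

theorem contractible_mapsExt : D.mapsExt.Contractible := by
  intro n S f g hfg
  change C(D.space (Tree.disc n), D.space S) at f g
  obtain ⟨x, hx⟩ := D.contractible S
  let f' : C(Ball n, D.space S) :=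
    ContinuousMap.comp f ⟨(D.disc n).symm, (D.disc n).symm.continuous⟩
  let g' : C(Ball n, D.space S) :=
    ContinuousMap.comp g ⟨(D.disc n).symm, (D.disc n).symm.continuous⟩
  have hpar : (discs (D.space S)).Par f' g' := by
    cases n with
    | zero => exact True.intro
    | succ m =>
      constructor
      · refine ContinuousMap.ext fun q => ?_
        show f ((D.disc (m + 1)).symm (hemS q)) = g ((D.disc (m + 1)).symm (hemS q))
        have e : (D.disc (m + 1)).symm (hemS q) = D.map (C.σ m) ((D.disc m).symm q) := by
          apply (D.disc (m + 1)).injective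
          rw [map_σ_apply, Homeomorph.apply_symm_apply, Homeomorph.apply_symm_apply]
        rw [e]
        exact DFunLike.congr_fun (congrArg D.toMap hfg.1) _
      · refine ContinuousMap.ext fun q => ?_
        show f ((D.disc (m + 1)).symm (hemT q)) = g ((D.disc (m + 1)).symm (hemT q))
        have e : (D.disc (m + 1)).symm (hemT q) = D.map (C.τ m) ((D.disc m).symm q) := by
          apply (D.disc (m + 1)).injective
          rw [map_τ_apply, Homeomorph.apply_symm_apply, Homeomorph.apply_symm_apply]
        rw [e]
        exact DFunLike.congr_fun (congrArg D.toMap hfg.2) _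
  obtain ⟨c, hc₁, hc₂⟩ := (trivialUpTo_of_contractible hx n).rel n le_rfl f' g' hpar
  let c' : C(Ball (n + 1), D.space S) := c
  refine ⟨c'.comp ⟨D.disc (n + 1), (D.disc (n + 1)).continuous⟩, ?_, ?_⟩
  · refine ContinuousMap.ext fun p => ?_
    show c' (D.disc (n + 1) (D.map (C.σ n) p)) = f p
    rw [map_σ_apply]
    refine (DFunLike.congr_fun hc₁ _).trans ?_
    exact congrArg f ((D.disc n).symm_apply_apply p)
  · refine ContinuousMap.ext fun p => ?_
    show c' (D.disc (n + 1) (D.map (C.τ n) p)) = g p
    rw [map_τ_apply]
    refine (DFunLike.congr_fun hc₂ _).trans ?_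
    exact congrArg g ((D.disc n).symm_apply_apply p)

/-- A map to the maps of a disc functor gives a disc functor. -/
def ofExtHom {E : GlobExt} (G : ExtHom E D.mapsExt) : DiscFunctor E where
  space := D.space
  map f := ConcreteCategory.ofHom (G.map f)
  map_id S := by
    rw [← E.emb_id, G.map_emb, ← D.map_id, ← C.emb_id]
    rfl
  map_comp f g := by
    rw [G.map_comp]
    rfl
  disc := D.disc
  disc_σ n p := by
    show (D.disc (n + 1) (D.toMap (G.map (E.emb (σG n))) p)).1 = _
    rw [G.map_emb]
    exact D.disc_σ n p
  disc_τ n p := by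
    show (D.disc (n + 1) (D.toMap (G.map (E.emb (τG n))) p)).1 = _
    rw [G.map_emb]
    exact D.disc_τ n p
  colimit {S} Y f hs ht := by
    have e : ∀ {T U : Tree} (θ : GlobMap T.glob U.glob),
        (ConcreteCategory.ofHom (G.map (E.emb θ)) : D.space T ⟶ D.space U) = D.map (C.emb θ) :=
      fun θ => by rw [G.map_emb]; rfl
    simp only [GlobExt.σ, GlobExt.τ, e] at hs ht ⊢
    exact D.colimit Y f hs ht

end DiscFunctor

/-- Every coherator has a disc functor. -/
theorem exists_discFunctor (K : Coherator) : Nonempty (DiscFunctor K.colim) :=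
  let ⟨G⟩ := K.exists_extHom SumDiscs.discFunctor.contractible_mapsExt
  ⟨SumDiscs.discFunctor.ofExtHom G⟩

end Vale.Agent.P259
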