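import Vale.Agent.P259.Glue
import Vale.Agent.P259.Directed

/-!
# Quillen's Theorems A and B for spaces of strings
-/

noncomputable section

namespace Vale.Agent.P259

open CategoryTheory Topology Set
open scoped unitInterval

variable {C D : Type} [Category.{0} C] [Category.{0} D]

instance {P : Type} [Preorder P] [TopologicalSpace P] [Topology.IsUpperSet P] (s : Set P) :
    Topology.IsUpperSet s := by
  refine ⟨TopologicalSpace.ext_iff.2 fun U => ?_⟩
  show IsOpen U ↔ IsUpperSet U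
  constructor
  · intro hU
    obtain ⟨V, hV, rfl⟩ := isOpen_induced_iff.1 hU
    exact fun a b hab ha => Topology.IsUpperSet.isOpen_iff_isUpperSet.1 hV hab ha
  · intro hU
    refine isOpen_induced_iff.2 ⟨{x | ∃ u ∈ U, u.1 ≤ x},
      Topology.IsUpperSet.isOpen_iff_isUpperSet.2 fun a b hab ⟨u, hu, hua⟩ =>
        ⟨u, hu, hua.trans hab⟩, ?_⟩
    ext x
    exact ⟨fun ⟨u, hu, hux⟩ => hU hux hu, fun hx => ⟨x, hx, le_rfl⟩⟩

/-- Pairs of a string in `C` and a string in `D` lying over an upper segment of it. -/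
structure QW (F : D ⥤ C) where
  p : Str C
  w : Str D
  le : w.map F ≤ p
  upper : ∀ a ∈ p.A, ∀ b ∈ w.A, b ≤ a → a ∈ w.A

namespace QW

variable (F : D ⥤ C)

instance : Preorder (QW F) where
  le z z' := z.p ≤ z'.p ∧ z.w ≤ z'.w
  le_refl z := ⟨le_rfl, le_rfl⟩
  le_trans _ _ _ h h' := ⟨h.1.trans h'.1, h.2.trans h'.2⟩

instance : TopologicalSpace (QW F) := Topology.upperSet _

instance : Topology.IsUpperSet (QW F) := ⟨rfl⟩

variable {F} in
theorem le_iff {z z' : QW F} : z ≤ z' ↔ z.p ≤ z'.p ∧ z.w ≤ z'.w := Iff.rfl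

/-- The string in `C`. -/
def pr : C(QW F, Str C) := monoMap QW.p fun _ _ h => (le_iff.1 h).1

/-- The string in `D`. -/
def drop : C(QW F, Str D) := monoMap QW.w fun _ _ h => (le_iff.1 h).2

/-- The section. -/
def sec : C(Str D, QW F) :=
  monoMap (fun w => ⟨w.map F, w, le_rfl, fun _ ha _ _ _ => ha⟩) fun _ _ h =>
    le_iff.2 ⟨Str.map_mono F h, h⟩

theorem drop_sec : (drop F).comp (sec F) = ContinuousMap.id _ := rfl

theorem sec_drop_homotopic : ((sec F).comp (drop F)).Homotopic (ContinuousMap.id _) :=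
  homotopic_of_le _ _ fun z => le_iff.2 ⟨z.le, le_rfl⟩

theorem good_sec (n : ℕ) : Good n (discsMap (sec F)) :=
  good_of_inverse _ (drop F) ⟨ContinuousMap.Homotopy.refl _⟩ (sec_drop_homotopic F)

theorem pr_sec : (pr F).comp (sec F) = strMap F := rfl

theorem good_strMap {n : ℕ} (h : Good n (discsMap (pr F))) : Good n (discsMap (strMap F)) := by
  rw [← pr_sec, discsMap_comp]
  exact (good_sec F n).comp h

theorem homotopic_const_of_initial (d : D) (η : (Functor.const D).obj d ⟶ 𝟭 D) :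
    (ContinuousMap.id (QW F)).Homotopic
      (ContinuousMap.const (QW F) (sec F (Str.single 0 d))) := by
  have h₁ := ContinuousMap.Homotopic.comp (ContinuousMap.Homotopic.refl (sec F))
    (ContinuousMap.Homotopic.comp (Vale.Agent.P259.homotopic_const_of_initial d η)
      (ContinuousMap.Homotopic.refl (drop F)))
  exact (sec_drop_homotopic F).symm.trans h₁

end QW

/-! ### The pieces -/

/-- The piece over `p`. -/
abbrev Piece (F : D ⥤ C) (p : Str C) : Type := VSpace (QW.pr F) p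

variable {F : D ⥤ C} {p : Str C}

theorem Piece.le_p (z : Piece F p) : p ≤ z.1.p := z.2

instance : Preorder (Piece F p) := Subtype.preorder _

instance : Topology.IsUpperSet (Piece F p) :=
  inferInstanceAs (Topology.IsUpperSet {z : QW F | p ≤ QW.pr F z})

theorem Piece.nonempty_filter (z : Piece F p) : (z.1.w.A.filter (p.hi.1 ≤ ·)).Nonempty := by
  refine ⟨z.1.p.hi.1, Finset.mem_filter.2 ⟨z.1.upper _ z.1.p.hi.2 _ z.1.w.lo.2 ?_, ?_⟩⟩
  · exact z.1.p.le_hi ⟨z.1.w.lo.1, Str.le_subset z.1.le z.1.w.lo.2⟩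
  · exact z.1.p.le_hi ⟨p.hi.1, Str.le_subset z.le_p p.hi.2⟩

theorem hom_eq_of_arrow_eq {X Y : C} {f g : X ⟶ Y} (h : Arrow.mk f = Arrow.mk g) : f = g := by
  obtain ⟨_, _, h'⟩ := (Arrow.mk_eq_mk_iff _ _).1 h
  simpa using h'

/-- The arrow from the last object of `p` into the string. -/
def Piece.leg (z : Piece F p) (b : z.1.w.A) (h : p.hi.1 ≤ b.1) :
    p.last ⟶ F.obj (z.1.w.obj b) :=
  eqToHom (Str.obj_eq_of_le z.le_p p.hi) ≫
    z.1.p.hom (a := ⟨p.hi.1, Str.le_subset z.le_p p.hi.2⟩)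
      (b := ⟨b.1, Str.le_subset z.1.le b.2⟩) h ≫
    eqToHom (Str.obj_eq_of_le z.1.le b).symm

theorem Piece.arrow_leg (z : Piece F p) (b : z.1.w.A) (h : p.hi.1 ≤ b.1) :
    Arrow.mk (z.leg b h) = z.1.p.arr (a := ⟨p.hi.1, Str.le_subset z.le_p p.hi.2⟩)
      (b := ⟨b.1, Str.le_subset z.1.le b.2⟩) h :=
  arrow_eqToHom_conj _ _ _

theorem Piece.leg_map (z : Piece F p) {a b : z.1.w.A} (hab : a ≤ b) (ha : p.hi.1 ≤ a.1) :
    z.leg a ha ≫ F.map (z.1.w.hom hab) = z.leg b (ha.trans hab) :=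
  hom_eq_of_arrow_eq <| (arrow_comp_eq (z.arrow_leg a ha) (z.1.le.2 a b hab)).trans
    ((z.1.p.arr_comp _ _).trans (z.arrow_leg b (ha.trans hab)).symm)

/-- The string of structured arrows of a point of a piece. -/
def Piece.toComma (z : Piece F p) : Str (StructuredArrow p.last F) where
  A := z.1.w.A.filter (p.hi.1 ≤ ·)
  nonempty := z.nonempty_filter
  obj a := StructuredArrow.mk
    (z.leg ⟨a.1, (Finset.mem_filter.1 a.2).1⟩ (Finset.mem_filter.1 a.2).2)
  hom {a b} hab := StructuredArrow.homMk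
    (z.1.w.hom (a := ⟨a.1, (Finset.mem_filter.1 a.2).1⟩) (b := ⟨b.1, (Finset.mem_filter.1 b.2).1⟩)
      hab) (z.leg_map (a := ⟨a.1, (Finset.mem_filter.1 a.2).1⟩)
        (b := ⟨b.1, (Finset.mem_filter.1 b.2).1⟩) hab (Finset.mem_filter.1 a.2).2)
  hom_id a _ := StructuredArrow.hom_ext _ _ (z.1.w.hom_id _ _)
  hom_comp {a b c} hab hbc := StructuredArrow.hom_ext _ _ (z.1.w.hom_comp
    (a := ⟨a.1, (Finset.mem_filter.1 a.2).1⟩) (b := ⟨b.1, (Finset.mem_filter.1 b.2).1⟩)
    (c := ⟨c.1, (Finset.mem_filter.1 c.2).1⟩) hab hbc)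

theorem sa_mk_eq {c : C} {d d' : D} (g : c ⟶ F.obj d) (g' : c ⟶ F.obj d') (hd : d = d')
    (hg : Arrow.mk g = Arrow.mk g') : StructuredArrow.mk g = StructuredArrow.mk g' := by
  subst hd
  rw [hom_eq_of_arrow_eq hg]

theorem saArrow_eq {c : C} {X Y X' Y' : StructuredArrow c F} {f : X ⟶ Y} {f' : X' ⟶ Y'}
    (hX : X = X') (hY : Y = Y') (h : Arrow.mk f.right = Arrow.mk f'.right) :
    Arrow.mk f = Arrow.mk f' := by
  subst hX; subst hY
  rw [StructuredArrow.hom_ext f f' (hom_eq_of_arrow_eq h)]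

theorem Piece.toComma_mono {z z' : Piece F p} (h : z ≤ z') : z.toComma ≤ z'.toComma := by
  have hw : z.1.w ≤ z'.1.w := (QW.le_iff.1 h).2
  have hp : z.1.p ≤ z'.1.p := (QW.le_iff.1 h).1
  have hobj : ∀ (b : z.1.w.A) (hb : p.hi.1 ≤ b.1),
      StructuredArrow.mk (z.leg b hb) =
        StructuredArrow.mk (z'.leg ⟨b.1, Str.le_subset hw b.2⟩ hb) := fun b hb =>
    sa_mk_eq _ _ (Str.obj_eq_of_le hw b)
      ((z.arrow_leg b hb).trans ((hp.2 _ _ _).trans (z'.arrow_leg ⟨b.1, _⟩ hb).symm))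
  refine ⟨fun a ha => ?_, fun a b hab => saArrow_eq (hobj _ _) (hobj _ _) (hw.2 _ _ _)⟩
  obtain ⟨h1, h2⟩ := Finset.mem_filter.1 (ha : a ∈ z.1.w.A.filter (p.hi.1 ≤ ·))
  exact Finset.mem_filter.2 ⟨Str.le_subset hw h1, h2⟩

variable (F p) in
/-- The comparison of a piece with the comma category. -/
def pieceMap : C(Piece F p, Str (StructuredArrow p.last F)) :=
  monoMap Piece.toComma fun _ _ => Piece.toComma_mono

/-- Strings of structured arrows that can be glued to `p`. -/
structure Adm (e : Str (StructuredArrow p.last F)) : Prop where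
  ge : ∀ a ∈ e.A, p.hi.1 ≤ a
  at_hi : ∀ b : e.A, b.1 = p.hi.1 → Arrow.mk (e.obj b).hom = Arrow.mk (𝟙 p.last)

/-- The point of the piece of a gluable string. -/
def gluePiece (e : Str (StructuredArrow p.last F)) (h : Adm e) : Piece F p :=
  ⟨⟨Str.glue F p e h.ge, e.map (StructuredArrow.proj p.last F),
    Str.map_le_glue h.ge, fun _ ha _ hb hba => Str.glue_upper h.ge ha hb hba⟩,
    Str.le_glue h.ge h.at_hi⟩

theorem gluePiece_mono {e e' : Str (StructuredArrow p.last F)} {h : Adm e} {h' : Adm e'}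
    (hee : e ≤ e') : gluePiece e h ≤ gluePiece e' h' := by
  refine QW.le_iff.2 ⟨Str.glue_le h.ge (Str.le_glue h'.ge h'.at_hi)
    ((Str.map_mono _ hee).trans (Str.map_le_glue h'.ge)) fun b => ?_, Str.map_mono _ hee⟩
  exact (congrArg (fun X : StructuredArrow p.last F => Arrow.mk X.hom)
    (Str.obj_eq_of_le hee b)).trans
      (Str.glue_arr_hi h'.ge h'.at_hi ⟨b.1, Str.le_subset hee b.2⟩).symm

theorem adm_toComma (z : Piece F p) : Adm z.toComma := by
  refine ⟨fun a ha => (Finset.mem_filter.1 ha).2, fun b hb => ?_⟩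
  refine (z.arrow_leg _ _).trans ((z.1.p.arr_congr (h' := le_rfl) rfl (Subtype.ext hb)).trans ?_)
  exact ((z.le_p.2 p.hi p.hi le_rfl).symm).trans (p.arr_self le_rfl)

theorem glue_toComma_le (z : Piece F p) : gluePiece z.toComma (adm_toComma z) ≤ z := by
  have hw : z.toComma.map (StructuredArrow.proj p.last F) ≤ z.1.w :=
    ⟨fun a ha => (Finset.mem_filter.1 ha).1, fun _ _ _ => rfl⟩
  refine QW.le_iff.2 ⟨Str.glue_le (adm_toComma z).ge z.le_p ((Str.map_mono F hw).trans z.1.le) fun b => ?_, hw⟩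
  exact z.arrow_leg _ _

theorem toComma_glue_le (e : Str (StructuredArrow p.last F)) (h : Adm e) :
    (gluePiece e h).toComma ≤ e := by
  have hobj : ∀ (b : e.A), StructuredArrow.mk ((gluePiece e h).leg b (h.ge b.1 b.2)) = e.obj b :=
    fun b => (sa_mk_eq _ _ rfl (((gluePiece e h).arrow_leg b _).trans
      (Str.glue_arr_hi h.ge h.at_hi b))).trans (StructuredArrow.eq_mk _).symm
  exact ⟨fun a ha => (Finset.mem_filter.1 ha).1,
    fun a b hab => saArrow_eq (hobj _) (hobj _) rfl⟩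

/-! ### The inverse on the open sets -/

theorem adm_shift (e : Str (StructuredArrow p.last F)) {N : ℤ} (hN : ∀ a ∈ e.A, N ≤ a) {M : ℤ}
    (hM : p.hi.1 < N + M) : Adm (e.shift M) := by
  have h1 : ∀ a ∈ (e.shift M).A, p.hi.1 < a := fun a ha => by
    obtain ⟨b, hb, rfl⟩ := Finset.mem_image.1 (ha : a ∈ e.A.image (· + M))
    have := hN b hb
    omega
  exact ⟨fun a ha => (h1 a ha).le, fun b hb => absurd hb (h1 b.1 b.2).ne'⟩

theorem adm_stair {e : Str (StructuredArrow p.last F)} (h : Adm e) {M k l : ℤ} (hM : 1 ≤ M)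
    (hkl : k ≤ l) (hl : l ≤ k + 1) : Adm (e.stair M k l hM hkl hl) := by
  refine ⟨fun a ha => ?_, fun b hb => ?_⟩
  · rcases Str.mem_stairSet.1 (ha : a ∈ Str.stairSet e.A M k l) with h1 | h1
    · exact h.ge a h1.1
    · have := h.ge _ h1.1
      omega
  · refine h.at_hi _ ?_
    split_ifs with h1
    · exact hb
    · exfalso
      rcases Str.mem_stairSet.1 (b.2 : b.1 ∈ Str.stairSet e.A M k l) with h2 | h2
      · exact h1 h2.2
      · have := h.ge _ h2.1
        omega

/-- Restriction to the indices at least `N`. -/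
def Str.trunc {E : Type} [Category.{0} E] (N : ℤ) (e : Str E) (h : N ≤ e.hi.1) : Str E :=
  e.reindex (e.A.filter (N ≤ ·)) ⟨e.hi.1, Finset.mem_filter.2 ⟨e.hi.2, h⟩⟩
    (fun a => ⟨a.1, (Finset.mem_filter.1 a.2).1⟩) fun _ _ h => h

theorem Str.trunc_mono {E : Type} [Category.{0} E] {N : ℤ} {e e' : Str E} (hee : e ≤ e')
    (h : N ≤ e.hi.1) (h' : N ≤ e'.hi.1) : e.trunc N h ≤ e'.trunc N h' :=
  Str.reindex_le hee (Finset.filter_subset_filter _ (Str.le_subset hee)) fun _ => rfl

theorem Str.trunc_le {E : Type} [Category.{0} E] {N : ℤ} (e : Str E) (h : N ≤ e.hi.1) :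
    e.trunc N h ≤ e :=
  ⟨Finset.filter_subset _ _, fun _ _ _ => rfl⟩

theorem Str.hi_mono {E : Type} [Category.{0} E] {e e' : Str E} (h : e ≤ e') :
    e.hi.1 ≤ e'.hi.1 :=
  e'.le_hi ⟨e.hi.1, Str.le_subset h e.hi.2⟩

variable (F p) in
/-- The open sets exhausting the strings of structured arrows. -/
def commaOpen (j : ℕ) : Set (Str (StructuredArrow p.last F)) := {e | p.hi.1 - j ≤ e.hi.1}

theorem adm_shift_trunc (j : ℕ) (e : commaOpen F p j) :
    Adm ((e.1.trunc (p.hi.1 - j) e.2).shift (j + 1)) :=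
  adm_shift _ (N := p.hi.1 - j) (fun _ ha => (Finset.mem_filter.1 ha).2) (by omega)

variable (F p) in
/-- The partial inverse. -/
def fromComma (j : ℕ) : C(commaOpen F p j, Piece F p) :=
  monoMap (fun e => gluePiece _ (adm_shift_trunc j e)) fun e e' h =>
    gluePiece_mono (Str.shift_mono _ (Str.trunc_mono h e.2 e'.2))

theorem mem_commaOpen_toComma (j : ℕ) (z : Piece F p) : z.toComma ∈ commaOpen F p j := by
  have h : p.hi.1 ≤ z.toComma.hi.1 := (Finset.mem_filter.1 z.toComma.hi.2).2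
  show p.hi.1 - j ≤ z.toComma.hi.1
  omega

theorem fromComma_toComma_homotopic (j : ℕ) :
    ((fromComma F p j).comp ⟨fun z => ⟨pieceMap F p z, mem_commaOpen_toComma j z⟩,
      by fun_prop⟩).Homotopic (ContinuousMap.id _) := by
  have hM : (1 : ℤ) ≤ (j + 1 : ℤ) := by omega
  have hsh : ∀ z : Piece F p, Adm (z.toComma.shift (j + 1)) := fun z =>
    adm_shift _ (N := p.hi.1) (fun a ha => (Finset.mem_filter.1 ha).2) (by omega)
  let bot : C(Piece F p, Piece F p) := monoMap (fun z => gluePiece _ (hsh z)) fun z z' h =>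
    gluePiece_mono (Str.shift_mono _ (Piece.toComma_mono h))
  let mid : C(Piece F p, Piece F p) := monoMap (fun z => gluePiece _ (adm_toComma z))
    fun z z' h => gluePiece_mono (Piece.toComma_mono h)
  have h₁ := homotopic_of_le ((fromComma F p j).comp
    ⟨fun z => ⟨pieceMap F p z, mem_commaOpen_toComma j z⟩, by fun_prop⟩) bot
    fun z => gluePiece_mono (h := adm_shift_trunc j ⟨z.toComma, mem_commaOpen_toComma j z⟩)
      (h' := hsh z) (Str.shift_mono _ (Str.trunc_le _ _))
  have h₂ : bot.Homotopic mid := by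
    refine homotopic_of_fence
      (fun k z => gluePiece _ (adm_stair (adm_toComma z) hM (le_refl k) (by omega)))
      (fun k z => gluePiece _ (adm_stair (adm_toComma z) hM (show k ≤ k + 1 by omega) le_rfl))
      (fun k z z' h => gluePiece_mono
        (Str.stair_mono (Piece.toComma_mono h) hM _ _ _ _ le_rfl le_rfl))
      (fun k z z' h => gluePiece_mono
        (Str.stair_mono (Piece.toComma_mono h) hM _ _ _ _ le_rfl le_rfl))
      (fun k z => gluePiece_mono (Str.stair_mono le_rfl hM _ _ _ _ le_rfl (by omega)))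
      (fun k z => gluePiece_mono (Str.stair_mono le_rfl hM _ _ _ _ (by omega) le_rfl))
      _ _ (fun z => ⟨z.toComma.lo.1, fun k hk => ?_⟩)
      (fun z => ⟨z.toComma.hi.1 + 1, fun k hk => ?_⟩)
    · exact gluePiece_mono (h := hsh z) (Str.shift_le_stair_bot hM _ fun a ha =>
        hk.trans (z.toComma.lo_le ⟨a, ha⟩))
    · refine gluePiece_mono (h := adm_toComma z) (Str.le_stair_top hM _ fun a ha => ?_)
      have : a ≤ z.toComma.hi.1 := z.toComma.le_hi ⟨a, ha⟩
      omega
  exact (h₁.trans h₂).trans (homotopic_of_le _ _ glue_toComma_le)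

theorem toComma_fromComma_homotopic (j : ℕ) :
    ((pieceMap F p).comp (fromComma F p j)).Homotopic
      ⟨Subtype.val, continuous_subtype_val⟩ := by
  let τ : C(commaOpen F p j, Str (StructuredArrow p.last F)) :=
    monoMap (fun e => e.1.trunc (p.hi.1 - j) e.2) fun e e' h => Str.trunc_mono h e.2 e'.2
  have h₁ := homotopic_of_le ((pieceMap F p).comp (fromComma F p j))
    ((shiftMap (j + 1 : ℤ)).comp τ) fun e => toComma_glue_le _ (adm_shift_trunc j e)
  have h₂ : ((shiftMap (j + 1 : ℤ)).comp τ).Homotopic τ :=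
    ContinuousMap.Homotopic.comp (shiftMap_homotopic_id (j + 1 : ℤ) (by omega))
      (ContinuousMap.Homotopic.refl τ)
  exact (h₁.trans h₂).trans (homotopic_of_le _ _ fun e => Str.trunc_le _ e.2)

variable (F p) in
/-- A piece computes the strings of structured arrows. -/
theorem good_pieceMap (n : ℕ) : Good n (discsMap (pieceMap F p)) :=
  good_of_open_cover _ (commaOpen F p)
    (fun j => Topology.IsUpperSet.isOpen_iff_isUpperSet.2 fun e e' h he =>
      (he : p.hi.1 - j ≤ e.hi.1).trans (Str.hi_mono h))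
    (fun i j hij e he => by
      have he' : p.hi.1 - i ≤ e.hi.1 := he
      show p.hi.1 - j ≤ e.hi.1
      omega)
    (fun e => ⟨(p.hi.1 - e.hi.1).toNat, by
      show p.hi.1 - (p.hi.1 - e.hi.1).toNat ≤ e.hi.1
      omega⟩)
    mem_commaOpen_toComma (fromComma F p) fromComma_toComma_homotopic toComma_fromComma_homotopic

/-! ### Transitions -/

/-- The arrow between last objects. -/
def Str.lastMap {q : Str C} (h : p ≤ q) : p.last ⟶ q.last :=
  eqToHom (Str.obj_eq_of_le h p.hi) ≫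
    q.hom (q.le_hi ⟨p.hi.1, Str.le_subset h p.hi.2⟩)

theorem pieceMap_vIncl {q : Str C} (h : p ≤ q) :
    ((strMap (StructuredArrow.map (T := F) (Str.lastMap h))).comp (pieceMap F q)).Homotopic
      ((pieceMap F p).comp (vIncl (QW.pr F) h)) := by
  refine homotopic_of_le _ _ fun z => ?_
  have hm : p.hi.1 ≤ q.hi.1 := Str.hi_mono h
  have hobj : ∀ (b : z.1.w.A) (hb : q.hi.1 ≤ b.1),
      (StructuredArrow.map (T := F) (Str.lastMap h)).obj (StructuredArrow.mk (z.leg b hb)) =
        StructuredArrow.mk (Piece.leg (p := p) (vIncl (QW.pr F) h z) b (hm.trans hb)) := fun b hb => by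
    refine sa_mk_eq (Str.lastMap h ≫ z.leg b hb) _ rfl ?_
    refine Eq.trans (arrow_comp_eq ?_ (z.arrow_leg b hb))
      ((z.1.p.arr_comp (a := ⟨p.hi.1, Str.le_subset (h.trans z.le_p) p.hi.2⟩)
        (b := ⟨q.hi.1, Str.le_subset z.le_p q.hi.2⟩) hm hb).trans
        (Piece.arrow_leg (p := p) (vIncl (QW.pr F) h z) b (hm.trans hb)).symm)
    exact (arrow_eqToHom_comp' _ _).trans (z.le_p.2 _ _ _)
  refine ⟨fun a ha => ?_, fun a b hab => saArrow_eq (hobj _ _) (hobj _ _) rfl⟩
  obtain ⟨h1, h2⟩ := Finset.mem_filter.1 (ha : a ∈ z.1.w.A.filter (q.hi.1 ≤ ·))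
  exact Finset.mem_filter.2 ⟨h1, hm.trans h2⟩

theorem good_vIncl_of_map {q : Str C} (h : p ≤ q) {n : ℕ}
    (hn : Good n (discsMap (strMap (StructuredArrow.map (T := F) (Str.lastMap h))))) :
    Good n (discsMap (vIncl (QW.pr F) h)) := by
  have h1 : Good n (discsMap ((pieceMap F p).comp (vIncl (QW.pr F) h))) :=
    good_homotopic (pieceMap_vIncl h) (by rw [discsMap_comp]; exact (good_pieceMap F q n).comp hn)
  rw [discsMap_comp] at h1
  exact h1.of_comp (good_pieceMap F p n)

variable (F) in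
/-- **Theorem B**: if all transition maps are good, pieces compute homotopy fibres. -/
theorem good_toHof_of_transitions {n : ℕ}
    (h : ∀ {c c' : C} (f : c ⟶ c'), Good n (discsMap (strMap (StructuredArrow.map (T := F) f))))
    (p : Str C) : Good n (discsMap (toHof (QW.pr F) p)) :=
  good_toHof (fun _ _ hab => good_vIncl_of_map hab (h _)) p

variable (F) in
/-- **Theorem A**: if all comma categories are trivial, the functor is good. -/
theorem good_strMap_of_trivial {n : ℕ}
    (h : ∀ c : C, TrivialUpTo n (Str (StructuredArrow c F))) :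
    Good n (discsMap (strMap F)) :=
  QW.good_strMap F (good_of_trivial_pieces _ fun p => (h p.last).of_good (good_pieceMap F p n))

variable (F) in
/-- **Theorem A**, dual form. -/
theorem good_strMap_of_trivial_costructured {n : ℕ}
    (h : ∀ c : C, TrivialUpTo n (Str (CostructuredArrow F c))) :
    Good n (discsMap (strMap F)) :=
  good_strMap_of_op (good_strMap_of_trivial F.op fun c =>
    (trivial_str_op (h c.unop)).of_good'
      (good_strMap_of_adjunction (costructuredArrowOpEquivalence F c.unop).toAdjunction n))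

end Vale.Agent.P259
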