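import Vale.Agent.P259.Cons
import Vale.Agent.P259.QuillenAB

/-!
# Comma categories of the category of elements with a marked object
-/

noncomputable section

namespace Vale.Agent.P259

open CategoryTheory

theorem good_of_comp_of_injAt {U V W : GlobSet} {n : ℕ} {f : GlobMap U V} {g : GlobMap V W}
    (hfg : Good n (f.comp g)) (hg : ∀ i ≤ n, InjAt g i) : Good n f := by
  refine ⟨fun v => ?_, fun i hi u v huv w h₁ h₂ => ?_,
    fun i hi u v huv h => hfg.inj i hi u v huv (h.map g)⟩
  · obtain ⟨u, hu⟩ := hfg.surj0 (g.app 0 v)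
    exact ⟨u, hg 0 (Nat.zero_le n) (f.app 0 u) v True.intro hu⟩
  · obtain ⟨c, hs, ht, hc⟩ := hfg.surj i hi u v huv (g.app _ w)
      (by rw [g.comm_s, h₁]; rfl) (by rw [g.comm_t, h₂]; rfl)
    refine ⟨c, hs, ht, hg (i + 1) hi (f.app _ c) w ⟨?_, ?_⟩ hc⟩
    · rw [f.comm_s, hs, h₁]
    · rw [f.comm_t, ht, h₂]

namespace Gpd

variable {C : GlobExt}

/-- Elements with a marked object lying over `x`. -/
structure Pt (X : Gpd C) (x : X.cell 0) where
  U : El X
  v : C.Hom Tree.nil U.S
  hv : X.map v U.a = x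

namespace Pt

variable {X Y : Gpd C} {x : X.cell 0}

instance : Category (Pt X x) where
  Hom p q := {φ : p.U ⟶ q.U // C.comp p.v φ.1 = q.v}
  id p := ⟨𝟙 p.U, C.comp_id _⟩
  comp {p q r} f g := ⟨f.1 ≫ g.1, by
    show C.comp p.v (C.comp f.1.1 g.1.1) = r.v
    rw [← C.assoc, f.2, g.2]⟩
  id_comp f := Subtype.ext (Category.id_comp f.1)
  comp_id f := Subtype.ext (Category.comp_id f.1)
  assoc f g h := Subtype.ext (Category.assoc f.1 g.1 h.1)

theorem hom_ext {p q : Pt X x} {f g : p ⟶ q} (h : f.1.1 = g.1.1) : f = g :=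
  Subtype.ext (El.hom_ext h)

variable (X x) in
/-- Forget the marked object. -/
@[reducible] def forget : Pt X x ⥤ El X where
  obj p := p.U
  map f := f.1

variable (X x) in
/-- The initial element. -/
def init : Pt X x := ⟨⟨Tree.nil, x⟩, C.id _, X.map_id x⟩

variable (X x) in
/-- The unique map from the initial element. -/
def fromInit : (Functor.const (Pt X x)).obj (init X x) ⟶ 𝟭 (Pt X x) where
  app p := ⟨⟨p.v, p.hv⟩, C.id_comp _⟩
  naturality p q f := hom_ext (by
    show C.comp (C.id _) q.v = C.comp p.v f.1.1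
    rw [C.id_comp, f.2])

instance : Nonempty (Pt X x) := ⟨init X x⟩

/-- Functoriality. -/
def map (φ : X ⟶ Y) {x' : Y.cell 0} (hx : φ.app _ x = x') : Pt X x ⥤ Pt Y x' where
  obj p := ⟨(El.map φ).obj p.U, p.v, by
    show Y.map p.v (φ.app _ p.U.a) = x'
    exact ((φ.natural p.v p.U.a).symm.trans (congrArg (φ.app _) p.hv)).trans hx⟩
  map f := ⟨(El.map φ).map f.1, f.2⟩

end Pt

end Gpd

open Gpd in
/-- The comma category of a marked element under an element. -/
abbrev Ov {C : GlobExt} {X : Gpd C} (x : X.cell 0) (c : El X) : Type :=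
  StructuredArrow c (Pt.forget X x)

namespace Gpd

variable {C : GlobExt} {X Y : Gpd C} {x : X.cell 0}

theorem ov_w {c : El X} {o o' : Ov x c} (f : o ⟶ o') :
    C.comp o.hom.1 f.right.1.1 = o'.hom.1 :=
  congrArg (fun k : c ⟶ o'.right.U => k.1) (StructuredArrow.w f)

/-- A morphism of comma categories from the underlying map. -/
def ovHom {c : El X} {o o' : Ov x c} (f : C.Hom o.right.U.S o'.right.U.S)
    (ha : X.map f o'.right.U.a = o.right.U.a) (hv : C.comp o.right.v f = o'.right.v)
    (hw : C.comp o.hom.1 f = o'.hom.1) : o ⟶ o' :=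
  StructuredArrow.homMk ⟨⟨f, ha⟩, hv⟩ (El.hom_ext hw)

theorem ov_hom_ext {c : El X} {o o' : Ov x c} {f g : o ⟶ o'}
    (h : f.right.1.1 = g.right.1.1) : f = g :=
  StructuredArrow.hom_ext _ _ (Pt.hom_ext h)

/-- Functoriality of the comma categories in the groupoid. -/
def ovMap (φ : X ⟶ Y) {x' : Y.cell 0} (hx : φ.app _ x = x') {y : X.cell 0} {y' : Y.cell 0}
    (hy : φ.app _ y = y') : Ov x (⟨Tree.nil, y⟩ : El X) ⥤ Ov x' (⟨Tree.nil, y'⟩ : El Y) where
  obj o := StructuredArrow.mk (Y := (Pt.map φ hx).obj o.right)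
    ⟨o.hom.1, by
      show Y.map o.hom.1 (φ.app _ o.right.U.a) = y'
      rw [← φ.natural]
      exact (congrArg (φ.app _) o.hom.2).trans hy⟩
  map f := StructuredArrow.homMk ((Pt.map φ hx).map f.right) (El.hom_ext (ov_w f))
  map_id _ := ov_hom_ext rfl
  map_comp _ _ := ov_hom_ext rfl

section Transition

variable (x)

/-- The change of comma categories along a map is good. -/
def Gd (n : ℕ) {S T : Tree} (f : C.Hom S T) : Prop :=
  ∀ (b : X.obj T) (a : X.obj S) (h : X.map f b = a),
    Good n (discsMap (strMap (StructuredArrow.map (T := Pt.forget X x)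
      (S := (⟨S, a⟩ : El X)) (S' := (⟨T, b⟩ : El X)) ⟨f, h⟩)))

variable {x}

/-- Comma categories along a composite. -/
def mapCompNat {p q r : El X} (f : p ⟶ q) (g : q ⟶ r) :
    StructuredArrow.map (T := Pt.forget X x) (f ≫ g) ⟶
      StructuredArrow.map (T := Pt.forget X x) g ⋙ StructuredArrow.map f where
  app o := ovHom (C.id _) (X.map_id _) (C.comp_id _) (by
    show C.comp (C.comp (C.comp f.1 g.1) o.hom.1) (C.id _) = C.comp f.1 (C.comp g.1 o.hom.1)
    rw [C.comp_id, C.assoc])
  naturality o o' k := ov_hom_ext (by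
    show C.comp k.right.1.1 (C.id _) = C.comp (C.id _) k.right.1.1
    rw [C.comp_id, C.id_comp])

theorem good_map_comp_iff {p q r : El X} (f : p ⟶ q) (g : q ⟶ r) {n : ℕ} :
    Good n (discsMap (strMap (StructuredArrow.map (T := Pt.forget X x) (f ≫ g)))) ↔
      Good n ((discsMap (strMap (StructuredArrow.map (T := Pt.forget X x) g))).comp
        (discsMap (strMap (StructuredArrow.map (T := Pt.forget X x) f)))) :=
  (good_strMap_natTrans (mapCompNat f g)).trans (iff_of_eq (congrArg (Good n)
    (discsMap_comp (strMap (StructuredArrow.map (T := Pt.forget X x) g))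
      (strMap (StructuredArrow.map (T := Pt.forget X x) f)))))

variable {n : ℕ}

theorem Gd.comp {S T U : Tree} {f : C.Hom S T} {g : C.Hom T U} (hf : Gd x n f) (hg : Gd x n g) :
    Gd x n (C.comp f g) := by
  intro b a h
  have hga : X.map f (X.map g b) = a := by rw [← X.map_comp]; exact h
  exact (good_map_comp_iff (p := (⟨S, a⟩ : El X)) (q := ⟨T, X.map g b⟩) (r := ⟨U, b⟩)
    ⟨f, hga⟩ ⟨g, rfl⟩).2 ((hg b _ rfl).comp (hf _ a hga))

theorem Gd.cancel {S T U : Tree} {f : C.Hom S T} {g : C.Hom T U} (hf : Gd x n f)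
    (hfg : Gd x n (C.comp f g)) : Gd x n g := by
  intro b a h
  exact ((good_map_comp_iff (p := (⟨S, X.map f a⟩ : El X)) (q := ⟨T, a⟩) (r := ⟨U, b⟩)
    ⟨f, rfl⟩ ⟨g, h⟩).1 (hfg b _ (by rw [X.map_comp, h]))).of_comp (hf a _ rfl)

theorem Gd.of_self_comp {S : Tree} {f : C.Hom S S} (h : Gd x n (C.comp f f)) : Gd x n f := by
  intro b a ha
  have h1 := (good_map_comp_iff (p := (⟨S, X.map f a⟩ : El X)) (q := ⟨S, a⟩) (r := ⟨S, b⟩)
    ⟨f, rfl⟩ ⟨f, ha⟩).1 (h b _ (by rw [X.map_comp, ha]))
  have h2 := (good_map_comp_iff (p := (⟨S, X.map f (X.map f a)⟩ : El X)) (q := ⟨S, X.map f a⟩)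
    (r := ⟨S, a⟩) ⟨f, rfl⟩ ⟨f, rfl⟩).1 (h a _ (by rw [X.map_comp]))
  exact good_of_comp_of_injAt h1 fun i hi u v huv hr =>
    h2.inj i hi u v huv (hr.map (discsMap (strMap (StructuredArrow.map (T := Pt.forget X x)
      (S := (⟨S, X.map f (X.map f a)⟩ : El X)) (S' := ⟨S, X.map f a⟩) ⟨f, rfl⟩))))

theorem gd_id (S : Tree) (n : ℕ) : Gd x n (C.id S) := by
  intro b a h
  have hb : X.map (C.id S) a = b := by rw [X.map_id, ← h, X.map_id]
  let φ : (⟨S, a⟩ : El X) ⟶ ⟨S, b⟩ := ⟨C.id S, h⟩
  let ψ : (⟨S, b⟩ : El X) ⟶ ⟨S, a⟩ := ⟨C.id S, hb⟩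
  let η₁ : StructuredArrow.map (T := Pt.forget X x) φ ⋙ StructuredArrow.map ψ ⟶ 𝟭 _ :=
    { app := fun o => ovHom (C.id _) (X.map_id _) (C.comp_id _) (by
        show C.comp (C.comp (C.id S) (C.comp (C.id S) o.hom.1)) (C.id _) = o.hom.1
        rw [C.comp_id, C.id_comp, C.id_comp])
      naturality := fun o o' k => ov_hom_ext (by
        show C.comp k.right.1.1 (C.id _) = C.comp (C.id _) k.right.1.1
        rw [C.comp_id, C.id_comp]) }
  let η₂ : StructuredArrow.map (T := Pt.forget X x) ψ ⋙ StructuredArrow.map φ ⟶ 𝟭 _ :=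
    { app := fun o => ovHom (C.id _) (X.map_id _) (C.comp_id _) (by
        show C.comp (C.comp (C.id S) (C.comp (C.id S) o.hom.1)) (C.id _) = o.hom.1
        rw [C.comp_id, C.id_comp, C.id_comp])
      naturality := fun o o' k => ov_hom_ext (by
        show C.comp k.right.1.1 (C.id _) = C.comp (C.id _) k.right.1.1
        rw [C.comp_id, C.id_comp]) }
  exact good_of_inverse _ (strMap (StructuredArrow.map (T := Pt.forget X x) ψ))
    (strMap_homotopic η₁) (strMap_homotopic η₂)

/-- All transition maps are good as soon as the first vertices are. -/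
theorem gd_all (hC : C.Contractible) (h₀ : ∀ S, Gd x n (C.v₀ S)) {S T : Tree} (f : C.Hom S T) :
    Gd x n f := by
  obtain ⟨i, hi₁, hi₂⟩ := hC (n := 0) (C.τ 0) (C.σ 0) True.intro
  have hσ : Gd x n (C.σ 0) := h₀ (Tree.disc 1)
  have hii : Gd x n (C.comp i i) := Gd.cancel hσ (by
    rw [← C.assoc, hi₁, hi₂]
    exact hσ)
  have hτ : Gd x n (C.τ 0) := hi₁ ▸ hσ.comp (Gd.of_self_comp hii)
  have hv : ∀ {U : Tree} (v : C.Hom Tree.nil U), Gd x n v := by
    intro U v
    obtain ⟨e, he₁, he₂⟩ := hC (n := 0) (C.v₀ U) v True.intro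
    have he : Gd x n e := Gd.cancel hσ (he₁.symm ▸ h₀ U)
    exact he₂ ▸ hτ.comp he
  exact Gd.cancel (h₀ S) (hv _)

end Transition

variable {K : Coherator}

section Comparison

variable {X : Gpd K.colim} (x : X.cell 0)

/-- The suspension comparison. -/
def suspOv (y : X.cell 0) : El (X.homGpd x y) ⥤ Ov x (⟨Tree.nil, y⟩ : El X) where
  obj p := StructuredArrow.mk
    (Y := (⟨⟨Tree.susp p.S, p.a.1⟩, K.colim.srcPole p.S, p.a.2.1⟩ : Pt X x))
    ⟨K.colim.tgtPole p.S, p.a.2.2⟩
  map {p q} f := ovHom (K.suspHom.map f.1).1 (congrArg Subtype.val f.2)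
    (K.suspHom.map f.1).2.1 (K.suspHom.map f.1).2.2
  map_id p := ov_hom_ext (by
    show (K.suspHom.map (K.colim.id p.S)).1 = K.colim.id _
    rw [← K.colim.emb_id, K.suspHom.map_emb]
    show K.colim.emb (Tree.suspGlob (GlobMap.id p.S.glob)) = _
    rw [Tree.suspGlob_id, K.colim.emb_id])
  map_comp f g := ov_hom_ext (by
    show (K.suspHom.map (K.colim.comp f.1 g.1)).1 = _
    rw [K.suspHom.map_comp]
    rfl)

variable {x} {S : Tree} {a : X.obj S}

/-- The glued element. -/
def consEl (p : El (X.homGpd x (X.map (K.colim.v₀ S) a))) : X.obj (Tree.cons p.S S) :=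
  Classical.choose (X.cons_glue p.a.1 a p.a.2.2).exists

theorem consEl_left (p : El (X.homGpd x (X.map (K.colim.v₀ S) a))) :
    X.map (K.colim.emb (Tree.inclL p.S S)) (consEl p) = p.a.1 :=
  (Classical.choose_spec (X.cons_glue p.a.1 a p.a.2.2).exists).1

theorem consEl_right (p : El (X.homGpd x (X.map (K.colim.v₀ S) a))) :
    X.map (K.colim.emb (Tree.inclR p.S S)) (consEl p) = a :=
  (Classical.choose_spec (X.cons_glue p.a.1 a p.a.2.2).exists).2

theorem exists_consHom (S : Tree) {R R' : Tree} (f : K.colim.Hom R R') :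
    ∃ k : K.colim.Hom (Tree.cons R S) (Tree.cons R' S),
      K.colim.comp (K.colim.emb (Tree.inclL R S)) k =
          K.colim.comp (K.suspHom.map f).1 (K.colim.emb (Tree.inclL R' S)) ∧
        K.colim.comp (K.colim.emb (Tree.inclR R S)) k = K.colim.emb (Tree.inclR R' S) :=
  GlobExt.exists_cons_desc _ _ (by
    rw [← K.colim.assoc, (K.suspHom.map f).2.2, K.colim.tgtPole_inclL])

variable (S) in
/-- A suspended map glued with the identity. -/
def consHom {R R' : Tree} (f : K.colim.Hom R R') :
    K.colim.Hom (Tree.cons R S) (Tree.cons R' S) :=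
  Classical.choose (exists_consHom S f)

theorem consHom_left {R R' : Tree} (f : K.colim.Hom R R') :
    K.colim.comp (K.colim.emb (Tree.inclL R S)) (consHom S f) =
      K.colim.comp (K.suspHom.map f).1 (K.colim.emb (Tree.inclL R' S)) :=
  (Classical.choose_spec (exists_consHom S f)).1

theorem consHom_right {R R' : Tree} (f : K.colim.Hom R R') :
    K.colim.comp (K.colim.emb (Tree.inclR R S)) (consHom S f) =
      K.colim.emb (Tree.inclR R' S) :=
  (Classical.choose_spec (exists_consHom S f)).2

theorem consHom_v₀ {R R' : Tree} (f : K.colim.Hom R R') :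
    K.colim.comp (K.colim.v₀ (Tree.cons R S)) (consHom S f) = K.colim.v₀ (Tree.cons R' S) := by
  rw [← K.colim.srcPole_inclL, ← K.colim.srcPole_inclL, K.colim.assoc, consHom_left,
    ← K.colim.assoc, (K.suspHom.map f).2.1]

variable (x S a) in
/-- Gluing on the left of an element. -/
def consOv : El (X.homGpd x (X.map (K.colim.v₀ S) a)) ⥤ Ov x (⟨S, a⟩ : El X) where
  obj p := StructuredArrow.mk
    (Y := (⟨⟨Tree.cons p.S S, consEl p⟩, K.colim.v₀ _, by
      rw [← K.colim.srcPole_inclL, X.map_comp, consEl_left]; exact p.a.2.1⟩ : Pt X x))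
    ⟨K.colim.emb (Tree.inclR p.S S), consEl_right p⟩
  map {p q} f := ovHom (consHom S f.1)
    ((X.cons_glue p.a.1 a p.a.2.2).unique
      ⟨by
        show X.map _ (X.map (consHom S f.1) (consEl q)) = _
        rw [← X.map_comp, consHom_left, X.map_comp, consEl_left]
        exact congrArg Subtype.val f.2,
      by
        show X.map _ (X.map (consHom S f.1) (consEl q)) = _
        rw [← X.map_comp, consHom_right, consEl_right]⟩
      ⟨consEl_left p, consEl_right p⟩)
    (consHom_v₀ f.1) (consHom_right f.1)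
  map_id p := ov_hom_ext (GlobExt.cons_ext (by
      show K.colim.comp _ (consHom S (K.colim.id p.S)) = K.colim.comp _ (K.colim.id _)
      rw [consHom_left, ← K.colim.emb_id p.S, K.suspHom.map_emb, K.colim.comp_id]
      show K.colim.comp (K.colim.emb (Tree.suspGlob (GlobMap.id p.S.glob))) _ = _
      rw [Tree.suspGlob_id, K.colim.emb_id, K.colim.id_comp]) (by
      show K.colim.comp _ (consHom S (K.colim.id p.S)) = K.colim.comp _ (K.colim.id _)
      rw [consHom_right, K.colim.comp_id]))
  map_comp {p q r} f g := ov_hom_ext (GlobExt.cons_ext (by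
      show K.colim.comp _ (consHom S (K.colim.comp f.1 g.1)) =
        K.colim.comp _ (K.colim.comp (consHom S f.1) (consHom S g.1))
      rw [consHom_left, ← K.colim.assoc, consHom_left, K.colim.assoc, consHom_left,
        ← K.colim.assoc, K.suspHom.map_comp]
      rfl) (by
      show K.colim.comp _ (consHom S (K.colim.comp f.1 g.1)) =
        K.colim.comp _ (K.colim.comp (consHom S f.1) (consHom S g.1))
      rw [consHom_right, ← K.colim.assoc, consHom_right, consHom_right]))

variable (x S a) in
/-- The suspended part of a glued element. -/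
def suspToCons :
    suspOv x (X.map (K.colim.v₀ S) a) ⟶ consOv x S a ⋙
      StructuredArrow.map (T := Pt.forget X x) (S := (⟨Tree.nil, X.map (K.colim.v₀ S) a⟩ : El X))
        (S' := (⟨S, a⟩ : El X)) ⟨K.colim.v₀ S, rfl⟩ where
  app p := ovHom (K.colim.emb (Tree.inclL p.S S)) (consEl_left p) (K.colim.srcPole_inclL _ _)
    (K.colim.tgtPole_inclL _ _)
  naturality p q f := ov_hom_ext (consHom_left f.1).symm

variable (x S a) in
/-- A comma category of gluing, as elements of a hom groupoid of a representable. -/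
def commaToHom (o : Ov x (⟨S, a⟩ : El X)) : CostructuredArrow (consOv x S a) o ⥤
    El ((rep K.colim o.right.U.S).homGpd o.right.v
      (K.colim.comp (K.colim.v₀ S) o.hom.1)) where
  obj j := ⟨j.left.S, K.colim.comp (K.colim.emb (Tree.inclL j.left.S S)) j.hom.right.1.1,
    ((K.colim.assoc _ _ _).symm.trans
      (congrArg (fun k => K.colim.comp k _) (K.colim.srcPole_inclL _ _))).trans j.hom.right.2,
    ((K.colim.assoc _ _ _).symm.trans
      (congrArg (fun k => K.colim.comp k _) (K.colim.tgtPole_inclL _ _))).trans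
      ((K.colim.assoc _ _ _).trans (congrArg (K.colim.comp _) (ov_w j.hom)))⟩
  map {i j} f := ⟨f.left.1, Subtype.ext (by
    show K.colim.comp (K.suspHom.map f.left.1).1
      (K.colim.comp (K.colim.emb (Tree.inclL j.left.S S)) j.hom.right.1.1) = _
    refine (K.colim.assoc _ _ _).symm.trans ((congrArg (fun k => K.colim.comp k _)
      (consHom_left f.left.1).symm).trans ((K.colim.assoc _ _ _).trans ?_))
    exact congrArg (fun k : (consOv x S a).obj i.left ⟶ o =>
      K.colim.comp (K.colim.emb (Tree.inclL i.left.S S)) k.right.1.1) (CostructuredArrow.w f))⟩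
  map_id _ := El.hom_ext rfl
  map_comp _ _ := El.hom_ext rfl

theorem good_commaToHom (o : Ov x (⟨S, a⟩ : El X)) (n : ℕ) :
    Good n (discsMap (strMap (commaToHom x S a o))) := by
  choose k hk₁ hk₂ using fun p : El ((rep K.colim o.right.U.S).homGpd o.right.v
      (K.colim.comp (K.colim.v₀ S) o.hom.1)) =>
    GlobExt.exists_cons_desc (R := p.S) (S := S) p.a.1 o.hom.1 p.a.2.2
  let el : El ((rep K.colim o.right.U.S).homGpd o.right.v
      (K.colim.comp (K.colim.v₀ S) o.hom.1)) → El (X.homGpd x (X.map (K.colim.v₀ S) a)) :=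
    fun p => ⟨p.S, X.map p.a.1 o.right.U.a,
      by
        rw [← X.map_comp]
        exact (congrArg (fun f => X.map f o.right.U.a) p.a.2.1).trans o.right.hv,
      by
        rw [← X.map_comp]
        refine (congrArg (fun f => X.map f o.right.U.a) p.a.2.2).trans ?_
        exact (X.map_comp _ _ _).trans (congrArg _ o.hom.2)⟩
  have hka : ∀ p, X.map (k p) o.right.U.a = consEl (el p) := fun p =>
    (X.cons_glue (el p).a.1 a (el p).a.2.2).unique
      ⟨by rw [← X.map_comp, hk₁], by rw [← X.map_comp, hk₂]; exact o.hom.2⟩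
      ⟨consEl_left (el p), consEl_right (el p)⟩
  have hkv : ∀ p, K.colim.comp (K.colim.v₀ _) (k p) = o.right.v := fun p => by
    rw [← K.colim.srcPole_inclL, K.colim.assoc, hk₁]; exact p.a.2.1
  let Q : El ((rep K.colim o.right.U.S).homGpd o.right.v
      (K.colim.comp (K.colim.v₀ S) o.hom.1)) ⥤ CostructuredArrow (consOv x S a) o :=
    { obj := fun p => CostructuredArrow.mk (Y := el p) (ovHom (k p) (hka p) (hkv p) (hk₂ p))
      map := fun {p q} f => CostructuredArrow.homMk ⟨f.1, Subtype.ext (by
        show X.map (K.suspHom.map f.1).1 (X.map q.a.1 o.right.U.a) = X.map p.a.1 o.right.U.a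
        rw [← X.map_comp]
        exact congrArg (fun g => X.map g o.right.U.a) (congrArg Subtype.val f.2))⟩
        (ov_hom_ext (GlobExt.cons_ext (by
          show K.colim.comp _ (K.colim.comp (consHom S f.1) (k q)) = K.colim.comp _ (k p)
          rw [← K.colim.assoc, consHom_left, K.colim.assoc]
          exact ((congrArg (K.colim.comp _) (hk₁ q)).trans (congrArg Subtype.val f.2)).trans
            (hk₁ p).symm) (by
          show K.colim.comp _ (K.colim.comp (consHom S f.1) (k q)) = K.colim.comp _ (k p)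
          rw [← K.colim.assoc, consHom_right]
          exact (hk₂ q).trans (hk₂ p).symm)))
      map_id := fun _ => CostructuredArrow.hom_ext _ _ (El.hom_ext rfl)
      map_comp := fun _ _ => CostructuredArrow.hom_ext _ _ (El.hom_ext rfl) }
  let η₁ : commaToHom x S a o ⋙ Q ⟶ 𝟭 _ :=
    { app := fun j => CostructuredArrow.homMk ⟨K.colim.id _, by
        refine ((X.homGpd x _).map_id j.left.a).trans (Subtype.ext ?_)
        exact ((X.map_comp _ _ _).trans ((congrArg (X.map _) j.hom.right.1.2).trans
          (consEl_left j.left))).symm⟩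
        (ov_hom_ext (by
          show K.colim.comp (consHom S (K.colim.id _)) j.hom.right.1.1 =
            k ((commaToHom x S a o).obj j)
          refine GlobExt.cons_ext ?_ ?_
          · refine Eq.trans ?_ (hk₁ ((commaToHom x S a o).obj j)).symm
            have e : (K.suspHom.map (K.colim.id j.left.S)).1 = K.colim.id _ := by
              rw [← K.colim.emb_id, K.suspHom.map_emb]
              show K.colim.emb (Tree.suspGlob (GlobMap.id _)) = _
              rw [Tree.suspGlob_id, K.colim.emb_id]
            exact (K.colim.assoc _ _ _).symm.trans (congrArg (fun h => K.colim.comp h _)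
              ((consHom_left _).trans ((congrArg (fun h => K.colim.comp h _) e).trans
                (K.colim.id_comp _))))
          · refine Eq.trans ?_ (hk₂ ((commaToHom x S a o).obj j)).symm
            exact (K.colim.assoc _ _ _).symm.trans
              ((congrArg (fun h => K.colim.comp h _) (consHom_right _)).trans (ov_w j.hom))))
      naturality := fun i j f => CostructuredArrow.hom_ext _ _ (El.hom_ext (by
        show K.colim.comp f.left.1 (K.colim.id _) = K.colim.comp (K.colim.id _) f.left.1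
        rw [K.colim.comp_id, K.colim.id_comp])) }
  let η₂ : Q ⋙ commaToHom x S a o ⟶ 𝟭 _ :=
    { app := fun p => ⟨K.colim.id p.S, by
        refine ((Gpd.homGpd (rep K.colim o.right.U.S) _ _).map_id p.a).trans (Subtype.ext ?_)
        exact (hk₁ p).symm⟩
      naturality := fun p q f => El.hom_ext (by
        show K.colim.comp f.1 (K.colim.id _) = K.colim.comp (K.colim.id _) f.1
        rw [K.colim.comp_id, K.colim.id_comp]) }
  exact good_of_inverse _ (strMap Q) (strMap_homotopic η₁) (strMap_homotopic η₂)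

variable (x) in
/-- Gluing is good if hom groupoids of representables are trivial. -/
theorem good_consOv {n : ℕ}
    (htriv : ∀ (T : Tree) (v q : K.colim.Hom Tree.nil T),
      TrivialUpTo n (Str (El ((rep K.colim T).homGpd v q))))
    (S : Tree) (a : X.obj S) : Good n (discsMap (strMap (consOv x S a))) :=
  good_strMap_of_trivial_costructured _ fun o => (htriv _ _ _).of_good (good_commaToHom o n)

variable (x) in
/-- Suspension is good if hom groupoids of representables are trivial. -/
theorem good_suspOv {n : ℕ}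
    (htriv : ∀ (T : Tree) (v q : K.colim.Hom Tree.nil T),
      TrivialUpTo n (Str (El ((rep K.colim T).homGpd v q))))
    (y : X.cell 0) : Good n (discsMap (strMap (suspOv x y))) := by
  have hy : X.map (K.colim.v₀ Tree.nil) y = y :=
    (congrArg (fun f => X.map f y) (K.colim.v₀_nil)).trans (X.map_id y)
  suffices h : ∀ z, X.map (K.colim.v₀ Tree.nil) y = z → Good n (discsMap (strMap (suspOv x z))) from
    h y hy
  rintro z rfl
  have hid : Gd x n (K.colim.v₀ Tree.nil) := by rw [GlobExt.v₀_nil]; exact gd_id _ _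
  refine (good_strMap_natTrans (suspToCons x Tree.nil y)).2 ?_
  refine (iff_of_eq (congrArg (Good n) (discsMap_comp (strMap (consOv x Tree.nil y))
    (strMap (StructuredArrow.map _))))).2 ?_
  exact (good_consOv x htriv Tree.nil y).comp (hid y _ rfl)

variable (x) in
theorem gd_v₀ {n : ℕ}
    (htriv : ∀ (T : Tree) (v q : K.colim.Hom Tree.nil T),
      TrivialUpTo n (Str (El ((rep K.colim T).homGpd v q))))
    (S : Tree) : Gd x n (K.colim.v₀ S) := by
  intro b a h
  subst h
  exact good_of_comp_left (f := strMap (consOv x S b))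
    ((good_strMap_natTrans (suspToCons x S b)).1 (good_suspOv x htriv _))
    (good_consOv x htriv S b)

variable (x) in
/-- All transition maps are good if hom groupoids of representables are trivial. -/
theorem good_transition {n : ℕ}
    (htriv : ∀ (T : Tree) (v q : K.colim.Hom Tree.nil T),
      TrivialUpTo n (Str (El ((rep K.colim T).homGpd v q))))
    {c c' : El X} (f : c ⟶ c') :
    Good n (discsMap (strMap (StructuredArrow.map (T := Pt.forget X x) f))) :=
  gd_all K.contractible (gd_v₀ x htriv) f.1 c'.a c.a f.2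

end Comparison

end Gpd

end Vale.Agent.P259
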