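import Vale.Agent.P259.Grid

/-!
# The pieces over the stars of a preorder compute the homotopy fibres
-/

noncomputable section

namespace Vale.Agent.P259

open scoped unitInterval Topology
open Metric Set Filter

variable {P : Type} [Preorder P] [TopologicalSpace P] [Topology.IsUpperSet P]
variable {E : Type} [TopologicalSpace E]
variable {m : ℕ}

/-- Twice the sup-distance to the centre of the cube. -/
def cubeRad (x : I^(Fin m)) : ℝ := 2 * ‖fun i => (x i : ℝ) - 1 / 2‖

@[fun_prop] theorem continuous_cubeRad : Continuous (cubeRad (m := m)) := by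
  unfold cubeRad; fun_prop

theorem abs_sub_le_cubeRad (x : I^(Fin m)) (i : Fin m) : |(x i : ℝ) - 1 / 2| ≤ cubeRad x / 2 := by
  have := norm_le_pi_norm (fun i => (x i : ℝ) - 1 / 2) i
  rw [cubeRad]
  rw [Real.norm_eq_abs] at this
  linarith

theorem cubeRad_le_one (x : I^(Fin m)) : cubeRad x ≤ 1 := by
  rw [cubeRad]
  have : ‖fun i => (x i : ℝ) - 1 / 2‖ ≤ 1 / 2 := by
    refine (pi_norm_le_iff_of_nonneg (by norm_num)).2 fun i => ?_
    rw [Real.norm_eq_abs, abs_le]
    constructor <;> linarith [(x i).2.1, (x i).2.2]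
  linarith

theorem exists_cubeRad_eq {x : I^(Fin m)} (h : 0 < cubeRad x) :
    ∃ i, |(x i : ℝ) - 1 / 2| = cubeRad x / 2 := by
  by_contra hne
  push Not at hne
  have hlt : ∀ i, ‖(fun i => (x i : ℝ) - 1 / 2) i‖ < cubeRad x / 2 := fun i => by
    rw [Real.norm_eq_abs]; exact lt_of_le_of_ne (abs_sub_le_cubeRad x i) (hne i)
  have h' := (pi_norm_lt_iff (by linarith)).2 hlt
  rw [cubeRad] at h'
  linarith

theorem cubeRad_eq_one {x : I^(Fin m)} (hx : x ∈ Cube.boundary (Fin m)) : cubeRad x = 1 := by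
  obtain ⟨i, hi⟩ := hx
  refine le_antisymm (cubeRad_le_one x) ?_
  have := abs_sub_le_cubeRad x i
  rcases hi with hi | hi <;> rw [hi] at this <;> norm_num at this <;> linarith

/-- Stretch the middle half of the cube onto the cube. -/
def stretch (x : I^(Fin m)) : I^(Fin m) := fun i =>
  projIcc (0 : ℝ) 1 zero_le_one (1 / 2 + ((x i : ℝ) - 1 / 2) / max (cubeRad x) (1 / 2))

@[fun_prop] theorem continuous_stretch : Continuous (stretch (m := m)) := by
  refine continuous_pi fun i => continuous_projIcc.comp ?_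
  refine continuous_const.add (Continuous.div (by fun_prop) (by fun_prop) fun x => ?_)
  exact (lt_of_lt_of_le (by norm_num) (le_max_right _ _)).ne'

theorem stretch_of_boundary {x : I^(Fin m)} (hx : x ∈ Cube.boundary (Fin m)) : stretch x = x := by
  funext i
  simp only [stretch, cubeRad_eq_one hx]
  norm_num

theorem stretch_mem_boundary {x : I^(Fin m)} (hx : 1 / 2 ≤ cubeRad x) :
    stretch x ∈ Cube.boundary (Fin m) := by
  obtain ⟨i, hi⟩ := exists_cubeRad_eq (x := x) (by linarith)
  refine ⟨i, ?_⟩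
  simp only [stretch, max_eq_left hx]
  rcases abs_choice ((x i : ℝ) - 1 / 2) with h | h <;> rw [h] at hi
  · right
    rw [hi, show 1 / 2 + cubeRad x / 2 / cubeRad x = 1 by field_simp; ring, projIcc_right]
    rfl
  · left
    rw [show (x i : ℝ) - 1 / 2 = -(cubeRad x / 2) by linarith,
      show 1 / 2 + -(cubeRad x / 2) / cubeRad x = 0 by field_simp; ring, projIcc_left]
    rfl

/-- Interpolate in the interval. -/
def mixI (τ : I) (a b : I) : I :=
  projIcc (0 : ℝ) 1 zero_le_one ((1 - τ : ℝ) * a + τ * b)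

@[fun_prop] theorem continuous_mixI {Z : Type*} [TopologicalSpace Z] {f g h : Z → I}
    (hf : Continuous f) (hg : Continuous g) (hh : Continuous h) :
    Continuous fun z => mixI (f z) (g z) (h z) := by
  unfold mixI; fun_prop

@[simp] theorem mixI_zero (a b : I) : mixI 0 a b = a := by simp [mixI]
@[simp] theorem mixI_one (a b : I) : mixI 1 a b = b := by simp [mixI]
@[simp] theorem mixI_self (τ a : I) : mixI τ a a = a := by
  simp only [mixI, show (1 - τ : ℝ) * a + τ * a = a by ring, projIcc_val]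

/-- Stretch the middle half of the interval. -/
def stretchI (t : I) : I := projIcc (0 : ℝ) 1 zero_le_one (2 * t - 1 / 2)

@[fun_prop] theorem continuous_stretchI : Continuous stretchI := by
  unfold stretchI; fun_prop

theorem stretchI_lt_half {t : I} : ((stretchI t : I) : ℝ) < 1 / 2 ↔ (t : ℝ) < 1 / 2 := by
  simp only [stretchI, coe_projIcc]
  constructor
  · intro h
    by_contra h'
    have : (1 / 2 : ℝ) ≤ max 0 (min 1 (2 * (t : ℝ) - 1 / 2)) :=
      le_max_of_le_right (le_min (by norm_num) (by linarith))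
    linarith
  · intro h
    exact max_lt (by norm_num) (min_lt_of_right_lt (by linarith))

theorem mixI_lt_half {τ t : I} :
    ((mixI τ t (stretchI t) : I) : ℝ) < 1 / 2 ↔ (t : ℝ) < 1 / 2 := by
  have h := stretchI_lt_half (t := t)
  have hs := (stretchI t).2
  simp only [mixI, coe_projIcc]
  have hτ := τ.2
  constructor
  · intro hlt
    by_contra h'
    have h'' : 1 / 2 ≤ ((stretchI t : I) : ℝ) := not_lt.1 fun e => h' (h.1 e)
    have : (1 / 2 : ℝ) ≤ max 0 (min 1 ((1 - τ : ℝ) * t + τ * (stretchI t : I))) :=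
      le_max_of_le_right (le_min (by norm_num) (by nlinarith [hτ.1, hτ.2, not_lt.1 h']))
    linarith
  · intro hlt
    refine max_lt (by norm_num) (min_lt_of_right_lt ?_)
    have h'' := h.2 hlt
    rcases eq_or_lt_of_le hτ.1 with he | he
    · rw [← he]; linarith
    · nlinarith [hτ.2]

/-- The time change moving the jump to `max τ (1/2)`. -/
def jumpShift : C(I × I, I) where
  toFun q := projIcc (0 : ℝ) 1 zero_le_one (if (q.2 : ℝ) ≤ 1 / 2 then 2 * q.2 * max (q.1 : ℝ) (1 / 2)
    else max (q.1 : ℝ) (1 / 2) + (2 * q.2 - 1) * (1 - max (q.1 : ℝ) (1 / 2)))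
  continuous_toFun := by
    refine continuous_projIcc.comp (Continuous.if_le (by fun_prop) (by fun_prop) (by fun_prop)
      continuous_const ?_)
    intro q hq
    rw [hq]; ring

theorem jumpShift_val (τ t : I) : ((jumpShift (τ, t) : I) : ℝ) =
    if (t : ℝ) ≤ 1 / 2 then 2 * t * max (τ : ℝ) (1 / 2)
    else max (τ : ℝ) (1 / 2) + (2 * t - 1) * (1 - max (τ : ℝ) (1 / 2)) := by
  simp only [jumpShift, ContinuousMap.coe_mk]
  rw [coe_projIcc]
  have hM : (1 / 2 : ℝ) ≤ max (τ : ℝ) (1 / 2) := le_max_right _ _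
  have hM' : max (τ : ℝ) (1 / 2) ≤ 1 := max_le τ.2.2 (by norm_num)
  split_ifs with h
  · rw [min_eq_right (by nlinarith [t.2.1]), max_eq_right (by nlinarith [t.2.1])]
  · rw [min_eq_right (by nlinarith [t.2.2]), max_eq_right (by nlinarith [t.2.2])]

theorem jumpShift_zero_left (t : I) : jumpShift (0, t) = t := by
  apply Subtype.ext
  rw [jumpShift_val]
  norm_num
  split_ifs <;> ring

theorem jumpShift_lt (τ t : I) (h : (t : ℝ) < 1 / 2) :
    ((jumpShift (τ, t) : I) : ℝ) < max (τ : ℝ) (1 / 2) := by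
  rw [jumpShift_val, if_pos h.le]
  have hM : (1 / 2 : ℝ) ≤ max (τ : ℝ) (1 / 2) := le_max_right _ _
  nlinarith

theorem le_jumpShift (τ t : I) (h : 1 / 2 ≤ (t : ℝ)) :
    max (τ : ℝ) (1 / 2) ≤ ((jumpShift (τ, t) : I) : ℝ) := by
  rw [jumpShift_val]
  have hM' : max (τ : ℝ) (1 / 2) ≤ 1 := max_le τ.2.2 (by norm_num)
  split_ifs with h'
  · rw [le_antisymm h' h]; linarith
  · nlinarith [not_le.1 h']

theorem jumpShift_right (τ : I) : jumpShift (τ, 1) = 1 := by
  apply Subtype.ext
  rw [jumpShift_val, Icc.coe_one, if_neg (by norm_num)]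
  ring

theorem jumpShift_left (τ : I) : jumpShift (τ, 0) = 0 := by
  apply Subtype.ext
  rw [jumpShift_val, Icc.coe_zero, if_pos (by norm_num)]
  ring

/-! ### The cover and the bounds -/

/-- Points and radii of a cover adapted to a map to a preorder. -/
structure AdaptedCover {Z : Type*} [MetricSpace Z] (g : Z → P) where
  pts : Finset Z
  r : Z → ℝ
  pos : ∀ z, 0 < r z
  le_of_mem : ∀ z z', dist z' z < 3 * r z → g z ≤ g z'
  cover : ∀ z, ∃ s ∈ pts, dist z s < r s / 2

theorem exists_adaptedCover {Z : Type*} [MetricSpace Z] [CompactSpace Z] {g : Z → P}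
    (hg : Continuous g) : Nonempty (AdaptedCover g) := by
  have h : ∀ z, ∃ r : ℝ, 0 < r ∧ ∀ z', dist z' z < 3 * r → g z ≤ g z' := by
    intro z
    obtain ⟨ε, hε, hball⟩ := Metric.eventually_nhds_iff.1 (eventually_le_apply hg z)
    exact ⟨ε / 3, by linarith, fun z' hz' => hball (by linarith)⟩
  choose r hr hle using h
  obtain ⟨t, ht⟩ := isCompact_univ.elim_finite_subcover (fun z => ball z (r z / 2))
    (fun z => isOpen_ball) (fun z _ => mem_iUnion.2 ⟨z, mem_ball_self (by linarith [hr z])⟩)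
  refine ⟨⟨t, r, hr, hle, fun z => ?_⟩⟩
  obtain ⟨s, hs, hz⟩ := mem_iUnion₂.1 (ht (mem_univ z))
  exact ⟨s, hs, hz⟩

namespace AdaptedCover

variable {Z : Type*} [MetricSpace Z] {g : Z → P} (C : AdaptedCover g)

omit [TopologicalSpace P] [Topology.IsUpperSet P] in
theorem comparable {z s s' : Z} (h : dist z s < C.r s) (h' : dist z s' < C.r s') :
    g s ≤ g s' ∨ g s' ≤ g s := by
  have hd : dist s s' < C.r s + C.r s' := by
    have := dist_triangle s z s'
    rw [dist_comm s z] at this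
    linarith
  rcases le_total (C.r s) (C.r s') with hr | hr
  · exact Or.inr (C.le_of_mem s' s (by linarith [C.pos s']))
  · exact Or.inl (C.le_of_mem s s' (by rw [dist_comm]; linarith [C.pos s]))

omit [TopologicalSpace P] [Topology.IsUpperSet P] in
theorem exists_sup (z : Z) : ∃ s ∈ C.pts, dist z s < C.r s / 2 ∧
    ∀ s' ∈ C.pts, dist z s' < C.r s' / 2 → g s' ≤ g s := by
  classical
  let S := C.pts.filter fun s => dist z s < C.r s / 2
  have hne : S.Nonempty := by
    obtain ⟨s, hs, h⟩ := C.cover z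
    exact ⟨s, Finset.mem_filter.2 ⟨hs, h⟩⟩
  obtain ⟨s, hs, hmax⟩ := exists_max_of_chain hne g fun a ha b hb => by
    have ha' := (Finset.mem_filter.1 ha).2
    have hb' := (Finset.mem_filter.1 hb).2
    exact C.comparable (z := z) (by linarith [C.pos a]) (by linarith [C.pos b])
  exact ⟨s, (Finset.mem_filter.1 hs).1, (Finset.mem_filter.1 hs).2,
    fun s' hs' h => hmax s' (Finset.mem_filter.2 ⟨hs', h⟩)⟩

/-- The largest value of a nearby centre. -/
def sup (z : Z) : P := g (Classical.choose (C.exists_sup z))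

omit [TopologicalSpace P] [Topology.IsUpperSet P] in
theorem sup_le (z : Z) : C.sup z ≤ g z := by
  obtain ⟨-, h, -⟩ := Classical.choose_spec (C.exists_sup z)
  exact C.le_of_mem _ _ (by linarith [C.pos (Classical.choose (C.exists_sup z))])

omit [TopologicalSpace P] [Topology.IsUpperSet P] in
theorem eventually_sup_le (z : Z) :
    ∀ᶠ z' in 𝓝 z, C.sup z ≤ C.sup z' ∧ C.sup z ≤ g z' := by
  obtain ⟨hs, h, -⟩ := Classical.choose_spec (C.exists_sup z)
  filter_upwards [isOpen_ball.mem_nhds (show z ∈ ball _ _ from h)] with z' hz'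
  rw [mem_ball] at hz'
  exact ⟨(Classical.choose_spec (C.exists_sup z')).2.2 _ hs hz',
    C.le_of_mem _ _ (by linarith [C.pos (Classical.choose (C.exists_sup z))])⟩

end AdaptedCover

/-- The point of the cylinder with given grid coordinates. -/
def gridToPt (N : ℕ) (z : GridPt m) : (I^(Fin m)) × I :=
  (fun i => projIcc (0 : ℝ) 1 zero_le_one (z.1 i / N), projIcc (0 : ℝ) 1 zero_le_one (z.2 / N))

@[fun_prop] theorem continuous_gridToPt (N : ℕ) : Continuous (gridToPt (m := m) N) := by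
  unfold gridToPt; fun_prop

/-- Grid coordinates of a point. -/
def ptToGrid (N : ℕ) (z : (I^(Fin m)) × I) : GridPt m := (fun i => N * (z.1 i : ℝ), N * (z.2 : ℝ))

@[fun_prop] theorem continuous_ptToGrid (N : ℕ) : Continuous (ptToGrid (m := m) N) := by
  unfold ptToGrid; fun_prop

theorem gridToPt_ptToGrid {N : ℕ} (hN : 0 < N) (z : (I^(Fin m)) × I) :
    gridToPt N (ptToGrid N z) = z := by
  have hN' : (N : ℝ) ≠ 0 := by positivity
  refine Prod.ext (funext fun i => ?_) ?_ <;>
    simp only [gridToPt, ptToGrid, mul_div_cancel_left₀ _ hN', projIcc_val]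

theorem dist_gridToPt_le {N : ℕ} (hN : 0 < N) {z z' : GridPt m} {k : Fin m → ℕ} {j : ℕ}
    (h : InCell N z k j) (h' : InCell N z' k j) :
    dist (gridToPt N z) (gridToPt N z') ≤ 1 / N := by
  have hN' : (0 : ℝ) < N := by exact_mod_cast hN
  have key : ∀ (c : ℕ) (a b : ℝ), c < N → (c : ℝ) ≤ a → a ≤ c + 1 → (c : ℝ) ≤ b → b ≤ c + 1 →
      dist (projIcc (0 : ℝ) 1 zero_le_one (a / N)) (projIcc (0 : ℝ) 1 zero_le_one (b / N))
        ≤ 1 / N := by
    intro c a b hc ha ha' hb hb'
    have hc' : (c : ℝ) + 1 ≤ N := by exact_mod_cast hc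
    have hc0 : (0 : ℝ) ≤ c := Nat.cast_nonneg c
    have m1 : a / N ∈ Icc (0 : ℝ) 1 :=
      ⟨div_nonneg (le_trans hc0 ha) hN'.le, (div_le_one hN').2 (ha'.trans hc')⟩
    have m2 : b / N ∈ Icc (0 : ℝ) 1 :=
      ⟨div_nonneg (le_trans hc0 hb) hN'.le, (div_le_one hN').2 (hb'.trans hc')⟩
    rw [projIcc_of_mem zero_le_one m1, projIcc_of_mem zero_le_one m2, Subtype.dist_eq,
      Real.dist_eq, ← sub_div, abs_div, abs_of_pos hN']
    gcongr
    rw [abs_le]; constructor <;> linarith
  rw [Prod.dist_eq, max_le_iff]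
  refine ⟨(dist_pi_le_iff (by positivity)).2 fun i => ?_, ?_⟩
  · exact key (k i) _ _ (h.1 i).1 (h.1 i).2.1 (h.1 i).2.2 (h'.1 i).2.1 (h'.1 i).2.2
  · exact key j _ _ h.2.1 h.2.2.1 h.2.2.2 h'.2.2.1 h'.2.2.2

theorem inCell_centre {N : ℕ} {k : Fin m → ℕ} {j : ℕ} (hk : ∀ i, k i < N) (hj : j < N) :
    InCell N ((fun i => (k i : ℝ) + 1 / 2, (j : ℝ) + 1 / 2) : GridPt m) k j :=
  ⟨fun i => ⟨hk i, by simp, by simp only; linarith⟩, hj, by simp, by simp only; linarith⟩

omit [TopologicalSpace P] [Topology.IsUpperSet P] in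
/-- Bounds on cells from a cover, with the value `p` on the late slabs. -/
theorem exists_cellBound {M : ℕ} (hM : 0 < M) {g : (I^(Fin m)) × I → P} (C : AdaptedCover g)
    (p : P) (hp : ∀ z : (I^(Fin m)) × I, 3 / 4 ≤ (z.2 : ℝ) → g z = p)
    (hsmall : ∀ s ∈ C.pts, 1 / ((4 * M : ℕ) : ℝ) < C.r s / 2) :
    ∃ B : CellBound m (4 * M) P,
      (∀ z k j, InCell (4 * M) z k j → B.q k j ≤ g (gridToPt (4 * M) z)) ∧
      (∀ z k j, InCell (4 * M) z k j → j < 3 * M → C.sup (gridToPt (4 * M) z) ≤ B.q k j) ∧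
      ∀ k j, 3 * M ≤ j → B.q k j = p := by
  classical
  set N := 4 * M with hNdef
  have hN : 0 < N := by omega
  have late : ∀ {z : GridPt m} {k : Fin m → ℕ} {j : ℕ}, InCell N z k j → 3 * M ≤ j →
      g (gridToPt N z) = p := by
    intro z k j h hj
    refine hp _ ?_
    have hj' : ((3 * M : ℕ) : ℝ) ≤ j := by exact_mod_cast hj
    have hN' : (N : ℝ) = 4 * M := by simp [hNdef]
    have hM' : (0 : ℝ) < M := by exact_mod_cast hM
    have : (3 / 4 : ℝ) ≤ z.2 / N := by
      rw [hN', le_div_iff₀ (by linarith)]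
      push_cast at hj'
      linarith [h.2.2.1]
    simp only [gridToPt, coe_projIcc]
    exact le_max_of_le_right (le_min (by norm_num) this)
  let Meets : (Fin m → ℕ) → ℕ → ((I^(Fin m)) × I) → Prop := fun k j s =>
    ∃ y, InCell N y k j ∧ dist (gridToPt N y) s < C.r s / 2
  have near : ∀ {z : GridPt m} {k : Fin m → ℕ} {j : ℕ} {s}, s ∈ C.pts → InCell N z k j →
      Meets k j s → dist (gridToPt N z) s < C.r s := by
    rintro z k j s hs h ⟨y, hy, hd⟩
    have := dist_triangle (gridToPt N z) (gridToPt N y) s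
    linarith [dist_gridToPt_le hN h hy, hsmall s hs]
  let S : (Fin m → ℕ) → ℕ → Finset ((I^(Fin m)) × I) := fun k j => C.pts.filter (Meets k j)
  let Q : (Fin m → ℕ) → ℕ → P := fun k j =>
    if h : ((∀ i, k i < N) ∧ j < N) ∧ j < 3 * M ∧
      ∃ s ∈ S k j, ∀ s' ∈ S k j, g s' ≤ g s then g (Classical.choose h.2.2) else p
  have hQ : ∀ {z : GridPt m} {k : Fin m → ℕ} {j : ℕ}, InCell N z k j → j < 3 * M →
      ∃ s, s ∈ S k j ∧ Q k j = g s ∧ ∀ s' ∈ S k j, g s' ≤ g s := by
    intro z k j hz hj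
    have hne : (S k j).Nonempty := by
      obtain ⟨s, hs, hd⟩ := C.cover (gridToPt N z)
      exact ⟨s, Finset.mem_filter.2 ⟨hs, z, hz, hd⟩⟩
    have hmax := exists_max_of_chain hne g fun a ha b hb =>
      C.comparable (near (Finset.mem_filter.1 ha).1 hz (Finset.mem_filter.1 ha).2)
        (near (Finset.mem_filter.1 hb).1 hz (Finset.mem_filter.1 hb).2)
    have h : ((∀ i, k i < N) ∧ j < N) ∧ j < 3 * M ∧
        ∃ s ∈ S k j, ∀ s' ∈ S k j, g s' ≤ g s := ⟨⟨fun i => (hz.1 i).1, hz.2.1⟩, hj, hmax⟩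
    exact ⟨_, (Classical.choose_spec h.2.2).1, dif_pos h, (Classical.choose_spec h.2.2).2⟩
  have hQlate : ∀ k j, 3 * M ≤ j → Q k j = p := fun k j hj => dif_neg fun h => by omega
  have hle : ∀ z k j, InCell N z k j → Q k j ≤ g (gridToPt N z) := by
    intro z k j hz
    by_cases hj : j < 3 * M
    · obtain ⟨s, hs, hq, -⟩ := hQ hz hj
      rw [hq]
      exact C.le_of_mem s _ (by
        linarith [near (Finset.mem_filter.1 hs).1 hz (Finset.mem_filter.1 hs).2, C.pos s])
    · rw [hQlate k j (by omega), late hz (by omega)]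
  refine ⟨⟨Q, fun z k j k' j' h h' => ?_⟩, hle, fun z k j hz hj => ?_, hQlate⟩
  · by_cases hj : j < 3 * M <;> by_cases hj' : j' < 3 * M
    · obtain ⟨s, hs, hq, -⟩ := hQ h hj
      obtain ⟨s', hs', hq', -⟩ := hQ h' hj'
      rw [hq, hq']
      exact C.comparable (near (Finset.mem_filter.1 hs).1 h (Finset.mem_filter.1 hs).2)
        (near (Finset.mem_filter.1 hs').1 h' (Finset.mem_filter.1 hs').2)
    · refine Or.inl ?_
      rw [hQlate k' j' (by omega), ← late h' (by omega)]
      exact hle z k j h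
    · refine Or.inr ?_
      rw [hQlate k j (by omega), ← late h (by omega)]
      exact hle z k' j' h'
    · exact Or.inl (by rw [hQlate k j (by omega), hQlate k' j' (by omega)])
  · obtain ⟨s, -, hq, hmax⟩ := hQ hz hj
    obtain ⟨hs₀, hd₀, -⟩ := Classical.choose_spec (C.exists_sup (gridToPt N z))
    show C.sup _ ≤ Q k j
    rw [hq]
    exact hmax _ (Finset.mem_filter.2 ⟨hs₀, z, hz, hd₀⟩)

/-! ### The lifting lemma -/

variable {f : C(E, P)} {p : P}

theorem toHof_snd (v : VSpace f p) (t : I) :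
    (toHof f p v).1.2 t = if (t : ℝ) < 1 / 2 then f v.1 else p := rfl

theorem exists_lift_stretched {n : ℕ}
    (hV : ∀ p q : P, ∀ h : p ≤ q, Good n (discsMap (vIncl f h))) (hm : m ≤ n + 1)
    (e : C(I^(Fin m), E)) (g : C((I^(Fin m)) × I, P))
    (hlow : ∀ x (t : I), (t : ℝ) ≤ 1 / 4 → g (x, t) = f (e x))
    (hhigh : ∀ x (t : I), 3 / 4 ≤ (t : ℝ) → g (x, t) = p)
    (hout : ∀ x, 1 / 2 ≤ cubeRad x →
      p ≤ f (e x) ∧ ∀ t : I, g (x, t) = if (t : ℝ) < 1 / 2 then f (e x) else p) :
    ∃ c : C(I^(Fin m), VSpace f p), (∀ x, 1 / 2 ≤ cubeRad x → (c x).1 = e x) ∧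
      (m ≤ n → ∃ (G : C((I^(Fin m)) × I, E)) (H : C(((I^(Fin m)) × I) × I, P)),
        (∀ x, G (x, 0) = e x) ∧ (∀ x, G (x, 1) = (c x).1) ∧
        (∀ z, H (z, 0) = f (G z)) ∧ (∀ z, H (z, 1) = p) ∧
        (∀ x t, H ((x, 0), t) = g (x, t)) ∧
        (∀ x t, H ((x, 1), t) = (toHof f p (c x)).1.2 t) ∧
        ∀ x, cubeRad x = 1 → ∀ τ, G (x, τ) = e x ∧ ∀ t, H ((x, τ), t) = g (x, t)) := by
  classical
  obtain ⟨C⟩ := exists_adaptedCover g.continuous
  obtain ⟨M, hM, hsmall⟩ :
      ∃ M : ℕ, 0 < M ∧ ∀ s ∈ C.pts, 1 / ((4 * M : ℕ) : ℝ) < C.r s / 2 := by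
    have hne : C.pts.Nonempty := by
      obtain ⟨s, hs, -⟩ := C.cover (fun _ => 0, 0); exact ⟨s, hs⟩
    obtain ⟨s₀, hs₀, hmin⟩ := C.pts.exists_min_image C.r hne
    obtain ⟨M, hM⟩ := exists_nat_gt (2 / C.r s₀)
    have h0 : (0 : ℝ) < 2 / C.r s₀ := div_pos two_pos (C.pos s₀)
    have hMpos : (0 : ℝ) < M := h0.trans hM
    refine ⟨M, by exact_mod_cast hMpos, fun s hs => ?_⟩
    rw [div_lt_iff₀ (C.pos s₀)] at hM
    have h2 := hmin s hs
    rw [div_lt_iff₀ (by push_cast; linarith)]
    push_cast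
    nlinarith [C.pos s]
  set N := 4 * M with hNdef
  have hN : 0 < N := by omega
  obtain ⟨B, hBle, hBsup, hBlate⟩ : ∃ B : CellBound m N P,
      (∀ z k j, InCell N z k j → B.q k j ≤ g (gridToPt N z)) ∧
      (∀ z k j, InCell N z k j → j < 3 * M → C.sup (gridToPt N z) ≤ B.q k j) ∧
      ∀ k j, 3 * M ≤ j → B.q k j = p :=
    exists_cellBound hM C p (fun z hz => hhigh z.1 z.2 hz) hsmall
  have hN' : (N : ℝ) = 4 * M := by simp [hNdef]
  have hMr : (0 : ℝ) < M := by exact_mod_cast hM
  set a : Fin m → ℕ := fun _ => M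
  set b : Fin m → ℕ := fun _ => 3 * M
  have hdim : boxDim a b ≤ m := by
    unfold boxDim
    exact (Finset.card_filter_le _ _).trans (by simp)
  let G₀ : GridPt m → E := fun z => e (gridToPt N z).1
  have hG₀ : Continuous G₀ := by fun_prop
  -- outer points of the grid
  have hbdy : ∀ x ∈ boxBdy a b, ∀ t : ℝ, 1 / 2 ≤ cubeRad (gridToPt N (x, t)).1 := by
    rintro x ⟨-, i, -, hi⟩ t
    have h := abs_sub_le_cubeRad (gridToPt N (x, t)).1 i
    have hx : ((gridToPt N (x, t)).1 i : ℝ) = 1 / 4 ∨ ((gridToPt N (x, t)).1 i : ℝ) = 3 / 4 := by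
      simp only [gridToPt, coe_projIcc]
      rcases hi with hi | hi
      · left; rw [hi, hN']; simp only [a]; field_simp; norm_num
      · right; rw [hi, hN']; simp only [b]; push_cast; field_simp; norm_num
    rcases hx with hx | hx <;> rw [hx] at h <;> norm_num at h <;> linarith
  have hinner : ∀ x : I^(Fin m), cubeRad x ≤ 1 / 2 →
      (fun i => (N : ℝ) * x i) ∈ box a b := by
    intro x hx i
    have h := abs_le.1 (abs_sub_le_cubeRad x i)
    simp only [a, b, hN']
    push_cast
    constructor <;> nlinarith [h.1, h.2]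
  have houter : ∀ x : I^(Fin m),
      (fun i => (N : ℝ) * x i) ∈ box a b \ boxBdy a b → cubeRad x < 1 / 2 := by
    rintro x ⟨hx, hx'⟩
    by_contra hge
    rw [not_lt] at hge
    obtain ⟨i, hi⟩ := exists_cubeRad_eq (x := x) (by linarith)
    refine hx' ⟨hx, i, by simp only [a, b]; omega, ?_⟩
    have h₁ := (hx i).1
    have h₂ := (hx i).2
    simp only [a, b, hN'] at h₁ h₂ ⊢
    push_cast at h₁ h₂ ⊢
    rcases abs_choice ((x i : ℝ) - 1 / 2) with h | h <;> rw [h] at hi
    · right; nlinarith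
    · left; nlinarith
  -- the lift
  have hdata : ∀ z ∈ box a b ×ˢ {(M : ℝ)} ∪ boxBdy a b ×ˢ Icc (M : ℝ) (M + (2 * M : ℕ)),
      Controlled f B z (G₀ z) := by
    intro z hz k j hk
    refine (hBle z k j hk).trans ?_
    rcases hz with ⟨-, ht⟩ | ⟨hx, -⟩
    · rw [mem_singleton_iff] at ht
      refine le_of_eq (hlow (gridToPt N z).1 (gridToPt N z).2 ?_)
      simp only [gridToPt, coe_projIcc, ht, hN']
      refine max_le (by norm_num) ((min_le_right _ _).trans ?_)
      field_simp; norm_num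
    · obtain ⟨hp, hj⟩ := hout _ (hbdy z.1 hx z.2)
      show g (gridToPt N (z.1, z.2)) ≤ f (e (gridToPt N (z.1, z.2)).1)
      refine (hj (gridToPt N (z.1, z.2)).2).trans_le ?_
      split_ifs
      · exact le_rfl
      · exact hp
  obtain ⟨L, hoff, htop, htopctl, hfull⟩ := exists_column_fill hV B a b
    (fun i => by simp only [a, b]; omega) (fun i => by simp only [b]; omega) (by omega) M G₀
    (2 * M) (by omega) hG₀.continuousOn hdata
  have h3 : (M : ℝ) + (2 * M : ℕ) = 3 * M := by push_cast; ring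
  rw [h3] at htop htopctl hfull
  have hedge : ∀ (x : I^(Fin m)) (s : ℝ), 1 / 2 ≤ cubeRad x →
      L ((fun i => (N : ℝ) * x i), s) = e x := by
    intro x s hx
    rw [hoff _ fun h => (houter x h.1).not_ge hx]
    have hxN : (gridToPt N ((fun i => (N : ℝ) * x i), s)).1 = x := funext fun i => by
      simp [gridToPt, mul_div_cancel_left₀ _ (show (N : ℝ) ≠ 0 by positivity)]
    show e (gridToPt N ((fun i => (N : ℝ) * x i), s)).1 = e x
    rw [hxN]
  have hbot : ∀ (x : I^(Fin m)), L ((fun i => (N : ℝ) * x i), (M : ℝ)) = e x := by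
    intro x
    rw [hoff _ fun h => (lt_irrefl (M : ℝ)) (mem_Ioi.1 h.2)]
    have hxN : (gridToPt N ((fun i => (N : ℝ) * x i), (M : ℝ))).1 = x := funext fun i => by
      simp [gridToPt, mul_div_cancel_left₀ _ (show (N : ℝ) ≠ 0 by positivity)]
    show e (gridToPt N ((fun i => (N : ℝ) * x i), (M : ℝ))).1 = e x
    rw [hxN]
  let topFun : (I^(Fin m)) → E := fun x => L ((fun i => (N : ℝ) * x i), 3 * (M : ℝ))
  have htopc : Continuous topFun := by
    rw [← continuousOn_univ]
    refine (ContinuousOn.union_of_isClosed (s := {x | cubeRad x ≤ 1 / 2})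
      (t := {x | 1 / 2 ≤ cubeRad x}) ?_ ?_ (isClosed_le (by fun_prop) continuous_const)
      (isClosed_le continuous_const (by fun_prop))).mono fun x _ => le_total (cubeRad x) (1 / 2)
    · exact htop.comp (by fun_prop) fun x hx => ⟨hinner x hx, rfl⟩
    · exact e.continuous.continuousOn.congr fun x hx => hedge x _ hx
  have htopp : ∀ x, p ≤ f (topFun x) := by
    intro x
    rcases le_total (cubeRad x) (1 / 2) with hx | hx
    · obtain ⟨k, hk⟩ : ∃ k : Fin m → ℕ, ∀ i, k i < N ∧
          (k i : ℝ) ≤ N * x i ∧ (N : ℝ) * x i ≤ k i + 1 :=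
        Classical.axiomOfChoice fun i => exists_inCell_nat hN
          (mul_nonneg (Nat.cast_nonneg _) (x i).2.1)
          (mul_le_of_le_one_right (Nat.cast_nonneg _) (x i).2.2)
      have := htopctl _ (hinner x hx) k (3 * M)
        ⟨hk, by omega, by push_cast; linarith, by push_cast; linarith⟩
      rwa [hBlate k _ le_rfl] at this
    · show p ≤ f (topFun x)
      rw [show topFun x = e x from hedge x _ hx]
      exact (hout x hx).1
  refine ⟨⟨fun x => ⟨topFun x, htopp x⟩, htopc.subtype_mk _⟩, fun x hx => hedge x _ hx,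
    fun hmn => ?_⟩
  obtain ⟨hfc, hfctl⟩ := hfull (hdim.trans hmn)
  let tm : I → ℝ := fun t => max (M : ℝ) (min ((N : ℝ) * t) (3 * M))
  have htm : ∀ t, tm t ∈ Icc (M : ℝ) (3 * M) := fun t =>
    ⟨le_max_left _ _, max_le (by linarith) (min_le_right _ _)⟩
  let Gfun : (I^(Fin m)) × I → E := fun z => L ((fun i => (N : ℝ) * z.1 i), tm z.2)
  have hGc : Continuous Gfun := by
    rw [← continuousOn_univ]
    refine (ContinuousOn.union_of_isClosed (s := {z | cubeRad z.1 ≤ 1 / 2})
      (t := {z | 1 / 2 ≤ cubeRad z.1}) ?_ ?_ (isClosed_le (by fun_prop) continuous_const)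
      (isClosed_le continuous_const (by fun_prop))).mono fun z _ => le_total (cubeRad z.1) (1 / 2)
    · exact hfc.comp (by fun_prop) fun z hz => ⟨hinner z.1 hz, htm z.2⟩
    · exact (e.continuous.comp continuous_fst).continuousOn.congr fun z hz => hedge z.1 _ hz
  have htm_low : ∀ t : I, (t : ℝ) ≤ 1 / 4 → tm t = M := fun t ht =>
    max_eq_left ((min_le_left _ _).trans (by rw [hN']; nlinarith))
  have htm_high : ∀ t : I, 3 / 4 ≤ (t : ℝ) → tm t = 3 * M := fun t ht => by
    simp only [tm]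
    rw [min_eq_right (by rw [hN']; nlinarith), max_eq_right (by linarith)]
  let core : Set ((I^(Fin m)) × I) :=
    {z | cubeRad z.1 ≤ 1 / 2 ∧ 1 / 4 ≤ (z.2 : ℝ) ∧ (z.2 : ℝ) ≤ 3 / 4}
  have hc₁ : Continuous fun z : (I^(Fin m)) × I => cubeRad z.1 := by fun_prop
  have hc₂ : Continuous fun z : (I^(Fin m)) × I => (z.2 : ℝ) := by fun_prop
  have hcore : IsClosed core :=
    (isClosed_le hc₁ continuous_const).inter
      ((isClosed_le continuous_const hc₂).inter (isClosed_le hc₂ continuous_const))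
  let K : (I^(Fin m)) × I → P := fun z => if z ∈ core then C.sup z else g z
  have hKg : ∀ z, K z ≤ g z := fun z => by
    simp only [K]; split_ifs
    · exact C.sup_le z
    · exact le_rfl
  have hKev : ∀ z, ∀ᶠ z' in 𝓝 z, K z ≤ K z' ∧ K z ≤ g z' := by
    intro z
    by_cases hz : z ∈ core
    · filter_upwards [C.eventually_sup_le z] with z' hz'
      simp only [K, if_pos hz]
      refine ⟨?_, hz'.2⟩
      split_ifs
      · exact hz'.1
      · exact hz'.2
    · filter_upwards [eventually_le_apply g.continuous z, hcore.isOpen_compl.mem_nhds hz]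
        with z' hz' hz''
      simp only [K, if_neg hz, if_neg (show ¬ z' ∈ core from hz'')]
      exact ⟨hz', hz'⟩
  have hKG : ∀ z, K z ≤ f (Gfun z) := by
    rintro ⟨x, t⟩
    simp only [K]
    split_ifs with hz
    · obtain ⟨hx, ht₁, ht₂⟩ := hz
      have htm' : tm t = N * t := by
        simp only [tm]
        rw [min_eq_left (by rw [hN']; nlinarith), max_eq_right (by rw [hN']; nlinarith)]
      obtain ⟨k, hk⟩ : ∃ k : Fin m → ℕ, ∀ i, k i < N ∧
          (k i : ℝ) ≤ N * x i ∧ (N : ℝ) * x i ≤ k i + 1 :=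
        Classical.axiomOfChoice fun i => exists_inCell_nat hN
          (mul_nonneg (Nat.cast_nonneg _) (x i).2.1)
          (mul_le_of_le_one_right (Nat.cast_nonneg _) (x i).2.2)
      obtain ⟨j, hj, hj₁, hj₂⟩ := exists_inCell_nat (N := 3 * M) (x := (N : ℝ) * t) (by omega)
        (mul_nonneg (Nat.cast_nonneg _) t.2.1) (by rw [hN']; push_cast; nlinarith)
      have hin : InCell N (ptToGrid N (x, t)) k j := ⟨hk, by omega, hj₁, hj₂⟩
      have h1 := hBsup _ k j hin hj
      rw [gridToPt_ptToGrid hN] at h1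
      refine h1.trans ?_
      have := hfctl ((fun i => (N : ℝ) * x i), tm t) ⟨hinner x hx, htm t⟩ k j
        (by rw [htm']; exact hin)
      exact this
    · rcases le_total (1 / 2) (cubeRad x) with hx | hx
      · show g (x, t) ≤ f (L ((fun i => (N : ℝ) * x i), tm t))
        rw [hedge x _ hx, (hout x hx).2 t]
        split_ifs
        · exact le_rfl
        · exact (hout x hx).1
      · show g (x, t) ≤ f (L ((fun i => (N : ℝ) * x i), tm t))
        rcases le_total (t : ℝ) (1 / 4) with ht | ht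
        · rw [htm_low t ht, hbot x, hlow x t ht]
        · have ht' : 3 / 4 ≤ (t : ℝ) := by
            by_contra h'; exact hz ⟨hx, ht, (not_le.1 h').le⟩
          rw [htm_high t ht', hhigh x t ht']
          exact htopp x
  let R : ((I^(Fin m)) × I) × I → P := fun q =>
    if (q.1.2 : ℝ) < q.2 then g (q.1.1, q.2)
    else if (q.2 : ℝ) < q.1.2 then f (Gfun q.1) else K q.1
  have hR : Continuous R := by
    refine continuous_of_eventually_le fun q => ?_
    have hA : Continuous fun q' : ((I^(Fin m)) × I) × I => g (q'.1.1, q'.2) := by fun_prop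
    have hB : Continuous fun q' : ((I^(Fin m)) × I) × I => f (Gfun q'.1) :=
      f.continuous.comp (hGc.comp continuous_fst)
    have hoA : IsOpen {q' : ((I^(Fin m)) × I) × I | (q'.1.2 : ℝ) < q'.2} :=
      isOpen_lt (by fun_prop) (by fun_prop)
    have hoB : IsOpen {q' : ((I^(Fin m)) × I) × I | (q'.2 : ℝ) < q'.1.2} :=
      isOpen_lt (by fun_prop) (by fun_prop)
    show ∀ᶠ b in 𝓝 q, R q ≤ R b
    by_cases h₁ : (q.1.2 : ℝ) < q.2
    · filter_upwards [eventually_le_apply hA q, hoA.mem_nhds h₁] with b hb hb'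
      simp only [R, if_pos h₁, if_pos (show (b.1.2 : ℝ) < b.2 from hb')]
      exact hb
    by_cases h₂ : (q.2 : ℝ) < q.1.2
    · filter_upwards [eventually_le_apply hB q, hoB.mem_nhds h₂] with b hb hb'
      have hb'' : ¬ (b.1.2 : ℝ) < b.2 := not_lt.2 (le_of_lt hb')
      simp only [R, if_neg h₁, if_pos h₂, if_neg hb'', if_pos (show (b.2 : ℝ) < b.1.2 from hb')]
      exact hb
    have heq : q.2 = q.1.2 := Subtype.ext (le_antisymm (not_lt.1 h₁) (not_lt.1 h₂))
    have hA' : Continuous fun b : ((I^(Fin m)) × I) × I => ((b.1.1, b.2) : (I^(Fin m)) × I) := by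
      fun_prop
    have e1 := (hA'.tendsto q).eventually (by
      have := hKev q.1
      rwa [show ((q.1.1, q.2) : (I^(Fin m)) × I) = q.1 by rw [heq]])
    have e2 := (continuous_fst.tendsto q).eventually (hKev q.1)
    filter_upwards [e1, e2] with b hb₁ hb₂
    simp only [R, if_neg h₁, if_neg h₂]
    split_ifs
    · exact hb₁.2
    · exact hb₂.1.trans (hKG b.1)
    · exact hb₂.1
  have hRz : ∀ x t, R ((x, 0), t) = g (x, t) := by
    intro x t
    simp only [R]
    by_cases h : ((0 : I) : ℝ) < t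
    · rw [if_pos h]
    · have ht : t = 0 := Subtype.ext (le_antisymm (not_lt.1 h) t.2.1)
      subst ht
      rw [if_neg h]
      simp only [lt_irrefl, if_false, K]
      exact if_neg fun hc => by norm_num [core] at hc
  have hG0 : ∀ x, Gfun (x, 0) = e x := fun x => by
    show L (_, tm 0) = e x
    rw [htm_low 0 (by norm_num)]
    exact hbot x
  have hG1 : ∀ x, Gfun (x, 1) = topFun x := fun x => by
    show L (_, tm 1) = L _
    rw [htm_high 1 (by norm_num)]
  refine ⟨⟨Gfun, hGc⟩, ⟨fun q => R (q.1, jumpShift (q.1.2, q.2)), hR.comp (by fun_prop)⟩,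
    hG0, hG1, fun z => ?_, fun z => ?_, fun x t => ?_, fun x t => ?_, fun x hx1 τ => ?_⟩
  · show R (z, jumpShift (z.2, 0)) = f (Gfun z)
    rw [jumpShift_left]
    obtain ⟨x, τ⟩ := z
    rcases eq_or_lt_of_le τ.2.1 with h | h
    · have hτ : τ = 0 := Subtype.ext h.symm
      subst hτ
      rw [hRz, hG0, hlow x 0 (by norm_num)]
    · simp only [R, Icc.coe_zero, if_neg (not_lt.2 h.le), if_pos h]
  · show R (z, jumpShift (z.2, 1)) = p
    rw [jumpShift_right]
    obtain ⟨x, τ⟩ := z
    rcases eq_or_lt_of_le τ.2.2 with h | h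
    · simp only [R, Icc.coe_one, h, lt_irrefl, if_false, K]
      have hτ : τ = 1 := Subtype.ext h
      subst hτ
      rw [if_neg (fun hc => by norm_num [core] at hc)]
      exact hhigh x 1 (by norm_num)
    · simp only [R, Icc.coe_one, if_pos h]
      exact hhigh x 1 (by norm_num)
  · show R ((x, 0), jumpShift (0, t)) = g (x, t)
    rw [jumpShift_zero_left, hRz]
  · show R ((x, 1), jumpShift (1, t)) = if (t : ℝ) < 1 / 2 then f (topFun x) else p
    by_cases ht : (t : ℝ) < 1 / 2
    · have h : ((jumpShift (1, t) : I) : ℝ) < 1 := by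
        have := jumpShift_lt 1 t ht
        norm_num at this ⊢
        exact this
      simp only [R, Icc.coe_one, if_neg (not_lt.2 h.le), if_pos h, if_pos ht, hG1]
    · have h : jumpShift (1, t) = 1 := by
        refine Subtype.ext (le_antisymm (jumpShift (1, t)).2.2 ?_)
        have := le_jumpShift 1 t (not_lt.1 ht)
        norm_num at this ⊢
        linarith
      rw [h, if_neg ht]
      simp only [R, lt_irrefl, if_false, K]
      rw [if_neg (fun hc => by norm_num [core] at hc)]
      exact hhigh x 1 (by norm_num)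
  · have hx : 1 / 2 ≤ cubeRad x := by rw [hx1]; norm_num
    have hxcase : (x, τ) ∉ core := fun hc => by have := hc.1; linarith
    have hGe : Gfun (x, τ) = e x := hedge x _ hx
    refine ⟨hGe, fun t => ?_⟩
    show R ((x, τ), jumpShift (τ, t)) = g (x, t)
    obtain ⟨hp, hjump⟩ := hout x hx
    set s := jumpShift (τ, t) with hs
    rw [hjump t]
    by_cases ht : (t : ℝ) < 1 / 2
    · rw [if_pos ht]
      have hlt : (s : ℝ) < max (τ : ℝ) (1 / 2) := jumpShift_lt τ t ht
      simp only [R]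
      split_ifs with h₁ h₂
      · rw [hjump, if_pos]
        rcases max_choice (τ : ℝ) (1 / 2) with h | h <;> rw [h] at hlt <;> linarith
      · rw [hGe]
      · have heq : (τ : ℝ) = s := le_antisymm (not_lt.1 h₂) (not_lt.1 h₁)
        have hτ : (τ : ℝ) < 1 / 2 := by
          rw [← heq] at hlt
          rcases max_choice (τ : ℝ) (1 / 2) with h | h <;> rw [h] at hlt <;> linarith
        have hgx : g (x, τ) = f (e x) := by rw [hjump, if_pos hτ]
        simp only [K, if_neg hxcase, hgx]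
    · rw [if_neg ht]
      have hge : max (τ : ℝ) (1 / 2) ≤ s := le_jumpShift τ t (not_lt.1 ht)
      simp only [R]
      split_ifs with h₁ h₂
      · rw [hjump, if_neg (not_lt.2 ((le_max_right _ _).trans hge))]
      · exact absurd h₂ (not_lt.2 ((le_max_left _ _).trans hge))
      · have hgx : g (x, τ) = p := by
          rw [hjump, if_neg (not_lt.2 ?_)]
          have : (τ : ℝ) = s := le_antisymm (not_lt.1 h₂) (not_lt.1 h₁)
          rw [this]; exact (le_max_right _ _).trans hge
        simp only [K, if_neg hxcase, hgx]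

end Vale.Agent.P259
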