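import Vale.Agent.P259.Engine

/-!
# Quillen's criterion for homotopy fibres, over a preorder
-/

noncomputable section

namespace Vale.Agent.P259

open scoped unitInterval Topology
open Metric Set

variable {P : Type} [Preorder P] [TopologicalSpace P] [Topology.IsUpperSet P]
variable {E : Type} [TopologicalSpace E] {f : C(E, P)} {p : P} {m n : ℕ}

/-- The path component of a point of the homotopy fibre, as a joint map. -/
def hofEval (W : C((I^(Fin m)), Hof f p)) : C((I^(Fin m)) × I, P) :=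
  ⟨fun q => (W q.1).1.2 q.2, continuous_eval.comp
    (((continuous_snd.comp (continuous_subtype_val.comp (W.continuous.comp continuous_fst)))).prodMk
      continuous_snd)⟩

theorem toHof_injective {v v' : VSpace f p} (h : toHof f p v = toHof f p v') : v = v' :=
  Subtype.ext (congrArg (fun z : Hof f p => z.1.1) h)

theorem stretchI_of_low {t : I} (h : (t : ℝ) ≤ 1 / 4) : stretchI t = 0 :=
  projIcc_of_le_left _ (by linarith)

theorem stretchI_of_high {t : I} (h : 3 / 4 ≤ (t : ℝ)) : stretchI t = 1 :=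
  projIcc_of_right_le _ (by linarith)

/-- Lifting a cube in the homotopy fibre. -/
theorem exists_cube_lift (hV : ∀ p q : P, ∀ h : p ≤ q, Good n (discsMap (vIncl f h)))
    (hm : m ≤ n + 1) (W : C((I^(Fin m)), Hof f p))
    (hb : ∀ x ∈ Cube.boundary (Fin m), ∃ v, toHof f p v = W x) :
    ∃ c : C((I^(Fin m)), VSpace f p), (∀ x ∈ Cube.boundary (Fin m), toHof f p (c x) = W x) ∧
      (m ≤ n → W.HomotopicRel ((toHof f p).comp c) (Cube.boundary (Fin m))) := by
  let e : C((I^(Fin m)), E) :=
    ⟨fun x => (W x).1.1, continuous_fst.comp (continuous_subtype_val.comp W.continuous)⟩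
  let g := hofEval W
  have hg0 : ∀ x, g (x, 0) = f (e x) := fun x => (W x).2.1
  have hg1 : ∀ x, g (x, 1) = p := fun x => (W x).2.2
  have hjump : ∀ x ∈ Cube.boundary (Fin m), p ≤ f (e x) ∧
      ∀ t : I, g (x, t) = if (t : ℝ) < 1 / 2 then f (e x) else p := by
    intro x hx
    obtain ⟨v, hv⟩ := hb x hx
    have he : v.1 = e x := congrArg (fun z : Hof f p => z.1.1) hv
    refine ⟨he ▸ v.2, fun t => ?_⟩
    rw [← he]
    exact ((congrArg (fun z : Hof f p => z.1.2 t) hv).symm).trans (toHof_snd v t)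
  let e' : C((I^(Fin m)), E) := ⟨fun x => e (stretch x), by fun_prop⟩
  let g' : C((I^(Fin m)) × I, P) := ⟨fun q => g (stretch q.1, stretchI q.2), by fun_prop⟩
  obtain ⟨c, hc, hfull⟩ := exists_lift_stretched (p := p) hV hm e' g'
    (fun x t ht => by
      show g (stretch x, stretchI t) = f (e (stretch x))
      rw [stretchI_of_low ht, hg0])
    (fun x t ht => by
      show g (stretch x, stretchI t) = p
      rw [stretchI_of_high ht, hg1])
    (fun x hx => by
      obtain ⟨h₁, h₂⟩ := hjump _ (stretch_mem_boundary hx)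
      refine ⟨h₁, fun t => ?_⟩
      show g (stretch x, stretchI t) = if (t : ℝ) < 1 / 2 then f (e (stretch x)) else p
      rw [h₂, if_congr stretchI_lt_half rfl rfl])
  have hcb : ∀ x ∈ Cube.boundary (Fin m), toHof f p (c x) = W x := by
    intro x hx
    obtain ⟨v, hv⟩ := hb x hx
    have h1 : (c x).1 = e x := by
      rw [hc x (by rw [cubeRad_eq_one hx]; norm_num)]
      exact congrArg e (stretch_of_boundary hx)
    have h2 : v.1 = e x := congrArg (fun z : Hof f p => z.1.1) hv
    rw [← hv, show c x = v from Subtype.ext (h1.trans h2.symm)]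
  refine ⟨c, hcb, fun hmn => ?_⟩
  obtain ⟨G, H, hG0, hG1, hH0, hH1, hHz, hHo, hbd⟩ := hfull hmn
  let mx : C(I × (I^(Fin m)), I^(Fin m)) :=
    ⟨fun q i => mixI q.1 (q.2 i) (stretch q.2 i), by fun_prop⟩
  have hmx0 : ∀ x, mx (0, x) = x := fun x => funext fun i => mixI_zero _ _
  have hmx1 : ∀ x, mx (1, x) = stretch x := fun x => funext fun i => mixI_one _ _
  have hmxb : ∀ τ, ∀ x ∈ Cube.boundary (Fin m), mx (τ, x) = x := fun τ x hx => funext fun i => by
    show mixI τ (x i) (stretch x i) = x i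
    rw [stretch_of_boundary hx, mixI_self]
  let P₀ : C((I × (I^(Fin m))) × I, P) :=
    ⟨fun q => g (mx q.1, mixI q.1.1 q.2 (stretchI q.2)), by fun_prop⟩
  let K₀ : C(I × (I^(Fin m)), Hof f p) :=
    ⟨fun q => ⟨(e (mx q), P₀.curry q), by
      show g (mx q, mixI q.1 0 (stretchI 0)) = f (e (mx q))
      rw [stretchI_of_low (by norm_num), mixI_self, hg0], by
      show g (mx q, mixI q.1 1 (stretchI 1)) = p
      rw [stretchI_of_high (by norm_num), mixI_self, hg1]⟩, by fun_prop⟩
  let W' : C((I^(Fin m)), Hof f p) := K₀.comp ⟨fun x => (1, x), by fun_prop⟩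
  have step₀ : W.HomotopicRel W' (Cube.boundary (Fin m)) := by
    refine ⟨⟨⟨K₀, fun x => ?_, fun x => rfl⟩, fun τ x hx => ?_⟩⟩
    · refine Subtype.ext (Prod.ext (congrArg e (hmx0 x)) (ContinuousMap.ext fun t => ?_))
      show g (mx (0, x), mixI 0 t (stretchI t)) = (W x).1.2 t
      rw [hmx0, mixI_zero]; rfl
    · refine Subtype.ext (Prod.ext (congrArg e (hmxb τ x hx)) (ContinuousMap.ext fun t => ?_))
      show g (mx (τ, x), mixI τ t (stretchI t)) = (W x).1.2 t
      rw [hmxb τ x hx, (hjump x hx).2, if_congr mixI_lt_half rfl rfl, ← (hjump x hx).2]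
      rfl
  let P₁ : C((I × (I^(Fin m))) × I, P) := H.comp ⟨fun q => ((q.1.2, q.1.1), q.2), by fun_prop⟩
  let K₁ : C(I × (I^(Fin m)), Hof f p) :=
    ⟨fun q => ⟨(G (q.2, q.1), P₁.curry q), hH0 (q.2, q.1), hH1 (q.2, q.1)⟩, by fun_prop⟩
  have hW' : ∀ x t, (W' x).1.2 t = g' (x, t) := fun x t => by
    show g (mx (1, x), mixI 1 t (stretchI t)) = g (stretch x, stretchI t)
    rw [hmx1, mixI_one]
  have hW'e : ∀ x, (W' x).1.1 = e' x := fun x => congrArg e (hmx1 x)
  have step₁ : W'.HomotopicRel ((toHof f p).comp c) (Cube.boundary (Fin m)) := by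
    refine ⟨⟨⟨K₁, fun x => ?_, fun x => ?_⟩, fun τ x hx => ?_⟩⟩
    · refine Subtype.ext (Prod.ext ((hG0 x).trans (hW'e x).symm) (ContinuousMap.ext fun t => ?_))
      exact (hHz x t).trans (hW' x t).symm
    · refine Subtype.ext (Prod.ext (hG1 x) (ContinuousMap.ext fun t => ?_))
      exact hHo x t
    · obtain ⟨h₁, h₂⟩ := hbd x (cubeRad_eq_one hx) τ
      refine Subtype.ext (Prod.ext (h₁.trans (hW'e x).symm) (ContinuousMap.ext fun t => ?_))
      exact (h₂ t).trans (hW' x t).symm
  exact step₀.trans step₁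

/-- Lifting a disc in the homotopy fibre. -/
theorem exists_ball_lift (hV : ∀ p q : P, ∀ h : p ≤ q, Good n (discsMap (vIncl f h)))
    (hm : m ≤ n + 1) (W : C(Ball m, Hof f p))
    (hb : ∀ x : Ball m, ‖x.1‖ = 1 → ∃ v, toHof f p v = W x) :
    ∃ c : C(Ball m, VSpace f p), (∀ x : Ball m, ‖x.1‖ = 1 → toHof f p (c x) = W x) ∧
      (m ≤ n → (discs (Hof f p)).Rel m ((toHof f p).comp c) W) := by
  let φ : C(Ball m, I^(Fin m)) := ⟨cubeHomeo m, (cubeHomeo m).continuous⟩
  let ψ : C((I^(Fin m)), Ball m) := ⟨(cubeHomeo m).symm, (cubeHomeo m).symm.continuous⟩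
  have hφψ : ∀ x, ψ (φ x) = x := (cubeHomeo m).symm_apply_apply
  have hψb : ∀ y ∈ Cube.boundary (Fin m), ‖(ψ y).1‖ = 1 := fun y hy =>
    (cubeHomeo_boundary _).2 (by
      show cubeHomeo m ((cubeHomeo m).symm y) ∈ _
      rw [Homeomorph.apply_symm_apply]; exact hy)
  obtain ⟨c, hc, hrel⟩ := exists_cube_lift hV hm (W.comp ψ) (fun y hy => hb _ (hψb y hy))
  refine ⟨c.comp φ, fun x hx => ?_, fun hmn => ?_⟩
  · exact (hc _ ((cubeHomeo_boundary x).1 hx)).trans (congrArg W (hφψ x))
  · obtain ⟨H⟩ := hrel hmn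
    let G : C(Ball m × I, Hof f p) :=
      H.toContinuousMap.comp ⟨fun q => (q.2, φ q.1), by fun_prop⟩
    refine Groupoidal.symm (rel_of_homotopy G (fun x => ?_) (fun x => ?_) fun x hx t => ?_)
    · exact (H.apply_zero (φ x)).trans (congrArg W (hφψ x))
    · exact H.apply_one (φ x)
    · exact (H.prop t (φ x) ((cubeHomeo_boundary x).1 hx)).trans (congrArg W (hφψ x))

theorem exists_bdry_lift {i : ℕ} {u v : C(Ball i, VSpace f p)} (W : C(Ball (i + 1), Hof f p))
    (hs : W.comp hemS = (toHof f p).comp u) (ht : W.comp hemT = (toHof f p).comp v)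
    (x : Ball (i + 1)) (hx : ‖x.1‖ = 1) : ∃ z, toHof f p z = W x := by
  rcases le_total (Eu.last x.1) 0 with hl | hl
  · exact ⟨u (proj x), by rw [(eq_hem_of_norm_eq_one hx).1 hl, proj_hemS]
                          exact (DFunLike.congr_fun hs (proj x)).symm⟩
  · exact ⟨v (proj x), by rw [(eq_hem_of_norm_eq_one hx).2 hl, proj_hemT]
                          exact (DFunLike.congr_fun ht (proj x)).symm⟩

/-- If all inclusions between pieces are good, the pieces compute the homotopy fibres. -/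
theorem good_toHof (hV : ∀ p q : P, ∀ h : p ≤ q, Good n (discsMap (vIncl f h))) (p : P) :
    Good n (discsMap (toHof f p)) := by
  refine ⟨fun W => ?_, fun i hi u v huv W hs ht => ?_, fun i hi u v huv h => ?_⟩
  · obtain ⟨c, -, hrel⟩ := exists_ball_lift hV (Nat.zero_le _) W (fun x hx => by
      rw [Subsingleton.elim x.1 0, norm_zero] at hx
      exact absurd hx (by norm_num))
    exact ⟨c, hrel (Nat.zero_le n)⟩
  · obtain ⟨c, hc, hrel⟩ := exists_ball_lift hV (by omega) W (exists_bdry_lift W hs ht)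
    exact ⟨c, ContinuousMap.ext fun x => toHof_injective
        ((hc _ (norm_hemS x)).trans (DFunLike.congr_fun hs x)),
      ContinuousMap.ext fun x => toHof_injective
        ((hc _ (norm_hemT x)).trans (DFunLike.congr_fun ht x)), hrel hi⟩
  · obtain ⟨W, hs, ht⟩ := h
    obtain ⟨c, hc, -⟩ := exists_ball_lift hV (by omega) W (exists_bdry_lift W hs ht)
    exact ⟨c, ContinuousMap.ext fun x => toHof_injective
        ((hc _ (norm_hemS x)).trans (DFunLike.congr_fun hs x)),
      ContinuousMap.ext fun x => toHof_injective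
        ((hc _ (norm_hemT x)).trans (DFunLike.congr_fun ht x))⟩

end Vale.Agent.P259
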