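import Vale.Agent.P259.Alg

/-!
# The relation on cells of a groupoid over a contractible globular extension
-/

noncomputable section

namespace Vale.Agent.P259

/-! ### The relation on cells of a groupoid -/

/-- Two discs glued along their common face. -/
def pairTree : ℕ → Tree
  | 0 => Tree.cons Tree.nil (Tree.cons Tree.nil Tree.nil)
  | n + 1 => Tree.cons (pairTree n) Tree.nil

/-- The first disc of a pair. -/
def pairL : (n : ℕ) → (pairTree n).Cell (n + 1)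
  | 0 => Sum.inl ()
  | n + 1 => Sum.inl (pairL n)

/-- The second disc of a pair. -/
def pairR : (n : ℕ) → (pairTree n).Cell (n + 1)
  | 0 => Sum.inr (Sum.inl ())
  | n + 1 => Sum.inl (pairR n)

theorem tgt_pairL : ∀ n, (pairTree n).tgt n (pairL n) = (pairTree n).src n (pairR n)
  | 0 => rfl
  | n + 1 => congrArg Sum.inl (tgt_pairL n)

/-- The cells of a pair of composable cells. -/
def pairApp : (X : GlobSet) → (n : ℕ) → X.cell (n + 1) → X.cell (n + 1) →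
    (m : ℕ) → (pairTree n).Cell m → X.cell m
  | X, 0, c₁, _, 0, none => X.s 0 c₁
  | X, 0, _, c₂, 0, some none => X.s 0 c₂
  | X, 0, _, c₂, 0, some (some _) => X.t 0 c₂
  | _, 0, c₁, _, 1, Sum.inl _ => c₁
  | _, 0, _, c₂, 1, Sum.inr (Sum.inl _) => c₂
  | _, 0, _, _, 1, Sum.inr (Sum.inr c) => nomatch c
  | _, 0, _, _, _ + 2, Sum.inl c => nomatch c
  | _, 0, _, _, _ + 2, Sum.inr (Sum.inl c) => nomatch c
  | _, 0, _, _, _ + 2, Sum.inr (Sum.inr c) => nomatch c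
  | X, n + 1, c₁, c₂, 0, none => X.s 0 (pairApp X.shift n c₁ c₂ 0 (pairTree n).first)
  | X, n + 1, c₁, c₂, 0, some _ => X.t 0 (pairApp X.shift n c₁ c₂ 0 (pairTree n).first)
  | X, n + 1, c₁, c₂, m + 1, Sum.inl c => pairApp X.shift n c₁ c₂ m c
  | _, _ + 1, _, _, _ + 1, Sum.inr c => nomatch c

theorem pairApp_vertex : ∀ (X : GlobSet) (n : ℕ) (c₁ c₂ : X.shift.cell (n + 1)),
    X.shift.t n c₁ = X.shift.s n c₂ → ∀ v : (pairTree n).Cell 0,
    X.s 0 (pairApp X.shift n c₁ c₂ 0 v) =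
      X.s 0 (pairApp X.shift n c₁ c₂ 0 (pairTree n).first) ∧
    X.t 0 (pairApp X.shift n c₁ c₂ 0 v) =
      X.t 0 (pairApp X.shift n c₁ c₂ 0 (pairTree n).first)
  | _, 0, _, _, _, none => ⟨rfl, rfl⟩
  | X, 0, c₁, _, h, some none => by
    refine ⟨?_, ?_⟩
    · exact (congrArg (X.s 0) h.symm).trans (X.ss 0 c₁).symm
    · exact (congrArg (X.t 0) h.symm).trans (X.tt 0 c₁).symm
  | X, 0, c₁, c₂, h, some (some _) => by
    refine ⟨?_, ?_⟩
    · exact ((X.ss 0 c₂).symm.trans (congrArg (X.s 0) h.symm)).trans (X.ss 0 c₁).symm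
    · exact ((X.tt 0 c₂).symm.trans (congrArg (X.t 0) h.symm)).trans (X.tt 0 c₁).symm
  | _, _ + 1, _, _, _, none => ⟨rfl, rfl⟩
  | X, _ + 1, _, _, _, some _ => ⟨(X.ss 0 _).symm, (X.tt 0 _).symm⟩

theorem pairApp_comm : ∀ (X : GlobSet) (n : ℕ) (c₁ c₂ : X.cell (n + 1)),
    X.t n c₁ = X.s n c₂ → ∀ (m : ℕ) (c : (pairTree n).Cell (m + 1)),
    X.s m (pairApp X n c₁ c₂ (m + 1) c) = pairApp X n c₁ c₂ m ((pairTree n).src m c) ∧
    X.t m (pairApp X n c₁ c₂ (m + 1) c) = pairApp X n c₁ c₂ m ((pairTree n).tgt m c)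
  | _, 0, _, _, h, 0, Sum.inl _ => ⟨rfl, h⟩
  | _, 0, _, _, _, 0, Sum.inr (Sum.inl _) => ⟨rfl, rfl⟩
  | _, 0, _, _, _, 0, Sum.inr (Sum.inr c) => nomatch c
  | _, 0, _, _, _, _ + 1, Sum.inl c => nomatch c
  | _, 0, _, _, _, _ + 1, Sum.inr (Sum.inl c) => nomatch c
  | _, 0, _, _, _, _ + 1, Sum.inr (Sum.inr c) => nomatch c
  | X, n + 1, c₁, c₂, h, 0, Sum.inl c => pairApp_vertex X n c₁ c₂ h c
  | X, n + 1, c₁, c₂, h, m + 1, Sum.inl c => pairApp_comm X.shift n c₁ c₂ h m c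
  | _, _ + 1, _, _, _, _, Sum.inr c => nomatch c

theorem pairApp_pairL : ∀ (X : GlobSet) (n : ℕ) (c₁ c₂ : X.cell (n + 1)),
    pairApp X n c₁ c₂ (n + 1) (pairL n) = c₁
  | _, 0, _, _ => rfl
  | X, n + 1, c₁, c₂ => pairApp_pairL X.shift n c₁ c₂

theorem pairApp_pairR : ∀ (X : GlobSet) (n : ℕ) (c₁ c₂ : X.cell (n + 1)),
    pairApp X n c₁ c₂ (n + 1) (pairR n) = c₂
  | _, 0, _, _ => rfl
  | X, n + 1, c₁, c₂ => pairApp_pairR X.shift n c₁ c₂

namespace Gpd

variable {C : GlobExt}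

theorem rel_refl (hC : C.Contractible) (X : Gpd C) {n : ℕ} (a : X.cell n) : X.Rel n a a := by
  obtain ⟨h₁, h₂⟩ : C.IsLift _ _ (idLift hC n) := Classical.choose_spec (exists_idLift hC n)
  exact ⟨X.map (idLift hC n) a, by rw [← X.map_comp, h₁, X.map_id],
    by rw [← X.map_comp, h₂, X.map_id]⟩

theorem rel_symm (hC : C.Contractible) (X : Gpd C) {n : ℕ} {a b : X.cell n} (h : X.Rel n a b) :
    X.Rel n b a := by
  obtain ⟨c, rfl, rfl⟩ := h
  obtain ⟨k, h₁, h₂⟩ := hC (C.τ n) (C.σ n) (by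
    cases n with
    | zero => exact True.intro
    | succ m => exact ⟨(C.σσ m).symm, (C.ττ m).symm⟩)
  exact ⟨X.map k c, by rw [← X.map_comp, h₁], by rw [← X.map_comp, h₂]⟩

theorem rel_trans (hC : C.Contractible) (X : Gpd C) {n : ℕ} {a b d : X.cell n} (h : X.Rel n a b)
    (h' : X.Rel n b d) : X.Rel n a d := by
  obtain ⟨c₁, rfl, rfl⟩ := h
  obtain ⟨c₂, h₂, rfl⟩ := h'
  have hc : X.glob.t n c₁ = X.glob.s n c₂ := h₂.symm
  obtain ⟨z, hz, -⟩ := X.segal (S := pairTree n) (fun m c => pairApp X.glob n c₁ c₂ m c)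
    (fun m c => (pairApp_comm X.glob n c₁ c₂ hc m c).1)
    (fun m c => (pairApp_comm X.glob n c₁ c₂ hc m c).2)
  obtain ⟨k, hk₁, hk₂⟩ := hC (C.emb (Tree.cellGlob ((pairTree n).src n (pairL n))))
    (C.emb (Tree.cellGlob ((pairTree n).tgt n (pairR n)))) (by
      cases n with
      | zero => exact True.intro
      | succ m =>
        refine ⟨?_, ?_⟩
        · rw [GlobExt.σ, GlobExt.σ_cell, GlobExt.σ_cell, Tree.src_src, tgt_pairL, Tree.src_src]
        · rw [GlobExt.τ, GlobExt.τ_cell, GlobExt.τ_cell, Tree.tgt_tgt, tgt_pairL, Tree.tgt_tgt])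
  refine ⟨X.map k z, ?_, ?_⟩
  · rw [← X.map_comp, hk₁, hz]
    refine ((pairApp_comm X.glob n c₁ c₂ hc n (pairL n)).1).symm.trans ?_
    exact congrArg (X.map (C.σ n)) (pairApp_pairL X.glob n c₁ c₂)
  · rw [← X.map_comp, hk₂, hz]
    refine ((pairApp_comm X.glob n c₁ c₂ hc n (pairR n)).2).symm.trans ?_
    exact congrArg (X.map (C.τ n)) (pairApp_pairR X.glob n c₁ c₂)

/-- The relation on cells of a groupoid is an equivalence relation. -/
theorem groupoidal_glob (hC : C.Contractible) (X : Gpd C) : Groupoidal X.glob :=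
  ⟨fun a => X.rel_refl hC a, fun h => X.rel_symm hC h, fun h h' => X.rel_trans hC h h'⟩

end Gpd

end Vale.Agent.P259
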