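import Vale.Agent.P259.Cubes
import Vale.Agent.P259.GlobGroupoidal
import Vale.Agent.P259.HomSet

/-!
# Weak equivalences of spaces and of groupoids, detected on homotopy classes of cells
-/

noncomputable section

namespace Vale.Agent.P259

open scoped unitInterval Topology
open Topology.Homotopy Metric Set

section Spaces

variable {A B Y : Type} [TopologicalSpace A] [TopologicalSpace B] [TopologicalSpace Y] {n : ℕ}

/-- Fillers of a boundary in the target lift, up to a cell, to fillers in the source. -/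
def SurjFill (f : C(A, B)) (a b : C(Ball n, A)) : Prop :=
  ∀ w : C(Ball (n + 1), B), w.comp hemS = f.comp a → w.comp hemT = f.comp b →
    ∃ c : C(Ball (n + 1), A), c.comp hemS = a ∧ c.comp hemT = b ∧
      (discs B).Rel (n + 1) (f.comp c) w

/-- Fillers of a boundary with related images are related. -/
def InjFill (f : C(A, B)) (a b : C(Ball n, A)) : Prop :=
  ∀ c d : C(Ball (n + 1), A), c.comp hemS = a → c.comp hemT = b → d.comp hemS = a →
    d.comp hemT = b → (discs B).Rel (n + 1) (f.comp c) (f.comp d) → (discs A).Rel (n + 1) c d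

theorem surjFill_transfer {f : C(A, B)} (P Q : C(Ball n, C(I, A)))
    (h : (discs C(I, A)).Par P Q) (hf : SurjFill f ((evI 1).comp P) ((evI 1).comp Q)) :
    SurjFill f ((evI 0).comp P) ((evI 0).comp Q) := by
  intro w hs ht
  let G : C(Ball n, C(I, B)) := (mapI f).comp P
  let G' : C(Ball n, C(I, B)) := (mapI f).comp Q
  have hG : (discs C(I, B)).Par G G' := GlobSet.par_map (discsMap (mapI f)) h
  obtain ⟨M, hMs, hMt, hM0⟩ := exists_extend₀ G G' hG w (hs.trans rfl) (ht.trans rfl)
  obtain ⟨c, hcs, hct, hc⟩ := hf ((evI 1).comp M)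
    (congrArg (fun z => (evI 1).comp z) hMs) (congrArg (fun z => (evI 1).comp z) hMt)
  obtain ⟨N, hNs, hNt, hN1⟩ := exists_extend₁ P Q h c hcs hct
  refine ⟨(evI 0).comp N, congrArg (fun z => (evI 0).comp z) hNs,
    congrArg (fun z => (evI 0).comp z) hNt, ?_⟩
  have key : (discs C(I, B)).Rel (n + 1) ((mapI f).comp N) M := by
    refine (good_evI₁ (n + 1)).inj (n + 1) le_rfl _ _
      ⟨(congrArg (fun z => (mapI f).comp z) hNs).trans hMs.symm,
       (congrArg (fun z => (mapI f).comp z) hNt).trans hMt.symm⟩ ?_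
    show (discs B).Rel (n + 1) (f.comp ((evI 1).comp N)) ((evI 1).comp M)
    rw [hN1]
    exact hc
  have key' : (discs B).Rel (n + 1) (f.comp ((evI 0).comp N)) ((evI 0).comp M) :=
    key.map (discsMap (evI 0))
  rw [hM0] at key'
  exact key'

theorem injFill_transfer {f : C(A, B)} (P Q : C(Ball n, C(I, A)))
    (h : (discs C(I, A)).Par P Q) (hf : InjFill f ((evI 1).comp P) ((evI 1).comp Q)) :
    InjFill f ((evI 0).comp P) ((evI 0).comp Q) := by
  intro c d hcs hct hds hdt hr
  obtain ⟨M, hMs, hMt, hM0⟩ := exists_extend₀ P Q h c hcs hct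
  obtain ⟨N, hNs, hNt, hN0⟩ := exists_extend₀ P Q h d hds hdt
  have h1 : (discs C(I, B)).Rel (n + 1) ((mapI f).comp M) ((mapI f).comp N) := by
    refine (good_evI₀ (n + 1)).inj (n + 1) le_rfl _ _
      ⟨congrArg (fun z => (mapI f).comp z) (hMs.trans hNs.symm),
       congrArg (fun z => (mapI f).comp z) (hMt.trans hNt.symm)⟩ ?_
    show (discs B).Rel (n + 1) (f.comp ((evI 0).comp M)) (f.comp ((evI 0).comp N))
    rw [hM0, hN0]
    exact hr
  have h2 : (discs B).Rel (n + 1) (f.comp ((evI 1).comp M)) (f.comp ((evI 1).comp N)) :=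
    h1.map (discsMap (evI 1))
  have h3 := hf ((evI 1).comp M) ((evI 1).comp N)
    (congrArg (fun z => (evI 1).comp z) hMs) (congrArg (fun z => (evI 1).comp z) hMt)
    (congrArg (fun z => (evI 1).comp z) hNs) (congrArg (fun z => (evI 1).comp z) hNt) h2
  have h4 : (discs C(I, A)).Rel (n + 1) M N :=
    (good_evI₁ (n + 1)).inj (n + 1) le_rfl _ _ ⟨hMs.trans hNs.symm, hMt.trans hNt.symm⟩ h3
  have h5 : (discs A).Rel (n + 1) ((evI 0).comp M) ((evI 0).comp N) := h4.map (discsMap (evI 0))
  rwa [hM0, hN0] at h5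

/-- A constant disc. -/
def cst (n : ℕ) (x : Y) : C(Ball n, Y) := ContinuousMap.const _ x

/-- The contraction of a disc to its centre. -/
def contractDisc (c : C(Ball n, Y)) : C(Ball n, C(I, Y)) :=
  (c.comp ⟨fun q : Ball n × I => ⟨(1 - (q.2 : ℝ)) • q.1.1,
    smul_mem_ball (by linarith [q.2.2.2]) (by linarith [q.2.2.1]) q.1⟩, by fun_prop⟩).curry

theorem contractDisc_zero (c : C(Ball n, Y)) : (evI 0).comp (contractDisc c) = c := by
  ext x
  exact congrArg c (Subtype.ext (by simp))

theorem contractDisc_one (c : C(Ball n, Y)) :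
    (evI 1).comp (contractDisc c) = cst n (c ⟨0, by simp⟩) := by
  ext x
  exact congrArg c (Subtype.ext (by simp))

/-- Bijectivity on components and on classes of discs with constant boundary. -/
structure Based (f : C(A, B)) : Prop where
  surj0 : SurjZero (discsMap f)
  inj0 : InjAt (discsMap f) 0
  surj : ∀ (n : ℕ) (x : A), SurjFill f (cst n x) (cst n x)
  inj : ∀ (n : ℕ) (x : A), InjFill f (cst n x) (cst n x)

theorem Based.injFill {f : C(A, B)} (hf : Based f) (c : C(Ball (n + 1), A)) :
    InjFill f (c.comp hemS) (c.comp hemT) := by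
  have h := injFill_transfer (f := f) ((contractDisc c).comp hemS) ((contractDisc c).comp hemT)
    (GlobSet.Rel.par (X := discs C(I, A)) ⟨contractDisc c, rfl, rfl⟩) (by
      rw [← ContinuousMap.comp_assoc, ← ContinuousMap.comp_assoc, contractDisc_one]
      exact hf.inj n _)
  rwa [← ContinuousMap.comp_assoc, ← ContinuousMap.comp_assoc, contractDisc_zero] at h

theorem Based.surjFill {f : C(A, B)} (hf : Based f) (c : C(Ball (n + 1), A)) :
    SurjFill f (c.comp hemS) (c.comp hemT) := by
  have h := surjFill_transfer (f := f) ((contractDisc c).comp hemS) ((contractDisc c).comp hemT)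
    (GlobSet.Rel.par (X := discs C(I, A)) ⟨contractDisc c, rfl, rfl⟩) (by
      rw [← ContinuousMap.comp_assoc, ← ContinuousMap.comp_assoc, contractDisc_one]
      exact hf.surj n _)
  rwa [← ContinuousMap.comp_assoc, ← ContinuousMap.comp_assoc, contractDisc_zero] at h

theorem Based.injAt {f : C(A, B)} (hf : Based f) : ∀ n, InjAt (discsMap f) n
  | 0 => hf.inj0
  | n + 1 => fun u v huv hr => by
    obtain ⟨h₁, h₂⟩ := huv
    exact hf.injFill u u v rfl rfl h₁.symm h₂.symm hr

theorem Based.surjAt {f : C(A, B)} (hf : Based f) (n : ℕ) : SurjAt (discsMap f) n := by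
  intro u v huv w hs ht
  obtain ⟨c₀, h₁, h₂⟩ := hf.injAt n u v huv ⟨w, hs, ht⟩
  let c₀' : C(Ball (n + 1), A) := c₀
  have e₁ : c₀'.comp hemS = u := h₁
  have e₂ : c₀'.comp hemT = v := h₂
  have h := hf.surjFill c₀'
  rw [e₁, e₂] at h
  exact h w hs ht

theorem based_of_good {f : C(A, B)} (h : ∀ n, Good n (discsMap f)) : Based f where
  surj0 := (h 0).surj0
  inj0 := (h 0).inj 0 le_rfl
  surj n x w hs ht := (h (n + 1)).surj n (Nat.lt_succ_self n) (cst n x) (cst n x)
    (GlobSet.par_refl (discs A) _) w hs ht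
  inj n x c d hcs hct hds hdt hr := (h (n + 1)).inj (n + 1) le_rfl c d
    ⟨hcs.trans hds.symm, hct.trans hdt.symm⟩ hr

theorem good_iff_based (f : C(A, B)) : (∀ n, Good n (discsMap f)) ↔ Based f :=
  ⟨based_of_good, fun h n => ⟨h.surj0, fun i _ => h.surjAt i, fun i _ => h.injAt i⟩⟩

theorem rel_zero_iff (a b : C(Ball 0, Y)) :
    (discs Y).Rel 0 a b ↔ Joined (a (south 0)) (b (south 0)) := by
  have e : ∀ x : Ball 0, x = south 0 := fun x => Subtype.ext (Subsingleton.elim _ _)
  constructor
  · intro h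
    obtain ⟨G, h₀, h₁, -⟩ := exists_homotopy_of_rel h
    exact ⟨{ toFun := fun t => G (south 0, t), source' := h₀ _, target' := h₁ _ }⟩
  · rintro ⟨p⟩
    refine rel_of_homotopy ⟨fun q => p q.2, by fun_prop⟩ (fun x => ?_) (fun x => ?_) fun x hx => ?_
    · show p 0 = a x
      rw [p.source, e x]
    · show p 1 = b x
      rw [p.target, e x]
    · rw [Subsingleton.elim x.1 0, norm_zero] at hx
      exact absurd hx (by norm_num)

theorem bdry_cst_iff {c : C(Ball (n + 1), Y)} {x : Y} :
    (c.comp hemS = cst n x ∧ c.comp hemT = cst n x) ↔ ∀ z : Ball (n + 1), ‖z.1‖ = 1 → c z = x := by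
  constructor
  · rintro ⟨h₁, h₂⟩ z hz
    exact discs_par_eq (a := c) (b := cst (n + 1) x) ⟨h₁.trans rfl, h₂.trans rfl⟩ hz
  · intro h
    obtain ⟨h₁, h₂⟩ := discs_bdry_eq (a := c) (b := cst (n + 1) x) h
    exact ⟨h₁.trans rfl, h₂.trans rfl⟩

variable {m : ℕ}

/-- A disc with constant boundary as a generalized loop. -/
def loopOfDisc (c : C(Ball m, Y)) (y : Y) (h : ∀ z : Ball m, ‖z.1‖ = 1 → c z = y) :
    Ω^ (Fin m) Y y :=
  ⟨c.comp ⟨(cubeHomeo m).symm, (cubeHomeo m).symm.continuous⟩, fun q hq => h _ (by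
    rw [cubeHomeo_boundary]
    show cubeHomeo m ((cubeHomeo m).symm q) ∈ _
    rw [Homeomorph.apply_symm_apply]
    exact hq)⟩

/-- A generalized loop as a disc. -/
def discOfLoop {y : Y} (p : Ω^ (Fin m) Y y) : C(Ball m, Y) :=
  p.1.comp ⟨cubeHomeo m, (cubeHomeo m).continuous⟩

theorem discOfLoop_bdry {y : Y} (p : Ω^ (Fin m) Y y) (z : Ball m) (hz : ‖z.1‖ = 1) :
    discOfLoop p z = y :=
  p.2 _ ((cubeHomeo_boundary z).1 hz)

theorem loopOfDisc_discOfLoop {y : Y} (p : Ω^ (Fin m) Y y) :
    loopOfDisc (discOfLoop p) y (discOfLoop_bdry p) = p :=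
  GenLoop.ext _ _ fun q => congrArg p.1 ((cubeHomeo m).apply_symm_apply q)

theorem discOfLoop_loopOfDisc (c : C(Ball m, Y)) (y : Y)
    (h : ∀ z : Ball m, ‖z.1‖ = 1 → c z = y) : discOfLoop (loopOfDisc c y h) = c :=
  ContinuousMap.ext fun z => congrArg c ((cubeHomeo m).symm_apply_apply z)

theorem homotopic_iff_rel {y : Y} (p q : Ω^ (Fin m) Y y) :
    GenLoop.Homotopic p q ↔ (discs Y).Rel m (discOfLoop p) (discOfLoop q) := by
  constructor
  · rintro ⟨H⟩
    refine rel_of_homotopy ⟨fun z => H (z.2, cubeHomeo m z.1), by fun_prop⟩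
      (fun x => H.apply_zero _) (fun x => H.apply_one _) fun x hx t => ?_
    exact H.eq_fst t ((cubeHomeo_boundary x).1 hx)
  · intro h
    obtain ⟨G, h₀, h₁, hb⟩ := exists_homotopy_of_rel h
    refine ⟨{ toFun := fun z => G ((cubeHomeo m).symm z.2, z.1)
              continuous_toFun := by fun_prop
              map_zero_left := fun z => ?_
              map_one_left := fun z => ?_
              prop' := fun t z hz => ?_ }⟩
    · exact (h₀ _).trans (congrArg p.1 ((cubeHomeo m).apply_symm_apply z))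
    · exact (h₁ _).trans (congrArg q.1 ((cubeHomeo m).apply_symm_apply z))
    · exact (hb _ (by rw [cubeHomeo_boundary, Homeomorph.apply_symm_apply]; exact hz) t).trans
        (congrArg p.1 ((cubeHomeo m).apply_symm_apply z))

theorem based_iff (f : C(A, B)) : IsWeakHomotopyEquiv f ↔ Based f := by
  constructor
  · rintro ⟨⟨hinj, hsurj⟩, hπ⟩
    refine ⟨fun v => ?_, fun u v _ hr => ?_, fun n x w hs ht => ?_,
      fun n x c d hcs hct hds hdt hr => ?_⟩
    · let v' : C(Ball 0, B) := v
      obtain ⟨q, hq⟩ := hsurj (Quotient.mk _ (v' (south 0)))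
      induction q using Quotient.inductionOn with
      | h a => exact ⟨ptDisc a, (rel_zero_iff _ _).2 (Quotient.exact hq)⟩
    · let u' : C(Ball 0, A) := u
      let v' : C(Ball 0, A) := v
      exact (rel_zero_iff _ _).2 (Quotient.exact (hinj
        (show componentsMap f (Quotient.mk _ (u' (south 0))) =
          componentsMap f (Quotient.mk _ (v' (south 0))) from
          Quotient.sound ((rel_zero_iff _ _).1 hr))))
    · have hw := (bdry_cst_iff (c := w) (x := f x)).1 ⟨hs.trans rfl, ht.trans rfl⟩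
      obtain ⟨q, hq⟩ := (hπ n x).2 (Quotient.mk _ (loopOfDisc w (f x) hw))
      induction q using Quotient.inductionOn with
      | h p =>
        obtain ⟨h₁, h₂⟩ := bdry_cst_iff.2 (discOfLoop_bdry p)
        refine ⟨discOfLoop p, h₁, h₂, ?_⟩
        have h := (homotopic_iff_rel _ _).1 (Quotient.exact hq)
        rw [discOfLoop_loopOfDisc] at h
        exact h
    · have hc := bdry_cst_iff.1 ⟨hcs, hct⟩
      have hd := bdry_cst_iff.1 ⟨hds, hdt⟩
      have key : homotopyGroupMap f (n + 1) x (Quotient.mk _ (loopOfDisc c x hc)) =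
          homotopyGroupMap f (n + 1) x (Quotient.mk _ (loopOfDisc d x hd)) := by
        refine Quotient.sound ((homotopic_iff_rel _ _).2 ?_)
        show (discs B).Rel (n + 1) (f.comp (discOfLoop (loopOfDisc c x hc)))
          (f.comp (discOfLoop (loopOfDisc d x hd)))
        rw [discOfLoop_loopOfDisc, discOfLoop_loopOfDisc]
        exact hr
      have h := (homotopic_iff_rel _ _).1 (Quotient.exact ((hπ n x).1 key))
      rwa [discOfLoop_loopOfDisc, discOfLoop_loopOfDisc] at h
  · intro hf
    refine ⟨⟨fun q₁ q₂ h => ?_, fun q => ?_⟩, fun n x => ⟨fun q₁ q₂ h => ?_, fun q => ?_⟩⟩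
    · induction q₁, q₂ using Quotient.inductionOn₂ with
      | h a b =>
        exact Quotient.sound ((rel_zero_iff (ptDisc a) (ptDisc b)).1
          (hf.inj0 (ptDisc a) (ptDisc b) True.intro ((rel_zero_iff _ _).2 (Quotient.exact h))))
    · induction q using Quotient.inductionOn with
      | h b =>
        obtain ⟨u, hu⟩ := hf.surj0 (ptDisc b)
        let u' : C(Ball 0, A) := u
        exact ⟨Quotient.mk _ (u' (south 0)), Quotient.sound ((rel_zero_iff _ _).1 hu)⟩
    · induction q₁, q₂ using Quotient.inductionOn₂ with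
      | h p q =>
        refine Quotient.sound ((homotopic_iff_rel _ _).2 ?_)
        obtain ⟨h₁, h₂⟩ := bdry_cst_iff.2 (discOfLoop_bdry p)
        obtain ⟨h₃, h₄⟩ := bdry_cst_iff.2 (discOfLoop_bdry q)
        exact hf.inj n x _ _ h₁ h₂ h₃ h₄ ((homotopic_iff_rel (genLoopMap f p) (genLoopMap f q)).1
          (Quotient.exact h))
    · induction q using Quotient.inductionOn with
      | h p =>
        obtain ⟨h₁, h₂⟩ := bdry_cst_iff.2 (discOfLoop_bdry p)
        obtain ⟨c, hcs, hct, hc⟩ := hf.surj n x (discOfLoop p) (h₁.trans rfl) (h₂.trans rfl)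
        have hcb := bdry_cst_iff.1 ⟨hcs, hct⟩
        refine ⟨Quotient.mk _ (loopOfDisc c x hcb), Quotient.sound ((homotopic_iff_rel _ _).2 ?_)⟩
        show (discs B).Rel (n + 1) (f.comp (discOfLoop (loopOfDisc c x hcb))) (discOfLoop p)
        rw [discOfLoop_loopOfDisc]
        exact hc

/-- Weak homotopy equivalences are the maps that are good in every dimension. -/
theorem isWeakHomotopyEquiv_iff (f : C(A, B)) :
    IsWeakHomotopyEquiv f ↔ ∀ n, Good n (discsMap f) :=
  (based_iff f).trans (good_iff_based f).symm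

end Spaces

/-! ### Weak equivalences of groupoids -/

namespace Gpd

variable {C : GlobExt}

theorem π0_exact (hC : C.Contractible) {X : Gpd C} {a b : X.cell 0}
    (h : Quot.mk (X.Rel 0) a = Quot.mk (X.Rel 0) b) : X.Rel 0 a b := by
  have h' := Quot.eqvGen_exact h
  clear h
  induction h' with
  | rel _ _ h => exact h
  | refl a => exact X.rel_refl hC a
  | symm a b _ ih => exact X.rel_symm hC ih
  | trans a b c _ _ ih₁ ih₂ => exact X.rel_trans hC ih₁ ih₂

theorem π_exact (hC : C.Contractible) {X : Gpd C} {x : X.cell 0} {n : ℕ} {a b : X.Loop hC x n}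
    (h : Quot.mk (fun a b : X.Loop hC x n => X.Rel (n + 1) a.1 b.1) a = Quot.mk _ b) :
    X.Rel (n + 1) a.1 b.1 := by
  have h' := Quot.eqvGen_exact h
  clear h
  induction h' with
  | rel _ _ h => exact h
  | refl a => exact X.rel_refl hC a.1
  | symm a b _ ih => exact X.rel_symm hC ih
  | trans a b c _ _ ih₁ ih₂ => exact X.rel_trans hC ih₁ ih₂

variable {hC : C.Contractible} {X Y : Gpd C}

theorem isWeakEquiv_of_good (f : X ⟶ Y) (h : ∀ n, Good n (Gpd.globMap f)) :
    Gpd.IsWeakEquiv hC f := by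
  refine ⟨⟨fun q₁ q₂ => ?_, fun q => ?_⟩, fun x n => ⟨fun q₁ q₂ => ?_, fun q => ?_⟩⟩
  · induction q₁ using Quot.ind with
    | _ a =>
      induction q₂ using Quot.ind with
      | _ b =>
        exact fun e => Quot.sound ((h 0).inj 0 le_rfl a b True.intro (π0_exact hC e))
  · induction q using Quot.ind with
    | _ b =>
      obtain ⟨u, hu⟩ := (h 0).surj0 b
      exact ⟨Quot.mk _ u, Quot.sound hu⟩
  · induction q₁ using Quot.ind with
    | _ a =>
      induction q₂ using Quot.ind with
      | _ b =>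
        exact fun e => Quot.sound ((h (n + 1)).inj (n + 1) le_rfl a.1 b.1
          ⟨a.2.1.trans b.2.1.symm, a.2.2.trans b.2.2.symm⟩ (π_exact hC e))
  · induction q using Quot.ind with
    | _ b =>
      obtain ⟨c, hs, ht, hc⟩ := (h (n + 1)).surj n (Nat.lt_succ_self n) (X.one hC x n)
        (X.one hC x n) (GlobSet.par_refl X.glob _) b.1
        (b.2.1.trans (one_natural hC f x n).symm) (b.2.2.trans (one_natural hC f x n).symm)
      exact ⟨Quot.mk _ ⟨c, hs, ht⟩, Quot.sound hc⟩

section Compare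

variable {A B : Type} [TopologicalSpace A] [TopologicalSpace B]

/-- The image of iterated identity cells contracts to the image of the point, rel boundary. -/
theorem exists_oneHomotopy {θ : GlobMap X.glob (discs A)} (hid : IdCompat hC θ) (x : X.cell 0) :
    ∀ n, ∃ P : C(Ball n, C(I, A)), (evI 0).comp P = θ.app n (X.one hC x n) ∧
      (evI 1).comp P = cst n ((θ.app 0 x : C(Ball 0, A)) (south 0))
  | 0 => ⟨(ContinuousMap.const' : C(A, C(I, A))).comp (θ.app 0 x), rfl,
      (ptDisc_eq (θ.app 0 x : C(Ball 0, A))).symm⟩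
  | n + 1 => by
    obtain ⟨P, h₀, h₁⟩ := exists_oneHomotopy hid x n
    have hr : (discs A).Rel (n + 1) ((evI 0).comp (P.comp proj))
        (θ.app (n + 1) (X.one hC x (n + 1))) := by
      rw [← ContinuousMap.comp_assoc, h₀]
      exact Groupoidal.symm (hid n (X.one hC x n))
    obtain ⟨P', -, h₀', h₁'⟩ := exists_swap₀ (P.comp proj) _ hr
    refine ⟨P', h₀', ?_⟩
    rw [h₁', ← ContinuousMap.comp_assoc, h₁]
    rfl

/-- A morphism of groupoids and a map of spaces compared by good maps are weak equivalences at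
the same time. -/
theorem isWeakEquiv_iff (f : X ⟶ Y) (θ : GlobMap X.glob (discs A))
    (η : GlobMap Y.glob (discs B)) (g : C(A, B))
    (sq : θ.comp (discsMap g) = (Gpd.globMap f).comp η) (hθ : ∀ n, Good n θ)
    (hη : ∀ n, Good n η) (iθ : Gpd.IdCompat hC θ) (_iη : Gpd.IdCompat hC η) :
    Gpd.IsWeakEquiv hC f ↔ IsWeakHomotopyEquiv g := by
  constructor
  · rintro ⟨⟨inj0, surj0⟩, hπ⟩
    rw [based_iff]
    have esq : ∀ n (c : X.cell n),
        g.comp (θ.app n c : C(Ball n, A)) = η.app n (f.app _ c) := fun n c =>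
      congrArg (fun φ : GlobMap X.glob (discs B) => φ.app n c) sq
    have hone : ∀ (x : X.cell 0) n,
        g.comp (θ.app n (X.one hC x n) : C(Ball n, A)) = η.app n (Y.one hC (f.app _ x) n) :=
      fun x n => (esq n _).trans (congrArg (η.app n) (one_natural hC f x n))
    have hsurj : ∀ (x : X.cell 0) n,
        SurjFill g (θ.app n (X.one hC x n)) (θ.app n (X.one hC x n)) := by
      intro x n w hs ht
      obtain ⟨c, hcs, hct, hc⟩ := (hη (n + 1)).surj n (Nat.lt_succ_self n)
        (Y.one hC (f.app _ x) n) (Y.one hC (f.app _ x) n) (GlobSet.par_refl Y.glob _) w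
        (hs.trans (hone x n)) (ht.trans (hone x n))
      obtain ⟨q, hq⟩ := (hπ x n).2 (Quot.mk _ ⟨c, hcs, hct⟩)
      induction q using Quot.ind with
      | _ l =>
        refine ⟨θ.app (n + 1) l.1, (θ.comm_s n l.1).trans (congrArg (θ.app n) l.2.1),
          (θ.comm_t n l.1).trans (congrArg (θ.app n) l.2.2), ?_⟩
        rw [esq]
        exact Groupoidal.trans (GlobSet.Rel.map η (π_exact hC hq)) hc
    have hinj : ∀ (x : X.cell 0) n,
        InjFill g (θ.app n (X.one hC x n)) (θ.app n (X.one hC x n)) := by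
      intro x n u v hus hut hvs hvt hr
      obtain ⟨cu, hcus, hcut, hcu⟩ := (hθ (n + 1)).surj n (Nat.lt_succ_self n)
        (X.one hC x n) (X.one hC x n) (GlobSet.par_refl X.glob _) u hus hut
      obtain ⟨cv, hcvs, hcvt, hcv⟩ := (hθ (n + 1)).surj n (Nat.lt_succ_self n)
        (X.one hC x n) (X.one hC x n) (GlobSet.par_refl X.glob _) v hvs hvt
      have h1 : (discs B).Rel (n + 1) (η.app (n + 1) (f.app _ cu)) (η.app (n + 1) (f.app _ cv)) := by
        have h0 : (discs B).Rel (n + 1) (g.comp (θ.app (n + 1) cu : C(Ball (n + 1), A)))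
            (g.comp (θ.app (n + 1) cv : C(Ball (n + 1), A))) :=
          Groupoidal.trans (hcu.map (discsMap g))
            (Groupoidal.trans hr (Groupoidal.symm (hcv.map (discsMap g))))
        exact (esq _ cu) ▸ (esq _ cv) ▸ h0
      have h2 : Y.Rel (n + 1) (f.app _ cu) (f.app _ cv) :=
        (hη (n + 1)).inj (n + 1) le_rfl _ _ (GlobSet.par_map (globMap f)
          (show X.glob.Par cu cv from ⟨hcus.trans hcvs.symm, hcut.trans hcvt.symm⟩)) h1
      have h3 : X.Rel (n + 1) cu cv :=
        π_exact hC (a := ⟨cu, hcus, hcut⟩) (b := ⟨cv, hcvs, hcvt⟩)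
          ((hπ x n).1 (Quot.sound h2))
      exact Groupoidal.trans (Groupoidal.symm hcu)
        (Groupoidal.trans (GlobSet.Rel.map θ h3) hcv)
    have hpoint : ∀ (a : A) (n : ℕ), ∃ (x : X.cell 0) (P K : C(Ball n, C(I, A))),
        (evI 1).comp P = θ.app n (X.one hC x n) ∧ (evI 0).comp P = (evI 1).comp K ∧
          (evI 0).comp K = cst n a := by
      intro a n
      obtain ⟨x, hx⟩ := (hθ 0).surj0 (ptDisc a)
      obtain ⟨γ⟩ := ((rel_zero_iff _ _).1 hx).symm
      obtain ⟨P, h₀, h₁⟩ := exists_oneHomotopy iθ x n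
      refine ⟨x, revI.comp P, cst n γ.toContinuousMap, ?_, ?_, ?_⟩
      · rw [← h₀]
        ext z
        simp [evI, revI]
      · rw [show (evI 0).comp (revI.comp P) = (evI 1).comp P from
          ContinuousMap.ext fun z => by simp [evI, revI], h₁]
        ext z
        exact γ.target.symm
      · ext z
        exact γ.source
    refine ⟨fun v => ?_, fun u v _ hr => ?_, fun n a => ?_, fun n a => ?_⟩
    · obtain ⟨y, hy⟩ := (hη 0).surj0 v
      obtain ⟨q, hq⟩ := surj0 (Quot.mk _ y)
      induction q using Quot.ind with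
      | _ x =>
        refine ⟨θ.app 0 x, ?_⟩
        show (discs B).Rel 0 (g.comp (θ.app 0 x : C(Ball 0, A))) v
        rw [esq]
        exact Groupoidal.trans (GlobSet.Rel.map η (π0_exact hC hq)) hy
    · obtain ⟨x, hx⟩ := (hθ 0).surj0 u
      obtain ⟨x', hx'⟩ := (hθ 0).surj0 v
      have h1 : (discs B).Rel 0 (η.app 0 (f.app _ x)) (η.app 0 (f.app _ x')) := by
        have h0 : (discs B).Rel 0 (g.comp (θ.app 0 x : C(Ball 0, A)))
            (g.comp (θ.app 0 x' : C(Ball 0, A))) :=
          Groupoidal.trans (hx.map (discsMap g))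
            (Groupoidal.trans hr (Groupoidal.symm (hx'.map (discsMap g))))
        exact (esq _ x) ▸ (esq _ x') ▸ h0
      have h2 : Y.Rel 0 (f.app _ x) (f.app _ x') := (hη 0).inj 0 le_rfl _ _ True.intro h1
      have h3 : X.Rel 0 x x' := π0_exact hC (inj0 (Quot.sound h2))
      exact Groupoidal.trans (Groupoidal.symm hx)
        (Groupoidal.trans (GlobSet.Rel.map θ h3) hx')
    · obtain ⟨x, P, K, hP₁, hP₀, hK⟩ := hpoint a n
      rw [← hK]
      refine surjFill_transfer K K (GlobSet.par_refl (discs C(I, A)) K) ?_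
      rw [← hP₀]
      refine surjFill_transfer P P (GlobSet.par_refl (discs C(I, A)) P) ?_
      rw [hP₁]
      exact hsurj x n
    · obtain ⟨x, P, K, hP₁, hP₀, hK⟩ := hpoint a n
      rw [← hK]
      refine injFill_transfer K K (GlobSet.par_refl (discs C(I, A)) K) ?_
      rw [← hP₀]
      refine injFill_transfer P P (GlobSet.par_refl (discs C(I, A)) P) ?_
      rw [hP₁]
      exact hinj x n
  · intro hg
    have hg' := (isWeakHomotopyEquiv_iff g).1 hg
    refine isWeakEquiv_of_good f fun n => ?_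
    have h : Good n (θ.comp (discsMap g)) := (hθ n).comp (hg' n)
    rw [sq] at h
    exact h.of_comp (hη n)

end Compare

end Gpd

/-! ### The fundamental groupoid of a disc functor -/

/-- A map of globular sets that is bijective on cells is good. -/
theorem good_of_bijective {U V : GlobSet} [Groupoidal V] (θ : GlobMap U V)
    (h : ∀ n, Function.Bijective (θ.app n)) (n : ℕ) : Good n θ := by
  refine ⟨fun v => ?_, fun i _ u v _ w hs ht => ?_, fun i _ u v _ hr => ?_⟩
  · obtain ⟨u, rfl⟩ := (h 0).2 v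
    exact ⟨u, Groupoidal.refl _⟩
  · obtain ⟨c, rfl⟩ := (h (i + 1)).2 w
    exact ⟨c, (h i).1 ((θ.comm_s i c).symm.trans hs), (h i).1 ((θ.comm_t i c).symm.trans ht),
      Groupoidal.refl _⟩
  · obtain ⟨w, hs, ht⟩ := hr
    obtain ⟨c, rfl⟩ := (h (i + 1)).2 w
    exact ⟨c, (h i).1 ((θ.comm_s i c).symm.trans hs), (h i).1 ((θ.comm_t i c).symm.trans ht)⟩

namespace DiscFunctor

variable {C : GlobExt} (D : DiscFunctor C)

theorem symm_hemS (n : ℕ) (z : Ball n) :
    (D.map (C.σ n)).hom.hom ((D.disc n).symm z) = (D.disc (n + 1)).symm (hemS z) := by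
  apply (D.disc (n + 1)).injective
  rw [Homeomorph.apply_symm_apply]
  apply Subtype.ext
  refine (D.disc_σ n _).trans ?_
  show hemisphere (-1) (D.disc n ((D.disc n).symm z)).1 = _
  rw [Homeomorph.apply_symm_apply, hemS_val]
  simp [hemisphere, Eu.snoc, width]

theorem symm_hemT (n : ℕ) (z : Ball n) :
    (D.map (C.τ n)).hom.hom ((D.disc n).symm z) = (D.disc (n + 1)).symm (hemT z) := by
  apply (D.disc (n + 1)).injective
  rw [Homeomorph.apply_symm_apply]
  apply Subtype.ext
  refine (D.disc_τ n _).trans ?_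
  show hemisphere 1 (D.disc n ((D.disc n).symm z)).1 = _
  rw [Homeomorph.apply_symm_apply, hemT_val]
  simp [hemisphere, Eu.snoc, width]

/-- Cells of the fundamental groupoid as discs. -/
def toDiscs (Y : CGTop) : GlobMap (D.PiInfty.obj Y).glob (discs Y.toTop) where
  app n x := (show D.space (Tree.disc n) ⟶ Y from x).hom.hom.comp
    ⟨(D.disc n).symm, (D.disc n).symm.continuous⟩
  comm_s n x := ContinuousMap.ext fun z =>
    congrArg (show D.space (Tree.disc (n + 1)) ⟶ Y from x).hom.hom (D.symm_hemS n z).symm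
  comm_t n x := ContinuousMap.ext fun z =>
    congrArg (show D.space (Tree.disc (n + 1)) ⟶ Y from x).hom.hom (D.symm_hemT n z).symm

theorem toDiscs_natural {X Y : CGTop} (f : X ⟶ Y) :
    (D.toDiscs X).comp (discsMap f.hom.hom) =
      (Gpd.globMap (D.PiInfty.map f)).comp (D.toDiscs Y) :=
  rfl

theorem toDiscs_bijective (Y : CGTop) (n : ℕ) : Function.Bijective ((D.toDiscs Y).app n) := by
  constructor
  · intro x y h
    change D.space (Tree.disc n) ⟶ Y at x y
    refine CategoryTheory.ConcreteCategory.hom_ext _ _ fun p => ?_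
    have := DFunLike.congr_fun h (D.disc n p)
    simp only [toDiscs, ContinuousMap.comp_apply, ContinuousMap.coe_mk,
      Homeomorph.symm_apply_apply] at this
    exact this
  · intro w
    let w' : C(Ball n, Y.toTop) := w
    refine ⟨CategoryTheory.ConcreteCategory.ofHom (w'.comp ⟨D.disc n, (D.disc n).continuous⟩), ?_⟩
    ext z
    exact congrArg w' ((D.disc n).apply_symm_apply z)

theorem good_toDiscs (Y : CGTop) (n : ℕ) : Good n (D.toDiscs Y) :=
  good_of_bijective _ (D.toDiscs_bijective Y) n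

theorem idCompat_toDiscs (hC : C.Contractible) (Y : CGTop) :
    Gpd.IdCompat hC (D.toDiscs Y) := by
  intro n a
  obtain ⟨hs, ht⟩ : C.IsLift _ _ (Gpd.idLift hC n) :=
    Classical.choose_spec (Gpd.exists_idLift hC n)
  let q : C(Ball (n + 1), Ball n) :=
    ⟨fun z => D.disc n ((D.map (Gpd.idLift hC n)).hom.hom ((D.disc (n + 1)).symm z)), by fun_prop⟩
  have hqS : ∀ x, q (hemS x) = x := fun x => by
    have h := congrArg (fun φ : D.space (Tree.disc n) ⟶ D.space (Tree.disc n) =>
      D.disc n (φ.hom.hom ((D.disc n).symm x)))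
      ((D.map_comp _ _).symm.trans ((congrArg D.map hs).trans (D.map_id _)))
    show D.disc n ((D.map (Gpd.idLift hC n)).hom.hom ((D.disc (n + 1)).symm (hemS x))) = x
    rw [← D.symm_hemS]
    exact h.trans ((D.disc n).apply_symm_apply x)
  have hqT : ∀ x, q (hemT x) = x := fun x => by
    have h := congrArg (fun φ : D.space (Tree.disc n) ⟶ D.space (Tree.disc n) =>
      D.disc n (φ.hom.hom ((D.disc n).symm x)))
      ((D.map_comp _ _).symm.trans ((congrArg D.map ht).trans (D.map_id _)))
    show D.disc n ((D.map (Gpd.idLift hC n)).hom.hom ((D.disc (n + 1)).symm (hemT x))) = x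
    rw [← D.symm_hemT]
    exact h.trans ((D.disc n).apply_symm_apply x)
  have hq : ∀ z : Ball (n + 1), ‖z.1‖ = 1 → q z = proj z := fun z hz => by
    rcases le_total (Eu.last z.1) 0 with hl | hl
    · conv_lhs => rw [(eq_hem_of_norm_eq_one hz).1 hl]
      exact hqS _
    · conv_lhs => rw [(eq_hem_of_norm_eq_one hz).2 hl]
      exact hqT _
  let w : C(Ball n, Y.toTop) := (D.toDiscs Y).app n a
  have hw : (D.toDiscs Y).app (n + 1) ((D.PiInfty.obj Y).map (Gpd.idLift hC n) a) = w.comp q :=
    ContinuousMap.ext fun z =>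
      congrArg (show D.space (Tree.disc n) ⟶ Y from a).hom.hom
        ((D.disc n).symm_apply_apply _).symm
  rw [hw]
  let seg : C(Ball (n + 1) × I, Ball n) :=
    ⟨fun p => ⟨(1 - (p.2 : ℝ)) • (q p.1).1 + (p.2 : ℝ) • (proj p.1).1,
      convex_closedBall (0 : Eu n) 1 (q p.1).2 (proj p.1).2 (by linarith [p.2.2.2]) p.2.2.1
        (by ring)⟩, by fun_prop⟩
  refine rel_of_homotopy (w.comp seg) (fun z => ?_) (fun z => ?_) fun z hz t => ?_
  · exact congrArg w (Subtype.ext (by simp [seg]))
  · exact congrArg w (Subtype.ext (by simp [seg]))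
  · refine congrArg w (Subtype.ext ?_)
    show (1 - (t : ℝ)) • (q z).1 + (t : ℝ) • (proj z).1 = (q z).1
    rw [hq z hz, ← add_smul, sub_add_cancel, one_smul]

theorem preserves_weakEquiv (K : Coherator) (D : DiscFunctor K.colim) {X Y : CGTop}
    (f : X ⟶ Y) (hf : weakHomotopyEquivs f) :
    Gpd.weakEquivs K.contractible (D.PiInfty.map f) :=
  (Gpd.isWeakEquiv_iff (D.PiInfty.map f) (D.toDiscs X) (D.toDiscs Y) f.hom.hom
    (D.toDiscs_natural f) (D.good_toDiscs X) (D.good_toDiscs Y)
    (D.idCompat_toDiscs K.contractible X) (D.idCompat_toDiscs K.contractible Y)).2 hf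

end DiscFunctor

end Vale.Agent.P259
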