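import Vale.Agent.P259.Alg

/-!
# Natural families of cells, built on universal cells
-/

noncomputable section

namespace Vale.Agent.P259

open CategoryTheory
open scoped unitInterval

universe w v

variable {P : Type w} [Category.{v} P]

/-- Universal cells for a functor to globular sets. -/
structure Reps (U : P ⥤ GlobSet) where
  obj : ℕ → P
  cell : ∀ n, (U.obj (obj n)).cell n
  universal : ∀ {p : P} {n : ℕ} (c : (U.obj p).cell n),
    ∃! f : obj n ⟶ p, (U.map f).app n (cell n) = c

namespace Reps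

variable {U : P ⥤ GlobSet} (R : Reps U)

/-- The classifying map of a cell. -/
def classify {p : P} {n : ℕ} (c : (U.obj p).cell n) : R.obj n ⟶ p :=
  Classical.choose (R.universal c).exists

theorem map_classify {p : P} {n : ℕ} (c : (U.obj p).cell n) :
    (U.map (R.classify c)).app n (R.cell n) = c :=
  Classical.choose_spec (R.universal c).exists

theorem classify_map {p q : P} (g : p ⟶ q) {n : ℕ} (c : (U.obj p).cell n) :
    R.classify ((U.map g).app n c) = R.classify c ≫ g :=
  (R.universal _).unique (R.map_classify _) (by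
    rw [U.map_comp]
    exact congrArg ((U.map g).app n) (R.map_classify c))

end Reps

variable {U V : P ⥤ GlobSet}

/-- A stage of the construction of a section. -/
structure SectionStage (π : V ⟶ U) (n : ℕ) where
  val : ∀ p : P, (U.obj p).cell n → (V.obj p).cell n
  natural : ∀ {p q : P} (g : p ⟶ q) (c : (U.obj p).cell n),
    (V.map g).app n (val p c) = val q ((U.map g).app n c)
  over : ∀ p c, (π.app p).app n (val p c) = c
  par : ∀ p (a b : (U.obj p).cell n), (U.obj p).Par a b → (V.obj p).Par (val p a) (val p b)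

/-- A natural transformation over `U` that can be filled on universal cells has a section. -/
theorem exists_section (π : V ⟶ U) (R : Reps U)
    (v0 : (V.obj (R.obj 0)).cell 0) (hv0 : (π.app (R.obj 0)).app 0 v0 = R.cell 0)
    (hsucc : ∀ n (a b : (V.obj (R.obj (n + 1))).cell n), (V.obj (R.obj (n + 1))).Par a b →
      (π.app (R.obj (n + 1))).app n a = (U.obj (R.obj (n + 1))).s n (R.cell (n + 1)) →
      (π.app (R.obj (n + 1))).app n b = (U.obj (R.obj (n + 1))).t n (R.cell (n + 1)) →
      ∃ c, (V.obj (R.obj (n + 1))).s n c = a ∧ (V.obj (R.obj (n + 1))).t n c = b ∧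
        (π.app (R.obj (n + 1))).app (n + 1) c = R.cell (n + 1)) :
    ∃ sct : U ⟶ V, sct ≫ π = 𝟙 U ∧ (sct.app (R.obj 0)).app 0 (R.cell 0) = v0 := by
  let base : SectionStage π 0 :=
    { val := fun p c => (V.map (R.classify c)).app 0 v0
      natural := fun {p q} g c => by
        rw [R.classify_map, V.map_comp]
        rfl
      over := fun p c => by
        have h := congrArg (fun φ : GlobMap (V.obj (R.obj 0)) (U.obj p) => φ.app 0 v0)
          (π.naturality (R.classify c))
        refine (h : _ = _).trans ?_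
        show (U.map (R.classify c)).app 0 ((π.app (R.obj 0)).app 0 v0) = c
        rw [hv0, R.map_classify]
      par := fun _ _ _ _ => True.intro }
  have hstep : ∀ (n : ℕ) (S : SectionStage π n), ∃ T : SectionStage π (n + 1),
      (∀ p c, (V.obj p).s n (T.val p c) = S.val p ((U.obj p).s n c)) ∧
      ∀ p c, (V.obj p).t n (T.val p c) = S.val p ((U.obj p).t n c) := by
    intro n S
    obtain ⟨c₀, hcs, hct, hc⟩ := hsucc n _ _
      (S.par _ _ _ (GlobSet.Rel.par ⟨R.cell (n + 1), rfl, rfl⟩)) (S.over _ _) (S.over _ _)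
    have es : ∀ p c, (V.obj p).s n ((V.map (R.classify c)).app (n + 1) c₀) =
        S.val p ((U.obj p).s n c) := fun p c => by
      rw [(V.map (R.classify c)).comm_s, hcs, S.natural, ← (U.map (R.classify c)).comm_s,
        R.map_classify]
    have et : ∀ p c, (V.obj p).t n ((V.map (R.classify c)).app (n + 1) c₀) =
        S.val p ((U.obj p).t n c) := fun p c => by
      rw [(V.map (R.classify c)).comm_t, hct, S.natural, ← (U.map (R.classify c)).comm_t,
        R.map_classify]
    refine ⟨{
      val := fun p c => (V.map (R.classify c)).app (n + 1) c₀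
      natural := fun {p q} g c => by
        rw [R.classify_map, V.map_comp]
        rfl
      over := fun p c => by
        have h := congrArg (fun φ : GlobMap (V.obj (R.obj (n + 1))) (U.obj p) =>
          φ.app (n + 1) c₀) (π.naturality (R.classify c))
        refine (h : _ = _).trans ?_
        show (U.map (R.classify c)).app (n + 1) ((π.app (R.obj (n + 1))).app (n + 1) c₀) = c
        rw [hc, R.map_classify]
      par := fun p a b hab => ⟨by rw [es, es, hab.1], by rw [et, et, hab.2]⟩ }, es, et⟩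
  choose next hs ht using hstep
  let st : ∀ n, SectionStage π n := fun n => Nat.rec base (fun n S => next n S) n
  refine ⟨{
    app := fun p =>
      { app := fun n => (st n).val p
        comm_s := fun n c => hs n (st n) p c
        comm_t := fun n c => ht n (st n) p c }
    naturality := fun p q g => GlobMap.ext' fun n c => ((st n).natural g c).symm }, ?_⟩
  refine ⟨?_, ?_⟩
  · ext p : 2
    exact GlobMap.ext' fun n c => (st n).over p c
  · show (V.map (R.classify (R.cell 0))).app 0 v0 = v0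
    rw [(R.universal (R.cell 0)).unique (R.map_classify _)
      (show (U.map (𝟙 (R.obj 0))).app 0 (R.cell 0) = R.cell 0 by rw [U.map_id]; rfl), V.map_id]
    rfl

/-- The globular sets of discs. -/
def discsF : TopCat.{0} ⥤ GlobSet where
  obj Y := discs Y
  map f := discsMap f.hom

/-- The globular set of cells of `U` with a disc. -/
@[reducible] def GlobSet.prod (X Y : GlobSet) : GlobSet where
  cell n := X.cell n × Y.cell n
  s n z := (X.s n z.1, Y.s n z.2)
  t n z := (X.t n z.1, Y.t n z.2)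
  ss n z := Prod.ext (X.ss n z.1) (Y.ss n z.2)
  tt n z := Prod.ext (X.tt n z.1) (Y.tt n z.2)

theorem GlobSet.par_snd {X Y : GlobSet} :
    ∀ {n : ℕ} {a b : (X.prod Y).cell n}, (X.prod Y).Par a b → Y.Par a.2 b.2
  | 0, _, _, _ => True.intro
  | _ + 1, _, _, h => ⟨congrArg Prod.snd h.1, congrArg Prod.snd h.2⟩

/-- The product of two maps. -/
def GlobMap.prodMap {X X' Y Y' : GlobSet} (f : GlobMap X X') (g : GlobMap Y Y') :
    GlobMap (X.prod Y) (X'.prod Y') :=
  ⟨fun n z => (f.app n z.1, g.app n z.2), fun n z => Prod.ext (f.comm_s n z.1) (g.comm_s n z.2),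
    fun n z => Prod.ext (f.comm_t n z.1) (g.comm_t n z.2)⟩

/-- The projection of a product. -/
def GlobMap.fstMap (X Y : GlobSet) : GlobMap (X.prod Y) X :=
  ⟨fun _ z => z.1, fun _ _ => rfl, fun _ _ => rfl⟩

/-- The projection of a product. -/
def GlobMap.sndMap (X Y : GlobSet) : GlobMap (X.prod Y) Y :=
  ⟨fun _ z => z.2, fun _ _ => rfl, fun _ _ => rfl⟩

/-- Natural families of discs exist in spaces that are trivial on universal cells. -/
theorem exists_natural (R : Reps U) (G : P ⥤ TopCat.{0})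
    (hG : ∀ n m, TrivialUpTo m (G.obj (R.obj n))) (y₀ : G.obj (R.obj 0)) :
    ∃ θ : U ⟶ G ⋙ discsF, (θ.app (R.obj 0)).app 0 (R.cell 0) = ptDisc y₀ := by
  let V : P ⥤ GlobSet :=
    { obj := fun p => (U.obj p).prod (discs (G.obj p))
      map := fun g => GlobMap.prodMap (U.map g) (discsMap (G.map g).hom)
      map_id := fun p => GlobMap.ext' fun n z => by
        rw [U.map_id, G.map_id]
        rfl
      map_comp := fun g h => GlobMap.ext' fun n z => by
        rw [U.map_comp, G.map_comp]
        rfl }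
  let π : V ⟶ U :=
    { app := fun p => GlobMap.fstMap (U.obj p) (discs (G.obj p))
      naturality := fun _ _ _ => rfl }
  let pr : V ⟶ G ⋙ discsF :=
    { app := fun p => GlobMap.sndMap (U.obj p) (discs (G.obj p))
      naturality := fun _ _ _ => rfl }
  obtain ⟨sct, -, h0⟩ := exists_section π R (R.cell 0, ptDisc y₀) rfl
    fun n a b hab ha hb => by
      obtain ⟨c, h1, h2⟩ := (hG (n + 1) n).rel n le_rfl _ _ (GlobSet.par_snd hab)
      exact ⟨(R.cell (n + 1), c), Prod.ext ha.symm h1, Prod.ext hb.symm h2, rfl⟩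
  exact ⟨sct ≫ pr, congrArg Prod.snd h0⟩

/-- The paths in the values of a functor to spaces. -/
def pathsF : TopCat.{0} ⥤ TopCat.{0} where
  obj Y := TopCat.of C(I, Y)
  map f := TopCat.ofHom (mapI f.hom)

section Ends

variable {G : P ⥤ TopCat.{0}} (θ₀ θ₁ : U ⟶ G ⋙ discsF)

/-- Cells with a path between their two images. -/
@[reducible] def endsObj (p : P) : GlobSet where
  cell n := {z : (U.obj p).cell n × C(Ball n, C(I, G.obj p)) //
    (evI 0).comp z.2 = (θ₀.app p).app n z.1 ∧ (evI 1).comp z.2 = (θ₁.app p).app n z.1}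
  s n z := ⟨((U.obj p).s n z.1.1, z.1.2.comp hemS),
    (congrArg (fun w => ContinuousMap.comp w hemS) z.2.1).trans ((θ₀.app p).comm_s n z.1.1),
    (congrArg (fun w => ContinuousMap.comp w hemS) z.2.2).trans ((θ₁.app p).comm_s n z.1.1)⟩
  t n z := ⟨((U.obj p).t n z.1.1, z.1.2.comp hemT),
    (congrArg (fun w => ContinuousMap.comp w hemT) z.2.1).trans ((θ₀.app p).comm_t n z.1.1),
    (congrArg (fun w => ContinuousMap.comp w hemT) z.2.2).trans ((θ₁.app p).comm_t n z.1.1)⟩
  ss n z := Subtype.ext (Prod.ext ((U.obj p).ss n z.1.1) ((discs C(I, G.obj p)).ss n z.1.2))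
  tt n z := Subtype.ext (Prod.ext ((U.obj p).tt n z.1.1) ((discs C(I, G.obj p)).tt n z.1.2))

/-- Functoriality of `endsObj`. -/
def endsMap {p q : P} (g : p ⟶ q) : GlobMap (endsObj θ₀ θ₁ p) (endsObj θ₀ θ₁ q) where
  app n z := ⟨((U.map g).app n z.1.1, (mapI (G.map g).hom).comp z.1.2),
    (congrArg (fun w => (G.map g).hom.comp w) z.2.1).trans
      (congrArg (fun φ : GlobMap (U.obj p) (discs (G.obj q)) => φ.app n z.1.1)
        (θ₀.naturality g)).symm,
    (congrArg (fun w => (G.map g).hom.comp w) z.2.2).trans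
      (congrArg (fun φ : GlobMap (U.obj p) (discs (G.obj q)) => φ.app n z.1.1)
        (θ₁.naturality g)).symm⟩
  comm_s n z := Subtype.ext (Prod.ext ((U.map g).comm_s n z.1.1) rfl)
  comm_t n z := Subtype.ext (Prod.ext ((U.map g).comm_t n z.1.1) rfl)

/-- The functor `endsObj`. -/
@[reducible] def endsF : P ⥤ GlobSet where
  obj := endsObj θ₀ θ₁
  map := endsMap θ₀ θ₁
  map_id p := GlobMap.ext' fun n z => Subtype.ext (Prod.ext
    (congrArg (fun φ : GlobMap (U.obj p) (U.obj p) => φ.app n z.1.1) (U.map_id p))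
    (by
      show (mapI (G.map (𝟙 p)).hom).comp z.1.2 = z.1.2
      rw [G.map_id]
      rfl))
  map_comp {p q r} g h := GlobMap.ext' fun n z => Subtype.ext (Prod.ext
    (congrArg (fun φ : GlobMap (U.obj p) (U.obj r) => φ.app n z.1.1) (U.map_comp g h))
    (by
      show (mapI (G.map (g ≫ h)).hom).comp z.1.2 = _
      rw [G.map_comp]
      rfl))

/-- The cell under a cell with a path. -/
def endsFst (p : P) : GlobMap (endsObj θ₀ θ₁ p) (U.obj p) :=
  ⟨fun _ z => z.1.1, fun _ _ => rfl, fun _ _ => rfl⟩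

/-- The path of a cell with a path. -/
def endsSnd (p : P) : GlobMap (endsObj θ₀ θ₁ p) (discs C(I, G.obj p)) :=
  ⟨fun _ z => z.1.2, fun _ _ => rfl, fun _ _ => rfl⟩

end Ends

/-- Replace the final end of a cell of paths by a homotopic one. -/
theorem exists_swap₁ {Y : Type} [TopologicalSpace Y] {n : ℕ} (A : C(Ball n, C(I, Y)))
    (w : C(Ball n, Y)) (R : (discs Y).Rel n ((evI 1).comp A) w) :
    ∃ A' : C(Ball n, C(I, Y)), (∀ x : Ball n, ‖x.1‖ = 1 → A' x = A x) ∧
      (evI 0).comp A' = (evI 0).comp A ∧ (evI 1).comp A' = w := by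
  have e0 : ∀ p : C(I, Y), revI p 0 = p 1 := fun p => by simp [revI]
  have e1 : ∀ p : C(I, Y), revI p 1 = p 0 := fun p => by simp [revI]
  have h : (evI 0).comp (revI.comp A) = (evI 1).comp A := ContinuousMap.ext fun x => e0 (A x)
  obtain ⟨B, hb, hB0, hB1⟩ := exists_swap₀ (revI.comp A) w (by rw [h]; exact R)
  refine ⟨revI.comp B, fun x hx => ?_, ContinuousMap.ext fun x => ?_, ContinuousMap.ext fun x => ?_⟩
  · show revI (B x) = A x
    rw [hb x hx]
    exact revI_revI (A x)
  · exact ((e0 (B x)).trans (DFunLike.congr_fun hB1 x)).trans (e1 (A x))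
  · exact (e1 (B x)).trans (DFunLike.congr_fun hB0 x)

/-- Two natural families are linked by a natural family of paths of discs. -/
theorem exists_natural_homotopy (R : Reps U) (G : P ⥤ TopCat.{0})
    (hG : ∀ n m, TrivialUpTo m (G.obj (R.obj n))) (θ₀ θ₁ : U ⟶ G ⋙ discsF) :
    ∃ Θ : U ⟶ G ⋙ pathsF ⋙ discsF, ∀ p,
      GlobMap.comp (Θ.app p) (discsMap (evI 0)) = θ₀.app p ∧
      GlobMap.comp (Θ.app p) (discsMap (evI 1)) = θ₁.app p := by
  let π : endsF θ₀ θ₁ ⟶ U :=
    { app := fun p => endsFst θ₀ θ₁ p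
      naturality := fun _ _ _ => rfl }
  let pr : endsF θ₀ θ₁ ⟶ G ⋙ pathsF ⋙ discsF :=
    { app := fun p => endsSnd θ₀ θ₁ p
      naturality := fun _ _ _ => rfl }
  obtain ⟨a0, ha0⟩ : ∃ v, (π.app (R.obj 0)).app 0 v = R.cell 0 := by
    obtain ⟨w, hs, ht⟩ := (hG 0 0).rel 0 le_rfl ((θ₀.app _).app 0 (R.cell 0))
      ((θ₁.app _).app 0 (R.cell 0)) True.intro
    let a : C(Ball 0, G.obj (R.obj 0)) := (θ₀.app _).app 0 (R.cell 0)
    obtain ⟨A, -, hA0, hA1⟩ := exists_swap₁ ((ContinuousMap.const' : C(_, C(I, _))).comp a)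
      ((θ₁.app _).app 0 (R.cell 0)) ⟨w, hs, ht⟩
    exact ⟨⟨(R.cell 0, A), hA0, hA1⟩, rfl⟩
  obtain ⟨sct, hσ, -⟩ := exists_section π R a0 ha0
    (by
      rintro n ⟨⟨u, A⟩, hA0, hA1⟩ ⟨⟨u', B⟩, hB0, hB1⟩ hab ha hb
      obtain rfl : u = (U.obj (R.obj (n + 1))).s n (R.cell (n + 1)) := ha
      obtain rfl : u' = (U.obj (R.obj (n + 1))).t n (R.cell (n + 1)) := hb
      have hAB : (discs C(I, G.obj (R.obj (n + 1)))).Par A B :=
        GlobSet.par_map (pr.app (R.obj (n + 1))) hab
      obtain ⟨M, hMs, hMt, hM0⟩ := exists_extend₀ A B hAB ((θ₀.app _).app (n + 1) (R.cell (n + 1)))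
        (((θ₀.app _).comm_s n (R.cell (n + 1))).trans hA0.symm)
        (((θ₀.app _).comm_t n (R.cell (n + 1))).trans hB0.symm)
      have hrel := (hG (n + 1) (n + 1)).rel (n + 1) le_rfl ((evI 1).comp M)
        ((θ₁.app _).app (n + 1) (R.cell (n + 1)))
        ⟨((congrArg (fun w => (evI 1).comp w) hMs).trans hA1).trans
            ((θ₁.app _).comm_s n (R.cell (n + 1))).symm,
          ((congrArg (fun w => (evI 1).comp w) hMt).trans hB1).trans
            ((θ₁.app _).comm_t n (R.cell (n + 1))).symm⟩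
      obtain ⟨M', hMb, hM'0, hM'1⟩ := exists_swap₁ M _ hrel
      exact ⟨⟨(R.cell (n + 1), M'), hM'0.trans hM0, hM'1⟩,
        Subtype.ext (Prod.ext rfl ((discs_bdry_eq hMb).1.trans hMs)),
        Subtype.ext (Prod.ext rfl ((discs_bdry_eq hMb).2.trans hMt)), rfl⟩)
  refine ⟨sct ≫ pr, fun p => ⟨GlobMap.ext' fun n c => ?_, GlobMap.ext' fun n c => ?_⟩⟩
  · have h := ((sct.app p).app n c).2.1
    rwa [show ((sct.app p).app n c).1.1 = c from congrArg (fun φ : U ⟶ U => (φ.app p).app n c) hσ] at h
  · have h := ((sct.app p).app n c).2.2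
    rwa [show ((sct.app p).app n c).1.1 = c from congrArg (fun φ : U ⟶ U => (φ.app p).app n c) hσ] at h

/-- Two natural families are simultaneously good. -/
theorem good_iff_of_natural (R : Reps U) (G : P ⥤ TopCat.{0})
    (hG : ∀ n m, TrivialUpTo m (G.obj (R.obj n))) (θ₀ θ₁ : U ⟶ G ⋙ discsF) (p : P) (n : ℕ) :
    Good n (θ₀.app p : GlobMap (U.obj p) (discs (G.obj p))) ↔
      Good n (θ₁.app p : GlobMap (U.obj p) (discs (G.obj p))) := by
  obtain ⟨Θ, hΘ⟩ := exists_natural_homotopy R G hG θ₀ θ₁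
  have h := good_transfer (n := n) (Y := G.obj p) (Θ.app p)
  exact ((iff_of_eq (congrArg (Good n) (hΘ p).1)).symm.trans h).trans
    (iff_of_eq (congrArg (Good n) (hΘ p).2))

namespace Gpd

variable (C : GlobExt)

/-- The universal cells of groupoids. -/
def reps : Reps (globF C) where
  obj n := rep C (Tree.disc n)
  cell n := C.id (Tree.disc n)
  universal {X n} c := ⟨yoneda c, yoneda_id c, fun f hf => rep_hom_ext (hf.trans (yoneda_id c).symm)⟩

end Gpd

end Vale.Agent.P259
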