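import Vale.Agent.P259.Real
import Vale.Agent.P259.Natural
import Vale.Agent.P259.Homotopy

/-!
# The counit: from the realization of the elements of the fundamental groupoid to the space

A weight on a chain of strings of elements is sent, by iterated cones in the contractible disc
spaces, to a point of the space of the last tree, and then to the space by the last element.
-/

noncomputable section

namespace Vale.Agent.P259

open CategoryTheory Topology Set
open scoped unitInterval

/-! ### The last arrow between comparable strings -/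

namespace Str

variable {A B : Type} [Category.{0} A] [Category.{0} B]

/-- The arrow between the last objects of comparable strings. -/
def lastHom {p q : Str A} (h : p ≤ q) : p.last ⟶ q.last :=
  eqToHom (obj_eq_of_le h p.hi) ≫ q.hom (q.le_hi ⟨p.hi.1, le_subset h p.hi.2⟩)

theorem lastHom_refl (p : Str A) : lastHom (le_refl p) = 𝟙 p.last := by
  rw [lastHom, eqToHom_refl, Category.id_comp]
  exact p.hom_id p.hi _

theorem lastHom_trans {p q r : Str A} (h : p ≤ q) (h' : q ≤ r) :
    lastHom (h.trans h') = lastHom h ≫ lastHom h' := by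
  simp only [lastHom]
  rw [hom_eq_of_le h' (q.le_hi ⟨p.hi.1, le_subset h p.hi.2⟩)]
  simp only [Category.assoc, eqToHom_trans_assoc, eqToHom_refl, Category.id_comp]
  rw [← r.hom_comp]

theorem map_lastHom (F : A ⥤ B) {p q : Str A} (h : p ≤ q) :
    F.map (lastHom h) = lastHom (map_mono F h) := by
  simp only [lastHom, Functor.map_comp, eqToHom_map]
  rfl

end Str

/-! ### Iterated cones -/

/-- A functor on a poset to spaces with chosen contractions. -/
structure ConeData (P : Type) [PartialOrder P] (G : P → Type) [∀ p, TopologicalSpace (G p)] where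
  g : ∀ {p q : P}, p ≤ q → C(G p, G q)
  g_id : ∀ (p : P) (y : G p), g (le_refl p) y = y
  g_comp : ∀ {p q r : P} (h : p ≤ q) (h' : q ≤ r) (y : G p), g (h.trans h') y = g h' (g h y)
  H : ∀ p, C(I × G p, G p)
  pt : ∀ p, G p
  H_zero : ∀ p y, H p (0, y) = y
  H_one : ∀ p y, H p (1, y) = pt p

namespace ConeData

variable {P : Type} [PartialOrder P] {G : P → Type} [∀ p, TopologicalSpace (G p)]
  (d : ConeData P G)

/-- The support below a point. -/
def below (m : P →₀ ℝ) (q : P) : Finset P :=
  haveI := Classical.decPred (· < q)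
  m.support.filter (· < q)

omit [∀ p, TopologicalSpace (G p)] in
theorem mem_below {m : P →₀ ℝ} {q a : P} : a ∈ below m q ↔ a ∈ m.support ∧ a < q := by
  classical
  simp [below]

/-- The weight up to a point. -/
def upto (m : P →₀ ℝ) (q : P) : ℝ :=
  haveI := Classical.decPred (· ≤ q)
  (m.filter (· ≤ q)).sum fun _ r => r

/-- The cone parameter. -/
def lam (m : P →₀ ℝ) (q : P) : I := projIcc 0 1 zero_le_one (2 * m q / upto m q)

/-- The iterated cone on the points carrying weights. -/
def val (m : P →₀ ℝ) (q : P) : G q :=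
  if h : (below m q).Nonempty then
    d.H q (lam m q,
      d.g (mem_below.1 (Classical.choose_spec ((below m q).exists_maximal h)).1).2.le
        (val m (Classical.choose ((below m q).exists_maximal h))))
  else d.pt q
termination_by (below m q).card
decreasing_by
  have hp := mem_below.1 (Classical.choose_spec ((below m q).exists_maximal h)).1
  refine Finset.card_lt_card ⟨fun a ha => ?_, fun hsub => ?_⟩
  · exact mem_below.2 ⟨(mem_below.1 ha).1, (mem_below.1 ha).2.trans hp.2⟩
  · exact lt_irrefl _ (mem_below.1 (hsub (Classical.choose_spec ((below m q).exists_maximal h)).1)).2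

theorem val_step {m : P →₀ ℝ} {p q : P} (hp : p ∈ below m q) (hmax : ∀ a ∈ below m q, a ≤ p) :
    d.val m q = d.H q (lam m q, d.g (mem_below.1 hp).2.le (d.val m p)) := by
  have h : (below m q).Nonempty := ⟨p, hp⟩
  have hs := Classical.choose_spec ((below m q).exists_maximal h)
  have key : ∀ (p' : P) (h' : p' ≤ q), p' = p →
      d.H q (lam m q, d.g h' (d.val m p')) =
        d.H q (lam m q, d.g (mem_below.1 hp).2.le (d.val m p)) := by
    intro p' h' e
    subst e
    rfl
  rw [val, dif_pos h]
  exact key _ _ (le_antisymm (hmax _ hs.1) (hs.2 hp (hmax _ hs.1)))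

theorem val_eq_pt {m : P →₀ ℝ} {q : P} (h : lam m q = 1) : d.val m q = d.pt q := by
  rw [val]
  split_ifs with hne
  · rw [h, d.H_one]
  · rfl

omit [∀ p, TopologicalSpace (G p)] in
theorem lam_zero {m : P →₀ ℝ} {q : P} (h : m q = 0) : lam m q = 0 := by
  rw [lam, h, mul_zero, zero_div, projIcc_left]
  rfl

/-- Pushing forward from the greatest point of the support. -/
theorem val_top {m : P →₀ ℝ} {p q : P} (hp : p ∈ m.support) (hmax : ∀ a ∈ m.support, a ≤ p)
    (hpq : p ≤ q) : d.val m q = d.g hpq (d.val m p) := by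
  rcases eq_or_lt_of_le hpq with e | hlt
  · subst e
    rw [d.g_id]
  · have hq : m q = 0 := Finsupp.notMem_support_iff.1 fun hq => (hmax q hq).not_gt hlt
    rw [d.val_step (mem_below.2 ⟨hp, hlt⟩) (fun a ha => hmax a (mem_below.1 ha).1),
      lam_zero hq, d.H_zero]

/-- The step over any point of a chain in between. -/
theorem val_between {m : P →₀ ℝ} {r q : P} (hrq : r < q) (hr : ∀ a ∈ below m q, a ≤ r)
    (hne : (below m q).Nonempty) (hch : IsChain (· ≤ ·) (m.support : Set P)) :
    d.val m q = d.H q (lam m q, d.g hrq.le (d.val m r)) := by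
  obtain ⟨p, hp, hpmax⟩ : ∃ p ∈ below m q, ∀ a ∈ below m q, a ≤ p := by
    obtain ⟨p, hp⟩ := (below m q).exists_maximal hne
    exact ⟨p, hp.1, fun a ha => (hch.total (Finset.mem_coe.2 (mem_below.1 ha).1)
      (Finset.mem_coe.2 (mem_below.1 hp.1).1)).elim id fun h => hp.2 ha h⟩
  rw [d.val_step hp hpmax]
  refine congrArg (fun y => d.H q (lam m q, y)) ?_
  have hpr := hr p hp
  refine (d.g_comp hpr hrq.le _).trans (congrArg _ ?_)
  rcases eq_or_lt_of_le hpr with e | hlt
  · subst e
    rw [d.g_id]
  · have hr0 : m r = 0 := Finsupp.notMem_support_iff.1 fun h =>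
      (hpmax r (mem_below.2 ⟨h, hrq⟩)).not_gt hlt
    rw [d.val_step (mem_below.2 ⟨(mem_below.1 hp).1, hlt⟩)
      (fun a ha => hpmax a (mem_below.2 ⟨(mem_below.1 ha).1, (mem_below.1 ha).2.trans hrq⟩)),
      lam_zero hr0, d.H_zero]

omit [∀ p, TopologicalSpace (G p)] in
theorem upto_incl (s : Chain P) (q : P) [DecidablePred (· ≤ q)] (x : stdSimplex ℝ s.1) :
    upto (rzIncl s x).1 q = ∑ a ∈ s.1 with a ≤ q, (rzIncl s x).1 a := by
  classical
  rw [upto, Finsupp.sum_of_support_subset _ (s := s.1) _ (fun _ r => r) fun _ _ => rfl,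
    Finset.sum_filter]
  · refine Finset.sum_congr rfl fun a _ => ?_
    rw [Finsupp.filter_apply]
    congr
  · intro a ha
    refine weights_support_subset s.1 x (Finsupp.mem_support_iff.2 fun h0 => ?_)
    rw [Finsupp.mem_support_iff, Finsupp.filter_apply, rzIncl_val, h0, ite_self] at ha
    exact ha rfl

omit [∀ p, TopologicalSpace (G p)] in
theorem continuous_coord (s : Chain P) (q : P) :
    Continuous fun x : stdSimplex ℝ s.1 => (rzIncl s x).1 q := by
  by_cases hq : q ∈ s.1
  · simp only [rzIncl_apply_mem s _ ⟨q, hq⟩]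
    exact (continuous_apply (⟨q, hq⟩ : s.1)).comp continuous_subtype_val
  · simp only [rzIncl_apply_notMem s _ hq]
    exact continuous_const

omit [∀ p, TopologicalSpace (G p)] in
theorem continuous_upto (s : Chain P) (q : P) :
    Continuous fun x : stdSimplex ℝ s.1 => upto (rzIncl s x).1 q := by
  classical
  simp only [upto_incl]
  exact continuous_finsetSum _ fun a _ => continuous_coord s a

/-- The iterated cone is continuous on each simplex, where the weight is positive. -/
theorem continuousOn_val (s : Chain P) : ∀ (k : ℕ) (q : P), q ∈ s.1 →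
    (∀ F : Finset P, (∀ a ∈ F, a ∈ s.1 ∧ a < q) → F.card < k) →
    ContinuousOn (fun x : stdSimplex ℝ s.1 => d.val (rzIncl s x).1 q)
      {x | 0 < upto (rzIncl s x).1 q} := by
  classical
  intro k
  induction k with
  | zero => intro q _ h; exact absurd (h ∅ (by simp)) (Nat.not_lt_zero _)
  | succ k ih =>
    intro q hq hk x hx
    refine ContinuousAt.continuousWithinAt ?_
    have hx' : 0 < upto (rzIncl s x).1 q := hx
    by_cases hbig : upto (rzIncl s x).1 q < 2 * (rzIncl s x).1 q
    · have hev : ∀ᶠ z in 𝓝 x, 0 < upto (rzIncl s z).1 q ∧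
          upto (rzIncl s z).1 q < 2 * (rzIncl s z).1 q :=
        (((continuous_upto s q).tendsto x).eventually (eventually_gt_nhds hx')).and
          ((isOpen_lt (continuous_upto s q)
            (continuous_const.mul (continuous_coord s q))).eventually_mem hbig)
      refine (continuousAt_const (y := d.pt q)).congr ?_
      filter_upwards [hev] with z hz
      refine (d.val_eq_pt ?_).symm
      rw [lam, projIcc_of_right_le]
      · rfl
      · rw [le_div_iff₀ hz.1]; linarith [hz.2]
    · set F := s.1.filter (· < q) with hF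
      have hsplit : ∀ z : stdSimplex ℝ s.1, upto (rzIncl s z).1 q =
          (rzIncl s z).1 q + ∑ a ∈ F, (rzIncl s z).1 a := by
        intro z
        rw [upto_incl, ← Finset.sum_insert (by simp [F])]
        refine Finset.sum_congr (Finset.ext fun a => ?_) fun _ _ => rfl
        simp only [F, Finset.mem_filter, Finset.mem_insert]
        constructor
        · rintro ⟨ha, haq⟩
          exact (eq_or_lt_of_le haq).imp id fun h => ⟨ha, h⟩
        · rintro (rfl | ⟨ha, haq⟩)
          · exact ⟨hq, le_rfl⟩
          · exact ⟨ha, haq.le⟩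
      have hpos : 0 < ∑ a ∈ F, (rzIncl s x).1 a := by
        have := hsplit x
        linarith [not_lt.1 hbig]
      have hFne : F.Nonempty := Finset.nonempty_of_sum_ne_zero hpos.ne'
      obtain ⟨r, hr⟩ := F.exists_maximal hFne
      obtain ⟨hrs, hrq⟩ : r ∈ s.1 ∧ r < q := Finset.mem_filter.1 hr.1
      have hrtop : ∀ a ∈ s.1, a < q → a ≤ r := fun a ha haq =>
        (s.2.2.total (Finset.mem_coe.2 ha) (Finset.mem_coe.2 hrs)).elim id
          fun h => hr.2 (Finset.mem_filter.2 ⟨ha, haq⟩) h
      have hFr : ∀ z : stdSimplex ℝ s.1,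
          upto (rzIncl s z).1 r = ∑ a ∈ F, (rzIncl s z).1 a := by
        intro z
        rw [upto_incl]
        refine Finset.sum_congr (Finset.filter_congr fun a ha => ?_) fun _ _ => rfl
        exact ⟨fun h => lt_of_le_of_lt h hrq, hrtop a ha⟩
      have hcard : ∀ F' : Finset P, (∀ a ∈ F', a ∈ s.1 ∧ a < r) → F'.card < k := by
        intro F' hF'
        refine lt_of_lt_of_le (Finset.card_lt_card ⟨fun a ha => ?_, fun hsub => ?_⟩)
          (Nat.lt_succ_iff.1 (hk F fun a ha => Finset.mem_filter.1 ha))
        · exact Finset.mem_filter.2 ⟨(hF' a ha).1, (hF' a ha).2.trans hrq⟩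
        · exact lt_irrefl r (hF' r (hsub hr.1)).2
      have hr0 : 0 < upto (rzIncl s x).1 r := (hFr x).symm ▸ hpos
      have hev : ∀ᶠ z in 𝓝 x, 0 < upto (rzIncl s z).1 r :=
        ((continuous_upto s r).tendsto x).eventually (eventually_gt_nhds hr0)
      have hIH : ContinuousAt (fun z : stdSimplex ℝ s.1 => d.val (rzIncl s z).1 r) x :=
        (ih r hrs hcard).continuousAt hev
      have hlam : ContinuousAt (fun z : stdSimplex ℝ s.1 => lam (rzIncl s z).1 q) x :=
        continuous_projIcc.continuousAt.comp
          ((continuous_const.mul (continuous_coord s q)).continuousAt.div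
            (continuous_upto s q).continuousAt hx'.ne')
      refine ((d.H q).continuous.continuousAt.comp
        (hlam.prodMk ((d.g hrq.le).continuous.continuousAt.comp hIH))).congr ?_
      filter_upwards [hev] with z hz
      have hb : ∀ a ∈ below (rzIncl s z).1 q, a ≤ r := fun a ha =>
        hrtop a (weights_support_subset s.1 z (mem_below.1 ha).1) (mem_below.1 ha).2
      refine (d.val_between hrq hb ?_ (rzIncl s z).2.2.2).symm
      rw [hFr] at hz
      obtain ⟨a, ha, ha0⟩ := Finset.exists_ne_zero_of_sum_ne_zero hz.ne'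
      exact ⟨a, mem_below.2 ⟨Finsupp.mem_support_iff.2 ha0, (Finset.mem_filter.1 ha).2⟩⟩

/-- The iterated cone at the top of a chain is continuous on its simplex. -/
theorem continuous_val_top (s : Chain P) {q : P} (hq : q ∈ s.1) (hmax : ∀ a ∈ s.1, a ≤ q) :
    Continuous fun x : stdSimplex ℝ s.1 => d.val (rzIncl s x).1 q := by
  classical
  rw [← continuousOn_univ]
  refine (d.continuousOn_val s (s.1.card + 1) q hq ?_).mono fun x _ => ?_
  · exact fun F hF => Nat.lt_succ_of_le (Finset.card_le_card fun a ha => (hF a ha).1)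
  · show 0 < upto (rzIncl s x).1 q
    rw [upto_incl, Finset.filter_eq_self.2 hmax,
      ← Finsupp.sum_of_support_subset (rzIncl s x).1 (weights_support_subset s.1 x)
        (fun _ r => r) fun _ _ => rfl, (rzIncl s x).2.2.1]
    exact one_pos

end ConeData

/-! ### Trees -/

/-- The category of globular sums of an extension. -/
structure Trees (C : GlobExt) where
  tree : Tree

instance (C : GlobExt) : Category.{0} (Trees C) where
  Hom a b := C.Hom a.tree b.tree
  id a := C.id a.tree
  comp f g := C.comp f g
  id_comp f := C.id_comp f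
  comp_id f := C.comp_id f
  assoc f g h := C.assoc f g h

/-- Forget the element. -/
def elForget {C : GlobExt} (X : Gpd C) : Gpd.El X ⥤ Trees C where
  obj p := ⟨p.S⟩
  map f := f.1

/-- The shape of a string of elements. -/
def shape {C : GlobExt} (X : Gpd C) : Str (Gpd.El X) →o Str (Trees C) :=
  strOrderHom (elForget X)

/-! ### The counit -/

namespace DiscFunctor

variable {C : GlobExt} (D : DiscFunctor C)
  (hD : ∀ S, ∃ x, (ContinuousMap.id (D.space S).toTop).Homotopic (ContinuousMap.const _ x))

/-- The disc spaces of the last trees, with chosen contractions. -/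
def coneData : ConeData (Str (Trees C)) (fun p => (D.space p.last.tree).toTop) where
  g h := (D.map (Str.lastHom h)).hom.hom
  g_id p y := by
    show (D.map (Str.lastHom (le_refl p))).hom.hom y = y
    rw [Str.lastHom_refl p]
    exact congrArg (fun φ : D.space p.last.tree ⟶ D.space p.last.tree => φ.hom.hom y) (D.map_id _)
  g_comp {p q r} h h' y := by
    show (D.map (Str.lastHom (h.trans h'))).hom.hom y = _
    rw [Str.lastHom_trans h h']
    exact congrArg (fun φ : D.space p.last.tree ⟶ D.space r.last.tree => φ.hom.hom y)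
      (D.map_comp _ _)
  H p := (Classical.choice (Classical.choose_spec (hD p.last.tree))).toContinuousMap
  pt p := Classical.choose (hD p.last.tree)
  H_zero p y := (Classical.choice (Classical.choose_spec (hD p.last.tree))).apply_zero y
  H_one p y := (Classical.choice (Classical.choose_spec (hD p.last.tree))).apply_one y

variable {Y Z : CGTop}

/-- The counit at an upper bound. -/
def epsAt (w : RzSpace (Str (Gpd.El (D.PiInfty.obj Y)))) (q : Str (Gpd.El (D.PiInfty.obj Y))) :
    Y.toTop :=
  (show D.space q.last.S ⟶ Y from q.last.a).hom.hom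
    ((D.coneData hD).val (rzMap (shape _) w).1 (shape _ q))

theorem mem_support_shape (w : RzSpace (Str (Gpd.El (D.PiInfty.obj Y)))) :
    shape _ (rzMaxFun w) ∈ (rzMap (shape _) w).1.support ∧
      ∀ a ∈ (rzMap (shape _) w).1.support, a ≤ shape _ (rzMaxFun w) := by
  rw [← rzMaxFun_map (shape _) w]
  exact ⟨rzMaxFun_mem _, fun a ha => le_rzMaxFun _ ha⟩

theorem epsAt_le (w : RzSpace (Str (Gpd.El (D.PiInfty.obj Y))))
    {q : Str (Gpd.El (D.PiInfty.obj Y))} (h : rzMaxFun w ≤ q) :
    D.epsAt hD w q = D.epsAt hD w (rzMaxFun w) := by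
  have hh : shape _ (rzMaxFun w) ≤ shape _ q := (shape _).mono h
  unfold epsAt
  rw [(D.coneData hD).val_top (D.mem_support_shape w).1 (D.mem_support_shape w).2 hh]
  have e : (Str.lastHom h).1 = Str.lastHom hh := Str.map_lastHom (elForget _) h
  have e' : D.map (Str.lastHom hh) ≫ (show D.space q.last.S ⟶ Y from q.last.a) =
      (show D.space (rzMaxFun w).last.S ⟶ Y from (rzMaxFun w).last.a) := by
    rw [← e]
    exact (Str.lastHom h).2
  exact congrArg (fun φ : D.space (rzMaxFun w).last.S ⟶ Y =>
    φ.hom.hom ((D.coneData hD).val (rzMap (shape _) w).1 (shape _ (rzMaxFun w)))) e'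

theorem continuous_epsMax :
    Continuous fun w : RzSpace (Str (Gpd.El (D.PiInfty.obj Y))) =>
      D.epsAt hD w (rzMaxFun w) := by
  classical
  refine rz_continuous_iff.2 fun s => ?_
  obtain ⟨q, hq⟩ := s.1.exists_maximal s.2.1
  have hmax : ∀ a ∈ s.1, a ≤ q := fun a ha =>
    (s.2.2.total (Finset.mem_coe.2 ha) (Finset.mem_coe.2 hq.1)).elim id fun h => hq.2 ha h
  have e : ((fun w : RzSpace (Str (Gpd.El (D.PiInfty.obj Y))) => D.epsAt hD w (rzMaxFun w)) ∘
      rzIncl s) = fun x => D.epsAt hD (rzIncl s x) q := funext fun x =>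
    (D.epsAt_le hD _ (hmax _ (weights_support_subset s.1 x (rzMaxFun_mem (rzIncl s x))))).symm
  rw [e]
  simp only [epsAt, rzMap_incl]
  refine (show D.space q.last.S ⟶ Y from q.last.a).hom.hom.continuous.comp
    (((D.coneData hD).continuous_val_top (s.map (shape _)) (q := shape _ q)
      (Chain.mem_map _ s ⟨q, hq.1⟩) ?_).comp (stdSimplex.continuous_map _))
  intro a ha
  obtain ⟨b, hb, rfl⟩ := Finset.mem_image.1 ha
  exact (shape _).mono (hmax b hb)

/-- The counit. -/
def eps : D.PiInfty ⋙ FR C ⟶ 𝟭 CGTop where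
  app Y := ConcreteCategory.ofHom (X := (FR C).obj (D.PiInfty.obj Y)) (Y := Y)
    ⟨fun w => D.epsAt hD w (rzMaxFun w), D.continuous_epsMax hD⟩
  naturality Y Z f := ConcreteCategory.hom_ext _ _ fun w => by
    let φ := strOrderHom (Gpd.El.map (D.PiInfty.map f))
    show D.epsAt hD (rzMap φ w) (rzMaxFun (rzMap φ w)) =
      f.hom.hom (D.epsAt hD w (rzMaxFun w))
    rw [rzMaxFun_map]
    show (show D.space (rzMaxFun w).last.S ⟶ Z from
        (show D.space (rzMaxFun w).last.S ⟶ Y from (rzMaxFun w).last.a) ≫ f).hom.hom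
      ((D.coneData hD).val (rzMap (shape _) (rzMap φ w)).1 (shape _ (rzMaxFun w))) = _
    rw [show rzMap (shape _) (rzMap φ w) = rzMap (shape (D.PiInfty.obj Y)) w from
      (DFunLike.congr_fun (rzMap_comp φ (shape (D.PiInfty.obj Z))) w).symm]
    rfl

/-- The universal cells of fundamental groupoids. -/
def piReps : Reps (D.PiInfty ⋙ Gpd.globF C) where
  obj n := D.space (Tree.disc n)
  cell n := 𝟙 (D.space (Tree.disc n))
  universal {Y n} c := ⟨c, Category.id_comp (show D.space (Tree.disc n) ⟶ Y from c),
    fun f hf => (Category.id_comp f).symm.trans hf⟩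

/-- Cells as discs, naturally in the space. -/
def toDiscsNat : D.PiInfty ⋙ Gpd.globF C ⟶
    CompactlyGenerated.compactlyGeneratedToTop.{0, 0} ⋙ discsF where
  app Y := D.toDiscs Y
  naturality _ _ f := (D.toDiscs_natural f).symm

variable (θ : Gpd.globF C ⟶
  FR C ⋙ CompactlyGenerated.compactlyGeneratedToTop.{0, 0} ⋙ discsF)

/-- The comparison followed by the counit. -/
def epsDiscs : D.PiInfty ⋙ Gpd.globF C ⟶
    CompactlyGenerated.compactlyGeneratedToTop.{0, 0} ⋙ discsF :=
  Functor.whiskerLeft D.PiInfty θ ≫ Functor.whiskerRight (D.eps hD)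
    (CompactlyGenerated.compactlyGeneratedToTop.{0, 0} ⋙ discsF)

theorem good_eps (hθ : ∀ X n, Good n (θ.app X : GlobMap X.glob (discs ((FR C).obj X).toTop)))
    (Y : CGTop) (n : ℕ) : Good n (discsMap ((D.eps hD).app Y).hom.hom) := by
  refine good_of_comp_left' (θ := θ.app (D.PiInfty.obj Y)) ?_ (hθ _ n)
  refine (good_iff_of_natural (D.piReps) CompactlyGenerated.compactlyGeneratedToTop.{0, 0}
    (fun n m => ?_) (D.epsDiscs hD θ) D.toDiscsNat Y n).2 (D.good_toDiscs Y n)
  obtain ⟨x, hx⟩ := hD (Tree.disc n)
  exact trivialUpTo_of_contractible hx m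

end DiscFunctor

/-- The counit of the fundamental groupoid is a weak homotopy equivalence, given a natural good
comparison and contractible disc spaces. -/
theorem exists_eps {C : GlobExt} (D : DiscFunctor C)
    (hD : ∀ S, ∃ x, (ContinuousMap.id (D.space S).toTop).Homotopic (ContinuousMap.const _ x))
    (θ : Gpd.globF C ⟶ FR C ⋙ CompactlyGenerated.compactlyGeneratedToTop.{0, 0} ⋙ discsF)
    (hθ : ∀ X n, Good n (θ.app X : GlobMap X.glob (discs ((FR C).obj X).toTop))) :
    ∃ ε : D.PiInfty ⋙ FR C ⟶ 𝟭 CGTop, ∀ Y, IsWeakHomotopyEquiv (ε.app Y).hom.hom :=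
  ⟨D.eps hD, fun Y => (isWeakHomotopyEquiv_iff _).2 (D.good_eps hD θ hθ Y)⟩

end Vale.Agent.P259
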