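import Vale.Agent.P259.ExistenceCells

/-!
# The colimit of a sequence of globular extensions
-/

namespace Vale.Agent.P259

namespace Tower

variable (stage : ℕ → GlobExt) (step : ∀ k, ExtHom (stage k) (stage (k + 1)))

/-- Push a morphism to a later stage. -/
def up {S T : Tree} {k l : ℕ} (h : k ≤ l) (f : (stage k).Hom S T) : (stage l).Hom S T :=
  Nat.leRecOn (C := fun m => (stage m).Hom S T) h (fun {m} x => (step m).map x) f

variable {stage} {step}

theorem up_self {S T : Tree} {k : ℕ} (h : k ≤ k) (f : (stage k).Hom S T) :
    up stage step h f = f :=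
  Nat.leRecOn_self (C := fun m => (stage m).Hom S T) f

theorem up_succ {S T : Tree} {k l : ℕ} (h : k ≤ l) (h' : k ≤ l + 1) (f : (stage k).Hom S T) :
    up stage step h' f = (step l).map (up stage step h f) :=
  Nat.leRecOn_succ (C := fun m => (stage m).Hom S T) h f

theorem up_trans {S T : Tree} {k l m : ℕ} (h : k ≤ l) (h' : l ≤ m) (f : (stage k).Hom S T) :
    up stage step h' (up stage step h f) = up stage step (h.trans h') f := by
  induction h' with
  | refl => rw [up_self]
  | @step m hm ih => rw [up_succ hm, up_succ (h.trans hm), ih]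

theorem up_comp {S T U : Tree} {k l : ℕ} (h : k ≤ l) (f : (stage k).Hom S T)
    (g : (stage k).Hom T U) :
    up stage step h ((stage k).comp f g) =
      (stage l).comp (up stage step h f) (up stage step h g) := by
  induction h with
  | refl => rw [up_self, up_self, up_self]
  | @step m hm ih => rw [up_succ hm, up_succ hm, up_succ hm, ih, (step m).map_comp]

theorem up_emb {S T : Tree} {k l : ℕ} (h : k ≤ l) (θ : GlobMap S.glob T.glob) :
    up stage step h ((stage k).emb θ) = (stage l).emb θ := by
  induction h with
  | refl => rw [up_self]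
  | @step m hm ih => rw [up_succ hm, ih, (step m).map_emb]

theorem stepIter_eq_up {S T : Tree} (k : ℕ) (f : (stage k).Hom S T) :
    ∀ d, stepIter stage step k f d = up stage step (Nat.le_add_right k d) f
  | 0 => (up_self _ f).symm
  | d + 1 => (congrArg (step (k + d)).map (stepIter_eq_up k f d)).trans
      (up_succ (Nat.le_add_right k d) _ f).symm

variable (stage) (step)

@[reducible] def setoid (S T : Tree) : Setoid (Σ k, (stage k).Hom S T) where
  r x y := ∃ m, ∃ (hx : x.1 ≤ m) (hy : y.1 ≤ m), up stage step hx x.2 = up stage step hy y.2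
  iseqv :=
    ⟨fun x => ⟨x.1, le_rfl, le_rfl, rfl⟩,
      fun ⟨m, hx, hy, e⟩ => ⟨m, hy, hx, e.symm⟩,
      fun {x y z} ⟨m, hx, hy, e⟩ ⟨m', hy', hz, e'⟩ => by
        refine ⟨max m m', hx.trans (le_max_left _ _), hz.trans (le_max_right _ _), ?_⟩
        rw [← up_trans hx (le_max_left _ _), e, up_trans, ← up_trans hy' (le_max_right _ _), e',
          up_trans]⟩

/-- Morphisms of the colimit. -/
abbrev CHom (S T : Tree) : Type := Quotient (setoid stage step S T)

/-- The class of a morphism of some stage. -/
def of {S T : Tree} (k : ℕ) (f : (stage k).Hom S T) : CHom stage step S T :=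
  Quotient.mk _ ⟨k, f⟩

variable {stage} {step}

theorem of_up {S T : Tree} {k l : ℕ} (h : k ≤ l) (f : (stage k).Hom S T) :
    of stage step l (up stage step h f) = of stage step k f :=
  Quotient.sound ⟨l, le_rfl, h, by rw [up_self]⟩

theorem of_step {S T : Tree} {k : ℕ} (f : (stage k).Hom S T) :
    of stage step (k + 1) ((step k).map f) = of stage step k f := by
  rw [← of_up (step := step) (Nat.le_succ k) f, up_succ le_rfl, up_self]

theorem exists_rep {S T : Tree} (a : CHom stage step S T) :
    ∃ k, ∀ l, k ≤ l → ∃ f, of stage step l f = a := by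
  induction a using Quotient.inductionOn with | _ x => ?_
  exact ⟨x.1, fun l h => ⟨_, of_up h x.2⟩⟩

theorem exists_rep₂ {S T S' T' : Tree} (a : CHom stage step S T) (b : CHom stage step S' T') :
    ∃ k, ∃ f g, of stage step k f = a ∧ of stage step k g = b := by
  obtain ⟨k, hk⟩ := exists_rep a
  obtain ⟨l, hl⟩ := exists_rep b
  obtain ⟨f, hf⟩ := hk (max k l) (le_max_left _ _)
  obtain ⟨g, hg⟩ := hl (max k l) (le_max_right _ _)
  exact ⟨_, f, g, hf, hg⟩

theorem exists_rep₃ {S T S' T' S'' T'' : Tree} (a : CHom stage step S T)
    (b : CHom stage step S' T') (c : CHom stage step S'' T'') :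
    ∃ k, ∃ f g h, of stage step k f = a ∧ of stage step k g = b ∧ of stage step k h = c := by
  obtain ⟨k, hk⟩ := exists_rep a
  obtain ⟨l, hl⟩ := exists_rep b
  obtain ⟨m, hm⟩ := exists_rep c
  obtain ⟨f, hf⟩ := hk (max k (max l m)) (le_max_left _ _)
  obtain ⟨g, hg⟩ := hl (max k (max l m)) (le_max_of_le_right (le_max_left _ _))
  obtain ⟨h, hh⟩ := hm (max k (max l m)) (le_max_of_le_right (le_max_right _ _))
  exact ⟨_, f, g, h, hf, hg, hh⟩

theorem eq_at {S T : Tree} {k : ℕ} {f g : (stage k).Hom S T}
    (h : of stage step k f = of stage step k g) :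
    ∃ K, ∀ l, K ≤ l → ∀ h' : k ≤ l, up stage step h' f = up stage step h' g := by
  obtain ⟨m, hx, hy, e⟩ := Quotient.exact h
  refine ⟨m, fun l hl h' => ?_⟩
  rw [← up_trans hx hl, e, up_trans]

theorem comp_well_defined {S T U : Tree} {k l m : ℕ} (hk : k ≤ m) (hl : l ≤ m)
    (f : (stage k).Hom S T) (g : (stage l).Hom T U) :
    of stage step (max k l) ((stage (max k l)).comp (up stage step (le_max_left k l) f)
        (up stage step (le_max_right k l) g)) =
      of stage step m ((stage m).comp (up stage step hk f) (up stage step hl g)) := by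
  rw [← of_up (max_le hk hl), up_comp, up_trans, up_trans]

/-- Composition in the colimit. -/
def cComp {S T U : Tree} : CHom stage step S T → CHom stage step T U → CHom stage step S U :=
  Quotient.lift₂
    (fun x y => of stage step (max x.1 y.1)
      ((stage (max x.1 y.1)).comp (up stage step (le_max_left _ _) x.2)
        (up stage step (le_max_right _ _) y.2)))
    fun x y x' y' ⟨m, hm, hm', e⟩ ⟨p, hp, hp', e'⟩ => by
      rw [comp_well_defined (hm.trans (le_max_left m p)) (hp.trans (le_max_right m p)),
        comp_well_defined (hm'.trans (le_max_left m p)) (hp'.trans (le_max_right m p)),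
        ← up_trans hm (le_max_left m p), e, up_trans, ← up_trans hp (le_max_right m p), e', up_trans]

theorem of_comp {S T U : Tree} {k : ℕ} (f : (stage k).Hom S T) (g : (stage k).Hom T U) :
    cComp (of stage step k f) (of stage step k g) = of stage step k ((stage k).comp f g) := by
  show of stage step (max k k) _ = _
  rw [comp_well_defined (le_refl k) (le_refl k), up_self, up_self]

theorem of_emb {S T : Tree} (k : ℕ) (θ : GlobMap S.glob T.glob) :
    of stage step k ((stage k).emb θ) = of stage step 0 ((stage 0).emb θ) := by
  rw [← up_emb (step := step) (Nat.zero_le k), of_up]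

variable (stage) (step)

/-- The colimit globular extension. -/
noncomputable def colim : GlobExt where
  Hom := CHom stage step
  id S := of stage step 0 ((stage 0).emb (GlobMap.id S.glob))
  comp := cComp
  id_comp {S T} a := by
    obtain ⟨k, hk⟩ := exists_rep a
    obtain ⟨f, rfl⟩ := hk k le_rfl
    rw [← of_emb k, of_comp, (stage k).emb_id, (stage k).id_comp]
  comp_id {S T} a := by
    obtain ⟨k, hk⟩ := exists_rep a
    obtain ⟨f, rfl⟩ := hk k le_rfl
    rw [← of_emb k, of_comp, (stage k).emb_id, (stage k).comp_id]
  assoc a b c := by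
    obtain ⟨k, f, g, h, rfl, rfl, rfl⟩ := exists_rep₃ a b c
    rw [of_comp, of_comp, of_comp, of_comp, (stage k).assoc]
  emb θ := of stage step 0 ((stage 0).emb θ)
  emb_id _ := rfl
  emb_comp f g := by rw [of_comp, (stage 0).emb_comp]
  glue {S T} f hs ht := by
    choose v hv using fun n c => exists_rep (f n c)
    obtain ⟨K, hK⟩ := S.exists_bound v
    choose g hg using fun n c => hv n c K (hK n c)
    have es : ∀ n c, of stage step K ((stage K).comp ((stage K).emb (σG n)) (g (n + 1) c)) =
        of stage step K (g n (S.src n c)) := fun n c => by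
      rw [← of_comp, of_emb, hg, hg]; exact hs n c
    have et : ∀ n c, of stage step K ((stage K).comp ((stage K).emb (τG n)) (g (n + 1) c)) =
        of stage step K (g n (S.tgt n c)) := fun n c => by
      rw [← of_comp, of_emb, hg, hg]; exact ht n c
    choose vs hvs using fun n c => eq_at (es n c)
    choose vt hvt using fun n c => eq_at (et n c)
    obtain ⟨A, hA⟩ := S.exists_bound fun n => match n with
      | 0 => fun _ => 0
      | n + 1 => fun c => max (vs n c) (vt n c)
    have hM : K ≤ max K A := le_max_left K A
    obtain ⟨G, hG, -⟩ := (stage (max K A)).glue (fun n c => up stage step hM (g n c))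
      (fun n c => by
        have h := hvs n c (max K A)
          (((le_max_left _ _).trans (hA (n + 1) c)).trans (le_max_right _ _)) hM
        rwa [up_comp, up_emb] at h)
      (fun n c => by
        have h := hvt n c (max K A)
          (((le_max_right _ _).trans (hA (n + 1) c)).trans (le_max_right _ _)) hM
        rwa [up_comp, up_emb] at h)
    have hG' : ∀ n c, cComp (of stage step 0 ((stage 0).emb (Tree.cellGlob c)))
        (of stage step (max K A) G) = f n c := fun n c => by
      rw [← of_emb (max K A), of_comp, hG n c, of_up, hg]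
    refine ⟨_, hG', fun b hb => ?_⟩
    obtain ⟨k, x, y, rfl, hy⟩ := exists_rep₂ b (of stage step (max K A) G)
    rw [← hy]
    have e : ∀ n (c : S.Cell n),
        of stage step k ((stage k).comp ((stage k).emb (Tree.cellGlob c)) x) =
        of stage step k ((stage k).comp ((stage k).emb (Tree.cellGlob c)) y) := fun n c => by
      rw [← of_comp, ← of_comp, of_emb, hy, hb n c, hG' n c]
    choose w hw using fun n c => eq_at (e n c)
    obtain ⟨B, hB⟩ := S.exists_bound w
    rw [← of_up (le_max_left k B) x, ← of_up (le_max_left k B) y]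
    refine congrArg _ ((stage (max k B)).ext_cells fun n c => ?_)
    have h := hw n c (max k B) ((hB n c).trans (le_max_right _ _)) (le_max_left k B)
    rwa [up_comp, up_comp, up_emb] at h

/-- The inclusion of a stage. -/
noncomputable def incl (k : ℕ) : ExtHom (stage k) (colim stage step) where
  map := of stage step k
  map_comp f g := (of_comp f g).symm
  map_emb θ := of_emb k θ

theorem incl_step (k : ℕ) {S T : Tree} (f : (stage k).Hom S T) :
    (incl stage step (k + 1)).map ((step k).map f) = (incl stage step k).map f :=
  of_step f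

theorem incl_surj {S T : Tree} (f : (colim stage step).Hom S T) :
    ∃ k g, (incl stage step k).map g = f := by
  obtain ⟨k, hk⟩ := exists_rep f
  exact ⟨k, hk k le_rfl⟩

theorem incl_inj (k : ℕ) {S T : Tree} (f g : (stage k).Hom S T)
    (h : (incl stage step k).map f = (incl stage step k).map g) :
    ∃ d, stepIter stage step k f d = stepIter stage step k g d := by
  obtain ⟨K, hK⟩ := eq_at h
  refine ⟨K, ?_⟩
  rw [stepIter_eq_up, stepIter_eq_up]
  exact hK _ (Nat.le_add_left K k) _

end Tower

end Vale.Agent.P259
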