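import Vale.Agent.P259.ExistenceFree
import Vale.Agent.P259.ExistenceTower

/-!
# Coherators exist

Stage `k + 1` freely adjoins lifts of all parallel pairs of stage `k` whose target has dimension
at most one more than the source disc. In the colimit every parallel pair has a lift: the target
retracts, up to cells of high dimension, onto its truncation.
-/

namespace Vale.Agent.P259

namespace FreeTower

open Vale.Agent.P259.Tree

/-- The pairs that get lifts. -/
abbrev SmallPair (C : GlobExt) : Type := {P : C.Pair // P.S.dim ≤ P.n + 1}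

/-- The stages. -/
noncomputable def stage : ℕ → GlobExt
  | 0 => thetaZero
  | k + 1 => Adjoin.free (C := stage k) (fun i : SmallPair (stage k) => i.1)

/-- The steps. -/
noncomputable def step (k : ℕ) : ExtHom (stage k) (stage (k + 1)) :=
  Adjoin.unit (fun i : SmallPair (stage k) => i.1)

/-- The colimit. -/
noncomputable def K : GlobExt := Tower.colim stage step

/-- The inclusion of a stage. -/
noncomputable def incl (k : ℕ) : ExtHom (stage k) K := Tower.incl stage step k

theorem exists_small_lift {n : ℕ} {S : Tree} (hd : S.dim ≤ n + 1) (f g : K.Hom (disc n) S)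
    (h : K.Parallel f g) : ∃ l, K.IsLift f g l := by
  obtain ⟨k, f', g', hf, hg⟩ := Tower.exists_rep₂ f g
  obtain ⟨l, hl, hpar⟩ : ∃ l, ∃ hl : k ≤ l,
      (stage l).Parallel (Tower.up stage step hl f') (Tower.up stage step hl g') := by
    cases n with
    | zero => exact ⟨k, le_rfl, True.intro⟩
    | succ m =>
      obtain ⟨h₁, h₂⟩ := h
      have e₁ : Tower.of stage step k ((stage k).comp ((stage k).emb (σG m)) f') =
          Tower.of stage step k ((stage k).comp ((stage k).emb (σG m)) g') := by
        rw [← Tower.of_comp, ← Tower.of_comp, Tower.of_emb, hf, hg]; exact h₁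
      have e₂ : Tower.of stage step k ((stage k).comp ((stage k).emb (τG m)) f') =
          Tower.of stage step k ((stage k).comp ((stage k).emb (τG m)) g') := by
        rw [← Tower.of_comp, ← Tower.of_comp, Tower.of_emb, hf, hg]; exact h₂
      obtain ⟨a, ha⟩ := Tower.eq_at e₁
      obtain ⟨b, hb⟩ := Tower.eq_at e₂
      have p₁ := ha (max k (max a b)) (le_max_of_le_right (le_max_left _ _)) (le_max_left _ _)
      have p₂ := hb (max k (max a b)) (le_max_of_le_right (le_max_right _ _)) (le_max_left _ _)
      rw [Tower.up_comp, Tower.up_comp, Tower.up_emb] at p₁ p₂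
      exact ⟨max k (max a b), le_max_left _ _, p₁, p₂⟩
  let i : SmallPair (stage l) :=
    ⟨⟨n, S, Tower.up stage step hl f', Tower.up stage step hl g', hpar⟩, hd⟩
  let ad : (stage (l + 1)).Hom (disc (n + 1)) S :=
    Adjoin.fLift (fun j : SmallPair (stage l) => j.1) i
  have hi : (stage (l + 1)).IsLift ((step l).map (Tower.up stage step hl f'))
      ((step l).map (Tower.up stage step hl g')) ad :=
    (Adjoin.universallyAdjoins (p := fun j : SmallPair (stage l) => j.1)).1 i
  refine ⟨(incl (l + 1)).map ad, ?_, ?_⟩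
  · show K.comp (K.emb (σG n)) ((incl (l + 1)).map ad) = f
    rw [← (incl (l + 1)).map_emb, ← (incl (l + 1)).map_comp]
    refine (congrArg (incl (l + 1)).map hi.1).trans ?_
    exact (Tower.of_step _).trans ((Tower.of_up hl f').trans hf)
  · show K.comp (K.emb (τG n)) ((incl (l + 1)).map ad) = g
    rw [← (incl (l + 1)).map_emb, ← (incl (l + 1)).map_comp]
    refine (congrArg (incl (l + 1)).map hi.2).trans ?_
    exact (Tower.of_step _).trans ((Tower.of_up hl g').trans hg)

/-- Two maps agree on the cells of dimension at most `m`. -/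
def Agree (m : ℕ) {S T : Tree} (φ ψ : K.Hom S T) : Prop :=
  ∀ i ≤ m, ∀ c : S.Cell i,
    K.comp (K.emb (cellGlob c)) φ = K.comp (K.emb (cellGlob c)) ψ

/-- Precomposition with a skeletal map preserves agreement on low cells. -/
def Skeletal {S U : Tree} (a : K.Hom S U) : Prop :=
  ∀ m {V : Tree} (φ ψ : K.Hom U V), Agree m φ ψ → Agree m (K.comp a φ) (K.comp a ψ)

theorem Agree.top {m n : ℕ} {T : Tree} {φ ψ : K.Hom (disc n) T} (h : Agree m φ ψ) (hn : n ≤ m) :
    φ = ψ := by
  have h' := h n hn (Tree.top n)
  rwa [cellGlob_top, K.emb_id, K.id_comp, K.id_comp] at h'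

theorem skeletal_comp {S T U : Tree} {a : K.Hom S T} {b : K.Hom T U} (ha : Skeletal a)
    (hb : Skeletal b) : Skeletal (K.comp a b) := fun m V φ ψ h => by
  rw [K.assoc, K.assoc]
  exact ha m _ _ (hb m φ ψ h)

theorem skeletal_emb {S T : Tree} (θ : GlobMap S.glob T.glob) : Skeletal (K.emb θ) :=
  fun m V φ ψ h i hi c => by
    rw [← K.assoc, ← K.assoc, K.emb_cell_comp]
    exact h i hi _

theorem skeletal_glue {S T : Tree} {a : K.Hom S T}
    (h : ∀ n (c : S.Cell n), Skeletal (K.comp (K.emb (cellGlob c)) a)) : Skeletal a :=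
  fun m V φ ψ hφ i hi c => by
    rw [← K.assoc, ← K.assoc]
    exact (h i c m φ ψ hφ).top hi

theorem skeletal_lift {n : ℕ} {U : Tree} (hU : U.dim ≤ n + 1) {a : K.Hom (disc (n + 1)) U}
    (hs : Skeletal (K.comp (K.emb (σG n)) a)) (ht : Skeletal (K.comp (K.emb (τG n)) a)) :
    Skeletal a := by
  have key : ∀ d m, m + d = n → ∀ c : (disc (n + 1)).Cell m,
      Skeletal (K.comp (K.emb (cellGlob c)) a) := by
    intro d
    induction d with
    | zero =>
      intro m hm c
      obtain rfl : m = n := by omega
      obtain ⟨e, he⟩ := disc_cell_face (m + 1) m (Nat.lt_succ_self m) c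
      rw [disc_top_unique _ e] at he
      rcases he with he | he <;> rw [← he]
      exacts [hs, ht]
    | succ d ih =>
      intro m hm c
      obtain ⟨e, he⟩ := disc_cell_face (n + 1) m (by omega) c
      rcases he with he | he <;> rw [← he]
      · rw [← K.σ_cell, K.assoc]
        exact skeletal_comp (skeletal_emb _) (ih (m + 1) (by omega) e)
      · rw [← K.τ_cell, K.assoc]
        exact skeletal_comp (skeletal_emb _) (ih (m + 1) (by omega) e)
  intro m V φ ψ h i hi c
  by_cases hm : n + 1 ≤ m
  · have : φ = ψ := K.ext_cells fun j e => h j ((le_dim U e).trans (hU.trans hm)) e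
    rw [this]
  · rw [← K.assoc, ← K.assoc]
    exact (key (n - i) i (by omega) c m φ ψ h).top hi

theorem emb_comp_incl (k : ℕ) {R S T : Tree} (θ : GlobMap R.glob S.glob)
    (b : (stage k).Hom S T) :
    (incl k).map ((stage k).comp ((stage k).emb θ) b) = K.comp (K.emb θ) ((incl k).map b) := by
  rw [(incl k).map_comp, (incl k).map_emb]

theorem skeletal_incl : ∀ (k : ℕ) {S U : Tree} (a : (stage k).Hom S U),
    Skeletal ((incl k).map a)
  | 0, _, _, a => by
    have e : (incl 0).map a = K.emb a := (incl 0).map_emb a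
    rw [e]
    exact skeletal_emb _
  | k + 1, S, U, a => by
    have e : ∀ {S U : Tree} (f : (stage k).Hom S U),
        Skeletal ((incl (k + 1)).map ((step k).map f)) := fun f => by
      rw [show (incl (k + 1)).map ((step k).map f) = (incl k).map f from Tower.of_step f]
      exact skeletal_incl k f
    refine Adjoin.free_induction (p := fun i : SmallPair (stage k) => i.1)
      (P := fun b => Skeletal ((incl (k + 1)).map b)) (fun f => e f) (fun i => ?_)
      (fun b c hb hc => ?_) (fun b hb => ?_) a
    · obtain ⟨h₁, h₂⟩ := (Adjoin.universallyAdjoins (p := fun j : SmallPair (stage k) => j.1)).1 i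
      refine skeletal_lift i.2 ?_ ?_
      · exact (congrArg Skeletal ((emb_comp_incl (k + 1) _ _).symm.trans
          (congrArg (incl (k + 1)).map h₁))).mpr (e _)
      · exact (congrArg Skeletal ((emb_comp_incl (k + 1) _ _).symm.trans
          (congrArg (incl (k + 1)).map h₂))).mpr (e _)
    · rw [show (incl (k + 1)).map (((Adjoin.free _)).comp b c) = _ from
        (incl (k + 1)).map_comp b c]
      exact skeletal_comp hb hc
    · refine skeletal_glue fun n c => ?_
      exact (congrArg Skeletal (emb_comp_incl (k + 1) _ b)).mp (hb n c)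

theorem skeletal_all {S U : Tree} (a : K.Hom S U) : Skeletal a := by
  obtain ⟨k, b, rfl⟩ := Tower.incl_surj stage step a
  exact skeletal_incl k b

/-- Parallel cells of a globular sum. -/
def CellPar (S : Tree) : (i : ℕ) → S.Cell i → S.Cell i → Prop
  | 0, _, _ => True
  | i + 1, c, d => S.src i c = S.src i d ∧ S.tgt i c = S.tgt i d

/-- The conditions on one level of the retraction onto the truncation. -/
def LevelOK (N : ℕ) (S : Tree) (i : ℕ) (a : S.Cell i → K.Hom (disc i) (trunc N S)) : Prop :=
  (i < N → ∀ d, a (truncApp N S i d) = K.emb (cellGlob d)) ∧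
    ∀ c c', CellPar S i c c' → K.Parallel (a c) (a c')

theorem levelOK_zero (n : ℕ) (S : Tree) : ∃ a, LevelOK (n + 1) S 0 a := by
  have hb := truncApp_bijective (n + 1) S 0 (Nat.succ_pos n)
  choose d hd using hb.2
  exact ⟨fun c => K.emb (cellGlob (d c)),
    fun _ x => congrArg (fun y => K.emb (cellGlob y)) (hb.1 (hd (truncApp (n + 1) S 0 x))),
    fun _ _ _ => True.intro⟩

theorem levelOK_succ {N : ℕ} {S : Tree} {i : ℕ} {a : S.Cell i → K.Hom (disc i) (trunc N S)}
    (ha : LevelOK N S i a) :
    ∃ b, LevelOK N S (i + 1) b ∧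
      ∀ c, K.IsLift (a (S.src i c)) (a (S.tgt i c)) (b c) := by
  have key : ∀ c : S.Cell (i + 1), ∃ h, K.IsLift (a (S.src i c)) (a (S.tgt i c)) h ∧
      (i + 1 < N → ∀ d, truncApp N S (i + 1) d = c → h = K.emb (cellGlob d)) := by
    intro c
    by_cases hi : i + 1 < N
    · obtain ⟨hinj, hsurj⟩ := truncApp_bijective N S (i + 1) hi
      obtain ⟨d, rfl⟩ := hsurj c
      refine ⟨K.emb (cellGlob d), ⟨?_, ?_⟩, fun _ d' hd' => by rw [hinj hd']⟩
      · rw [show S.src i (truncApp N S (i + 1) d) = _ from truncApp_src N S i d,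
          ha.1 (by omega)]
        exact K.σ_cell d
      · rw [show S.tgt i (truncApp N S (i + 1) d) = _ from truncApp_tgt N S i d,
          ha.1 (by omega)]
        exact K.τ_cell d
    · have hpar : CellPar S i (S.src i c) (S.tgt i c) := by
        cases i with
        | zero => exact True.intro
        | succ j => exact ⟨src_src S j c, tgt_tgt S j c⟩
      obtain ⟨h, hh⟩ := exists_small_lift ((dim_trunc N S).trans (by omega)) _ _
        (ha.2 _ _ hpar)
      exact ⟨h, hh, fun h' => absurd h' hi⟩
  choose b hb hb' using key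
  refine ⟨b, ⟨fun hi d => hb' _ hi d rfl, fun c c' hc => ⟨?_, ?_⟩⟩, hb⟩
  · rw [(hb c).1, (hb c').1, hc.1]
  · rw [(hb c).2, (hb c').2, hc.2]

/-- The levels of the retraction onto the truncation. -/
noncomputable def level (n : ℕ) (S : Tree) :
    (i : ℕ) → {a : S.Cell i → K.Hom (disc i) (trunc (n + 1) S) // LevelOK (n + 1) S i a}
  | 0 => ⟨_, Classical.choose_spec (levelOK_zero n S)⟩
  | i + 1 => ⟨_, (Classical.choose_spec (levelOK_succ (level n S i).2)).1⟩

theorem level_isLift (n : ℕ) (S : Tree) (i : ℕ) (c : S.Cell (i + 1)) :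
    K.IsLift ((level n S i).1 (S.src i c)) ((level n S i).1 (S.tgt i c))
      ((level n S (i + 1)).1 c) :=
  (Classical.choose_spec (levelOK_succ (level n S i).2)).2 c

theorem exists_retraction (n : ℕ) (S : Tree) :
    ∃ r : K.Hom S (trunc (n + 1) S),
      Agree n (K.comp r (K.emb (truncIncl (n + 1) S))) (K.id S) := by
  obtain ⟨r, hr, -⟩ := K.glue (fun i c => (level n S i).1 c)
    (fun i c => (level_isLift n S i c).1) (fun i c => (level_isLift n S i c).2)
  refine ⟨r, fun i hi c => ?_⟩
  obtain ⟨d, rfl⟩ := (truncApp_bijective (n + 1) S i (Nat.lt_succ_of_le hi)).2 c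
  rw [← K.assoc, hr i, (level n S i).2.1 (Nat.lt_succ_of_le hi), K.emb_cell_comp, K.comp_id]
  rfl

theorem contractible : K.Contractible := by
  intro n S f g h
  obtain ⟨r, hr⟩ := exists_retraction n S
  have hpar : K.Parallel (K.comp f r) (K.comp g r) := by
    cases n with
    | zero => exact True.intro
    | succ m => exact ⟨by rw [← K.assoc, h.1, K.assoc], by rw [← K.assoc, h.2, K.assoc]⟩
  obtain ⟨l, hl₁, hl₂⟩ := exists_small_lift (dim_trunc (n + 1) S) _ _ hpar
  have key : ∀ a : K.Hom (disc n) S,
      K.comp (K.comp a r) (K.emb (truncIncl (n + 1) S)) = a := fun a => by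
    rw [K.assoc]
    exact ((skeletal_all a n _ _ hr).top le_rfl).trans (K.comp_id a)
  exact ⟨K.comp l (K.emb (truncIncl (n + 1) S)), by rw [← K.assoc, hl₁, key],
    by rw [← K.assoc, hl₂, key]⟩

/-- The coherator adjoining lifts of all small pairs at every step. -/
noncomputable def coherator : Coherator where
  stage := stage
  step := step
  stage_zero _ _ := Function.bijective_id
  Index k := SmallPair (stage k)
  pair _ := fun i => i.1
  dim_le _ i := i.2
  adjoined k i := Adjoin.fLift (fun j : SmallPair (stage k) => j.1) i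
  universal _ := Adjoin.universallyAdjoins
  colim := K
  incl := incl
  incl_step := Tower.incl_step stage step
  incl_surj := Tower.incl_surj stage step
  incl_inj := Tower.incl_inj stage step
  contractible := contractible

end FreeTower

/-- Coherators exist. -/
theorem exists_coherator : Nonempty Coherator := ⟨FreeTower.coherator⟩

end Vale.Agent.P259
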