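import Vale.Agent.P259.ExistenceCells

/-!
# Freely adjoining lifts to a globular extension

Morphisms are formal terms that have a value in every model, modulo having the same value in
every model.
-/

namespace Vale.Agent.P259

namespace Adjoin

variable {C : GlobExt} {I : Type} (p : I → C.Pair)

/-- Formal morphisms. -/
inductive Tm : Tree → Tree → Type
  | old {S T : Tree} (f : C.Hom S T) : Tm S T
  | lift (i : I) : Tm (Tree.disc ((p i).n + 1)) (p i).S
  | comp {S T U : Tree} (a : Tm S T) (b : Tm T U) : Tm S U
  | glue {S T : Tree} (a : ∀ n, S.Cell n → Tm (Tree.disc n) T) : Tm S T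

/-- A globular extension under `C` with chosen lifts. -/
structure Model where
  E : GlobExt
  F : ExtHom C E
  k : ∀ i, E.Hom (Tree.disc ((p i).n + 1)) (p i).S
  isLift : ∀ i, E.IsLift (F.map (p i).f) (F.map (p i).g) (k i)

variable {p}

/-- `x` is a value of a term in a model. -/
def Val (M : Model p) : {S T : Tree} → Tm p S T → M.E.Hom S T → Prop
  | _, _, .old f, x => x = M.F.map f
  | _, _, .lift i, x => x = M.k i
  | _, _, .comp a b, x => ∃ y z, Val M a y ∧ Val M b z ∧ x = M.E.comp y z
  | _, _, .glue a, x => ∀ n c, Val M (a n c) (M.E.comp (M.E.emb (Tree.cellGlob c)) x)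

theorem val_unique (M : Model p) {S T : Tree} (t : Tm p S T) :
    ∀ {x y : M.E.Hom S T}, Val M t x → Val M t y → x = y := by
  induction t with
  | old f => intro x y hx hy; exact hx.trans hy.symm
  | lift i => intro x y hx hy; exact hx.trans hy.symm
  | comp a b iha ihb =>
    rintro x y ⟨u, v, hu, hv, rfl⟩ ⟨u', v', hu', hv', rfl⟩
    rw [iha hu hu', ihb hv hv']
  | glue a ih => intro x y hx hy; exact M.E.ext_cells fun n c => ih n c (hx n c) (hy n c)

variable (p)

/-- A term with a value in every model. -/
def Valid {S T : Tree} (t : Tm p S T) : Prop := ∀ M : Model p, ∃ x, Val M t x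

instance setoid (S T : Tree) : Setoid {t : Tm p S T // Valid p t} where
  r a b := ∀ (M : Model p) x, Val M a.1 x → Val M b.1 x
  iseqv :=
    ⟨fun _ _ _ h => h,
      fun {a b} h M x hx => by
        obtain ⟨y, hy⟩ := a.2 M
        rwa [val_unique M b.1 hx (h M y hy)],
      fun h h' M x hx => h' M x (h M x hx)⟩

/-- Morphisms of the free extension. -/
abbrev FHom (S T : Tree) : Type := Quotient (setoid p S T)

variable {p}

theorem sound {S T : Tree} {a b : {t : Tm p S T // Valid p t}}
    (h : ∀ (M : Model p) x, Val M a.1 x → Val M b.1 x) :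
    (Quotient.mk _ a : FHom p S T) = Quotient.mk _ b :=
  Quotient.sound h

/-- The value of a morphism in a model. -/
noncomputable def value (M : Model p) {S T : Tree} : FHom p S T → M.E.Hom S T :=
  Quotient.lift (fun a => Classical.choose (a.2 M)) fun a b h =>
    val_unique M b.1 (h M _ (Classical.choose_spec (a.2 M))) (Classical.choose_spec (b.2 M))

theorem value_mk (M : Model p) {S T : Tree} (a : {t : Tm p S T // Valid p t}) {x : M.E.Hom S T}
    (h : Val M a.1 x) : value M (Quotient.mk _ a) = x :=
  val_unique M a.1 (Classical.choose_spec (a.2 M)) h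

theorem val_value (M : Model p) {S T : Tree} (a : {t : Tm p S T // Valid p t}) :
    Val M a.1 (value M (Quotient.mk _ a)) :=
  Classical.choose_spec (a.2 M)

/-- Morphisms are determined by their values. -/
theorem ext_value {S T : Tree} {a b : FHom p S T} (h : ∀ M, value M a = value M b) : a = b := by
  induction a using Quotient.inductionOn with | _ a => ?_
  induction b using Quotient.inductionOn with | _ b => ?_
  refine sound fun M x hx => ?_
  rw [← value_mk M a hx, h M]
  exact val_value M b

variable (p)

/-- An old morphism. -/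
def fOld {S T : Tree} (f : C.Hom S T) : FHom p S T :=
  Quotient.mk _ ⟨.old f, fun M => ⟨M.F.map f, rfl⟩⟩

/-- An adjoined morphism. -/
def fLift (i : I) : FHom p (Tree.disc ((p i).n + 1)) (p i).S :=
  Quotient.mk _ ⟨.lift i, fun M => ⟨M.k i, rfl⟩⟩

variable {p}

/-- Composition. -/
def fComp {S T U : Tree} : FHom p S T → FHom p T U → FHom p S U :=
  Quotient.lift₂
    (fun a b => Quotient.mk _ ⟨.comp a.1 b.1, fun M =>
      have ⟨x, hx⟩ := a.2 M
      have ⟨y, hy⟩ := b.2 M
      ⟨_, x, y, hx, hy, rfl⟩⟩)
    fun _ _ _ _ ha hb => sound fun M _ ⟨y, z, hy, hz, e⟩ => ⟨y, z, ha M y hy, hb M z hz, e⟩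

theorem value_old (M : Model p) {S T : Tree} (f : C.Hom S T) :
    value M (fOld p f) = M.F.map f :=
  value_mk M _ rfl

theorem value_lift (M : Model p) (i : I) : value M (fLift p i) = M.k i :=
  value_mk M _ rfl

theorem value_comp (M : Model p) {S T U : Tree} (a : FHom p S T) (b : FHom p T U) :
    value M (fComp a b) = M.E.comp (value M a) (value M b) := by
  induction a using Quotient.inductionOn with | _ a => ?_
  induction b using Quotient.inductionOn with | _ b => ?_
  exact value_mk M _ ⟨_, _, val_value M a, val_value M b, rfl⟩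

variable (p)

/-- The free globular extension with lifts of the pairs `p`. -/
noncomputable def free : GlobExt where
  Hom := FHom p
  id S := fOld p (C.id S)
  comp := fComp
  id_comp f := ext_value fun M => by
    rw [value_comp, value_old, ← C.emb_id, M.F.map_emb, M.E.emb_id, M.E.id_comp]
  comp_id f := ext_value fun M => by
    rw [value_comp, value_old, ← C.emb_id, M.F.map_emb, M.E.emb_id, M.E.comp_id]
  assoc f g h := ext_value fun M => by simp only [value_comp, M.E.assoc]
  emb f := fOld p (C.emb f)
  emb_id S := congrArg (fOld p) (C.emb_id S)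
  emb_comp f g := ext_value fun M => by
    rw [value_comp, value_old, value_old, value_old, C.emb_comp, M.F.map_comp]
  glue {S T} f hs ht := by
    have key : ∀ M : Model p, ∃! g : M.E.Hom S T, ∀ n (c : S.Cell n),
        M.E.comp (M.E.emb (Tree.cellGlob c)) g = value M (f n c) := fun M => by
      refine M.E.glue _ (fun n c => ?_) (fun n c => ?_)
      · rw [← hs n c, value_comp, value_old, M.F.map_emb]
      · rw [← ht n c, value_comp, value_old, M.F.map_emb]
    let t : Tm p S T := .glue fun n c => (f n c).out.1
    have hv : ∀ (M : Model p) n c,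
        Val M (f n c).out.1 (value M (f n c)) := fun M n c => by
      have h := val_value M (f n c).out
      rwa [Quotient.out_eq] at h
    have ht' : Valid p t := fun M => by
      obtain ⟨g, hg, -⟩ := key M
      exact ⟨g, fun n c => by rw [hg n c]; exact hv M n c⟩
    refine ⟨Quotient.mk _ ⟨t, ht'⟩, fun n c => ext_value fun M => ?_, fun g hg => ?_⟩
    · rw [value_comp, value_old, M.F.map_emb]
      exact val_unique M _ (val_value M ⟨t, ht'⟩ n c) (hv M n c)
    · refine ext_value fun M => M.E.ext_cells fun n c => ?_
      rw [val_unique M _ (val_value M ⟨t, ht'⟩ n c) (hv M n c), ← hg n c, value_comp, value_old,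
        M.F.map_emb]

/-- The inclusion into the free extension. -/
noncomputable def unit : ExtHom C (free p) where
  map := fOld p
  map_comp f g := ext_value fun M => by
    show value M (fOld p (C.comp f g)) = value M (fComp (fOld p f) (fOld p g))
    rw [value_comp, value_old, value_old, value_old, M.F.map_comp]
  map_emb _ := rfl

variable {p}

/-- Induction on morphisms of the free extension. -/
theorem free_induction {P : ∀ {S T : Tree}, (free p).Hom S T → Prop}
    (old : ∀ {S T : Tree} (f : C.Hom S T), P ((unit p).map f))
    (lift : ∀ i, P (fLift p i))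
    (comp : ∀ {S T U : Tree} (a : (free p).Hom S T) (b : (free p).Hom T U),
      P a → P b → P ((free p).comp a b))
    (glue : ∀ {S T : Tree} (a : (free p).Hom S T),
      (∀ n c, P ((free p).comp ((free p).emb (Tree.cellGlob (S := S) (n := n) c)) a)) → P a)
    {S T : Tree} (a : (free p).Hom S T) : P a := by
  induction a using Quotient.inductionOn with | _ a => ?_
  obtain ⟨t, ht⟩ := a
  induction t with
  | old f => exact old f
  | lift i => exact lift i
  | comp a b iha ihb =>
    exact comp _ _
      (iha fun M => let ⟨_, y, _, hy, _⟩ := ht M; ⟨y, hy⟩)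
      (ihb fun M => let ⟨_, _, z, _, hz, _⟩ := ht M; ⟨z, hz⟩)
  | glue a ih =>
    refine glue _ fun n c => ?_
    have hv : Valid p (a n c) := fun M => let ⟨_, hx⟩ := ht M; ⟨_, hx n c⟩
    have e : (free p).comp ((free p).emb (Tree.cellGlob c)) (Quotient.mk _ ⟨_, ht⟩) =
        Quotient.mk _ ⟨a n c, hv⟩ := ext_value fun M => by
      show value M (fComp (fOld p (C.emb (Tree.cellGlob c))) (Quotient.mk _ ⟨_, ht⟩)) = _
      rw [value_comp, value_old, M.F.map_emb]
      exact (value_mk M ⟨a n c, hv⟩ (val_value M ⟨_, ht⟩ n c)).symm
    rw [e]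
    exact ih n c hv

/-- The free extension universally adjoins the lifts. -/
theorem universallyAdjoins : UniversallyAdjoins (unit p) p (fLift p) := by
  refine ⟨fun i => ⟨ext_value fun M => ?_, ext_value fun M => ?_⟩, fun E F k hk => ?_⟩
  · show value M (fComp (fOld p (C.emb (σG _))) (fLift p i)) = value M (fOld p (p i).f)
    rw [value_comp, value_old, value_old, value_lift, M.F.map_emb]
    exact (M.isLift i).1
  · show value M (fComp (fOld p (C.emb (τG _))) (fLift p i)) = value M (fOld p (p i).g)
    rw [value_comp, value_old, value_old, value_lift, M.F.map_emb]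
    exact (M.isLift i).2
  let M : Model p := ⟨E, F, k, hk⟩
  refine ⟨⟨value M, value_comp M, fun f => (value_old M _).trans (F.map_emb f)⟩,
    ⟨fun f => value_old M f, value_lift M⟩, fun G hG => ?_⟩
  refine ExtHom.ext ?_
  funext S T a
  show G.map a = value M a
  refine free_induction (P := fun b => G.map b = value M b) (fun f => ?_) (fun i => ?_)
    (fun b c hb hc => ?_) (fun b hb => ?_) a
  · exact (hG.1 f).trans (value_old M f).symm
  · exact (hG.2 i).trans (value_lift M i).symm
  · exact (G.map_comp b c).trans ((congrArg₂ E.comp hb hc).trans (value_comp M b c).symm)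
  · refine E.ext_cells fun n c => ?_
    have h := hb n c
    rw [G.map_comp, G.map_emb] at h
    exact h.trans ((value_comp M _ _).trans
      (congrArg (fun w => E.comp w _) ((value_old M _).trans (F.map_emb _))))

end Adjoin

end Vale.Agent.P259
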