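import Vale.Agent.P259.Ball

/-!
# Homotopy extension for closed balls, and extension of cells of path spaces
-/

noncomputable section

namespace Vale.Agent.P259

open scoped unitInterval
open Metric Set

/-- Extend a function defined on a set by a default value. -/
def extendFun {X Z : Type*} (s : Set X) (f : s → Z) (d : Z) : X → Z :=
  Function.extend Subtype.val f fun _ => d

theorem extendFun_apply {X Z : Type*} {s : Set X} (f : s → Z) (d : Z) {x : X} (hx : x ∈ s) :
    extendFun s f d x = f ⟨x, hx⟩ :=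
  Subtype.val_injective.extend_apply f _ ⟨x, hx⟩

theorem continuousOn_extendFun {X Z : Type*} [TopologicalSpace X] [TopologicalSpace Z]
    {s : Set X} (f : C(s, Z)) (d : Z) : ContinuousOn (extendFun s f d) s := by
  rw [continuousOn_iff_continuous_domRestrict]
  convert f.continuous using 1
  funext x
  exact extendFun_apply f d x.2

section HEP

variable {E : Type} [NormedAddCommGroup E] [NormedSpace ℝ E] {Y : Type} [TopologicalSpace Y]

/-- A homotopy on the sphere of a map on the ball extends to the ball. -/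
theorem exists_homotopy_extension (A : C(closedBall (0 : E) 1, Y))
    (h : C(sphere (0 : E) 1 × I, Y))
    (hA : ∀ x : sphere (0 : E) 1, h (x, 0) = A ⟨x, sphere_subset_closedBall x.2⟩) :
    ∃ H : C(closedBall (0 : E) 1 × I, Y), (∀ x, H (x, 0) = A x) ∧
      ∀ (x : closedBall (0 : E) 1) (t : I) (hx : ‖x.1‖ = 1),
        H (x, t) = h (⟨x.1, by simpa using hx⟩, t) := by
  classical
  set d : Y := A ⟨0, by simp⟩
  set S : Set (E × ℝ) := sphere (0 : E) 1 ×ˢ Icc (0 : ℝ) 1
  let h' : C(S, Y) := h.comp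
    ⟨fun p => (⟨p.1.1, p.2.1⟩, ⟨p.1.2, p.2.2⟩), by fun_prop⟩
  let a : E × ℝ → Y := fun p => extendFun _ A d ((1 - p.2 / 2)⁻¹ • p.1)
  let b : E × ℝ → Y := fun p =>
    extendFun _ h' d ((‖p.1‖)⁻¹ • p.1, 2 - (2 - p.2) / ‖p.1‖)
  let K : Set (E × ℝ) := closedBall (0 : E) 1 ×ˢ Icc (0 : ℝ) 1
  let F : closedBall (0 : E) 1 × I → E × ℝ := fun p => (p.1.1, p.2.1)
  have hF : Continuous F := by fun_prop
  have hcone : ∀ p : closedBall (0 : E) 1 × I, 0 < 1 - p.2.1 / 2 := fun p => by
    linarith [p.2.2.2]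
  have ha : ContinuousOn (fun p => a (F p)) {p | ‖p.1.1‖ ≤ 1 - p.2.1 / 2} := by
    refine (continuousOn_extendFun A d).comp ?_ ?_
    · refine (Continuous.continuousOn ?_)
      have : Continuous fun p : closedBall (0 : E) 1 × I => (1 - p.2.1 / 2)⁻¹ :=
        (by fun_prop : Continuous fun p : closedBall (0 : E) 1 × I => 1 - p.2.1 / 2).inv₀
          fun p => (hcone p).ne'
      exact this.smul (by fun_prop)
    · intro p hp
      rw [mem_closedBall_zero_iff, norm_smul, norm_inv, Real.norm_eq_abs,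
        abs_of_pos (hcone p), inv_mul_le_iff₀ (hcone p), mul_one]
      exact hp
  have hb : ContinuousOn (fun p => b (F p)) {p | 1 - p.2.1 / 2 ≤ ‖p.1.1‖} := by
    have hpos : ∀ p ∈ {p : closedBall (0 : E) 1 × I | 1 - p.2.1 / 2 ≤ ‖p.1.1‖},
        0 < ‖p.1.1‖ := fun p hp => lt_of_lt_of_le (hcone p) hp
    refine (continuousOn_extendFun h' d).comp ?_ ?_
    · refine ContinuousOn.prodMk ?_ ?_
      · exact (ContinuousOn.inv₀ (by fun_prop) fun p hp => (hpos p hp).ne').smul (by fun_prop)
      · exact continuousOn_const.sub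
          (ContinuousOn.div (by fun_prop) (by fun_prop) fun p hp => (hpos p hp).ne')
    · intro p hp
      have hn := hpos p hp
      refine ⟨?_, ?_, ?_⟩
      · rw [mem_sphere_zero_iff_norm, norm_smul, norm_inv, norm_norm, inv_mul_cancel₀ hn.ne']
      · have hp' : 1 - p.2.1 / 2 ≤ ‖p.1.1‖ := hp
        rw [sub_nonneg, div_le_iff₀ hn]
        dsimp only [F]
        linarith
      · have hx : ‖p.1.1‖ ≤ 1 := mem_closedBall_zero_iff.1 p.1.2
        rw [sub_le_iff_le_add, ← sub_le_iff_le_add', le_div_iff₀ hn]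
        dsimp only [F]
        linarith [p.2.2.2]
  refine ⟨⟨fun p => if ‖p.1.1‖ ≤ 1 - p.2.1 / 2 then a (F p) else b (F p),
    continuous_if_le (by fun_prop) (by fun_prop) ha hb ?_⟩, ?_, ?_⟩
  · intro p hp
    have hn : 0 < ‖p.1.1‖ := hp ▸ hcone p
    have h1 : (2 : ℝ) - (2 - p.2.1) / ‖p.1.1‖ = 0 := by
      rw [sub_eq_zero, eq_div_iff hn.ne']; linarith
    have hs : ‖p.1.1‖⁻¹ • p.1.1 ∈ sphere (0 : E) 1 := by
      rw [mem_sphere_zero_iff_norm, norm_smul, norm_inv, norm_norm, inv_mul_cancel₀ hn.ne']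
    simp only [a, b, F, h1, ← hp]
    rw [extendFun_apply (s := closedBall (0 : E) 1) A d (sphere_subset_closedBall hs),
      extendFun_apply (s := S) h' d ⟨hs, by norm_num⟩]
    exact (hA ⟨_, hs⟩).symm
  · intro x
    have hx : ‖x.1‖ ≤ 1 := mem_closedBall_zero_iff.1 x.2
    simp only [ContinuousMap.coe_mk, Icc.coe_zero, zero_div, sub_zero, if_pos hx, a, F, inv_one,
      one_smul]
    exact extendFun_apply (s := closedBall (0 : E) 1) A d x.2
  · intro x t hx
    simp only [ContinuousMap.coe_mk, hx]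
    have hs : x.1 ∈ sphere (0 : E) 1 := by simpa using hx
    by_cases ht : (1 : ℝ) ≤ 1 - t.1 / 2
    · have ht0 : t = 0 := Subtype.ext (by have := t.2.1; simp only [Icc.coe_zero]; linarith)
      subst ht0
      simp only [a, F, Icc.coe_zero, zero_div, sub_zero, inv_one, one_smul, le_refl, if_true]
      rw [extendFun_apply (s := closedBall (0 : E) 1) A d x.2]
      exact (hA ⟨_, hs⟩).symm
    · simp only [if_neg ht, b, F, hx, inv_one, one_smul, div_one, sub_sub_cancel]
      exact extendFun_apply (s := S) h' d ⟨hs, t.2⟩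

end HEP

namespace GlobSet

/-- Parallel cells. -/
def Par (X : GlobSet) : {n : ℕ} → X.cell n → X.cell n → Prop
  | 0, _, _ => True
  | n + 1, a, b => X.s n a = X.s n b ∧ X.t n a = X.t n b

/-- There is a cell from `a` to `b`. -/
def Rel (X : GlobSet) (n : ℕ) (a b : X.cell n) : Prop :=
  ∃ c : X.cell (n + 1), X.s n c = a ∧ X.t n c = b

theorem Rel.par {X : GlobSet} : ∀ {n : ℕ} {a b : X.cell n}, X.Rel n a b → X.Par a b
  | 0, _, _, _ => True.intro
  | n + 1, _, _, ⟨c, h₁, h₂⟩ => ⟨by rw [← h₁, ← h₂]; exact X.ss n c,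
      by rw [← h₁, ← h₂]; exact X.tt n c⟩

theorem par_refl (X : GlobSet) : ∀ {n : ℕ} (a : X.cell n), X.Par a a
  | 0, _ => True.intro
  | _ + 1, _ => ⟨rfl, rfl⟩

theorem par_map {X Y : GlobSet} (f : GlobMap X Y) :
    ∀ {n : ℕ} {a b : X.cell n}, X.Par a b → Y.Par (f.app n a) (f.app n b)
  | 0, _, _, _ => True.intro
  | n + 1, _, _, ⟨h₁, h₂⟩ => ⟨by rw [f.comm_s, f.comm_s, h₁], by rw [f.comm_t, f.comm_t, h₂]⟩

theorem Rel.map {X Y : GlobSet} (f : GlobMap X Y) {n : ℕ} {a b : X.cell n} (h : X.Rel n a b) :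
    Y.Rel n (f.app n a) (f.app n b) := by
  obtain ⟨c, h₁, h₂⟩ := h
  exact ⟨f.app _ c, by rw [f.comm_s, h₁], by rw [f.comm_t, h₂]⟩

end GlobSet

variable {Y : Type} [TopologicalSpace Y] {n : ℕ}

/-- Parallel discs agree on the sphere. -/
theorem discs_par_eq {a b : C(Ball n, Y)} (h : (discs Y).Par a b) {x : Ball n}
    (hx : ‖x.1‖ = 1) : a x = b x := by
  cases n with
  | zero =>
    rw [Subsingleton.elim x.1 0, norm_zero] at hx
    exact absurd hx (by norm_num)
  | succ m =>
    obtain ⟨h₁, h₂⟩ : a.comp hemS = b.comp hemS ∧ a.comp hemT = b.comp hemT := h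
    rcases le_total (Eu.last x.1) 0 with hl | hl
    · rw [(eq_hem_of_norm_eq_one hx).1 hl]; exact DFunLike.congr_fun h₁ _
    · rw [(eq_hem_of_norm_eq_one hx).2 hl]; exact DFunLike.congr_fun h₂ _

/-- Discs that agree on the sphere have the same source and target. -/
theorem discs_bdry_eq {a b : C(Ball (n + 1), Y)}
    (h : ∀ x : Ball (n + 1), ‖x.1‖ = 1 → a x = b x) :
    a.comp hemS = b.comp hemS ∧ a.comp hemT = b.comp hemT :=
  ⟨ContinuousMap.ext fun x => h _ (norm_hemS x), ContinuousMap.ext fun x => h _ (norm_hemT x)⟩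

/-- Glue two parallel discs to a map on the sphere. -/
def glueSphere (a b : C(Ball n, Y)) (h : (discs Y).Par a b) :
    C(sphere (0 : Eu (n + 1)) 1, Y) where
  toFun z := if Eu.last z.1 ≤ 0 then a (proj ⟨z.1, sphere_subset_closedBall z.2⟩)
    else b (proj ⟨z.1, sphere_subset_closedBall z.2⟩)
  continuous_toFun := by
    refine continuous_if_le (by fun_prop) continuous_const (Continuous.continuousOn ?_)
      (Continuous.continuousOn ?_) ?_
    · exact a.continuous.comp (proj.continuous.comp (by fun_prop))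
    · exact b.continuous.comp (proj.continuous.comp (by fun_prop))
    · intro z hz
      refine discs_par_eq h ?_
      have h1 : ‖z.1‖ = 1 := mem_sphere_zero_iff_norm.1 z.2
      have h2 := Eu.norm_sq z.1
      rw [h1, hz] at h2
      show ‖Eu.init z.1‖ = 1
      nlinarith [norm_nonneg (Eu.init z.1)]

theorem glueSphere_hemS (a b : C(Ball n, Y)) (h : (discs Y).Par a b) (x : Ball n) :
    glueSphere a b h ⟨(hemS x).1, by simp [norm_hemS x]⟩ = a x := by
  have hl : Eu.last (hemS x).1 ≤ 0 := by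
    rw [hemS_val, Eu.last_snoc]; exact neg_nonpos.2 (width_nonneg _)
  simp only [glueSphere, ContinuousMap.coe_mk, if_pos hl]
  exact congrArg a (proj_hemS x)

theorem glueSphere_hemT (a b : C(Ball n, Y)) (h : (discs Y).Par a b) (x : Ball n) :
    glueSphere a b h ⟨(hemT x).1, by simp [norm_hemT x]⟩ = b x := by
  simp only [glueSphere, ContinuousMap.coe_mk]
  split_ifs with hl
  · have hw : width x.1 = 0 := le_antisymm (by
      rw [hemT_val, Eu.last_snoc] at hl; exact hl) (width_nonneg _)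
    have hx : ‖x.1‖ = 1 := by
      have := width_sq (norm_ball_le x)
      rw [hw] at this
      nlinarith [norm_nonneg x.1, norm_ball_le x]
    exact (congrArg a (proj_hemT x)).trans (discs_par_eq h hx)
  · exact congrArg b (proj_hemT x)

/-- Evaluation at a time. -/
def evI (t : I) : C(C(I, Y), Y) := ⟨fun p => p t, by fun_prop⟩

/-- Extend a boundary homotopy and a filler of its initial end. -/
theorem exists_extend₀ (A B : C(Ball n, C(I, Y))) (h : (discs C(I, Y)).Par A B)
    (w : C(Ball (n + 1), Y)) (hs : w.comp hemS = (evI 0).comp A)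
    (ht : w.comp hemT = (evI 0).comp B) :
    ∃ M : C(Ball (n + 1), C(I, Y)), M.comp hemS = A ∧ M.comp hemT = B ∧
      (evI 0).comp M = w := by
  have hw : ∀ z : sphere (0 : Eu (n + 1)) 1,
      glueSphere A B h z 0 = w ⟨z.1, sphere_subset_closedBall z.2⟩ := by
    intro z
    have h1 : ‖(⟨z.1, sphere_subset_closedBall z.2⟩ : Ball (n + 1)).1‖ = 1 :=
      mem_sphere_zero_iff_norm.1 z.2
    simp only [glueSphere, ContinuousMap.coe_mk]
    split_ifs with hl
    · exact ((DFunLike.congr_fun hs _).symm).trans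
        (congrArg w ((eq_hem_of_norm_eq_one h1).1 hl).symm)
    · exact ((DFunLike.congr_fun ht _).symm).trans
        (congrArg w ((eq_hem_of_norm_eq_one h1).2 (le_of_not_ge hl)).symm)
  obtain ⟨H, h0, h1⟩ := exists_homotopy_extension w
    (ContinuousMap.uncurry (glueSphere A B h)) hw
  refine ⟨H.curry, ?_, ?_, ?_⟩
  · ext x t
    exact (h1 (hemS x) t (norm_hemS x)).trans
      (congrArg (fun p : C(I, Y) => p t) (glueSphere_hemS A B h x))
  · ext x t
    exact (h1 (hemT x) t (norm_hemT x)).trans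
      (congrArg (fun p : C(I, Y) => p t) (glueSphere_hemT A B h x))
  · ext x
    exact h0 x

/-- Reversal of paths. -/
def revI : C(C(I, Y), C(I, Y)) :=
  ⟨fun p => p.comp ⟨unitInterval.symm, unitInterval.continuous_symm⟩, ContinuousMap.continuous_precomp _⟩

theorem revI_revI (p : C(I, Y)) : revI (revI p) = p := by
  ext t; simp [revI]

/-- Extend a boundary homotopy and a filler of its final end. -/
theorem exists_extend₁ (A B : C(Ball n, C(I, Y))) (h : (discs C(I, Y)).Par A B)
    (w : C(Ball (n + 1), Y)) (hs : w.comp hemS = (evI 1).comp A)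
    (ht : w.comp hemT = (evI 1).comp B) :
    ∃ M : C(Ball (n + 1), C(I, Y)), M.comp hemS = A ∧ M.comp hemT = B ∧
      (evI 1).comp M = w := by
  have he : (evI 0).comp (revI (Y := Y)) = evI 1 := by ext p; simp [evI, revI]
  obtain ⟨M, h₁, h₂, h₃⟩ := exists_extend₀ (revI.comp A) (revI.comp B)
    (GlobSet.par_map (discsMap revI) h) w
    (by rw [← ContinuousMap.comp_assoc, he, hs]) (by rw [← ContinuousMap.comp_assoc, he, ht])
  have he' : (evI 1).comp (revI (Y := Y)) = evI 0 := by ext p; simp [evI, revI]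
  refine ⟨revI.comp M, ?_, ?_, ?_⟩
  · rw [ContinuousMap.comp_assoc, h₁]; ext x t; simp [revI]
  · rw [ContinuousMap.comp_assoc, h₂]; ext x t; simp [revI]
  · rw [← ContinuousMap.comp_assoc, he', h₃]

/-- Homotopic discs: related discs are homotopic relative to the sphere. -/
theorem exists_homotopy_of_rel {a b : C(Ball n, Y)} (R : (discs Y).Rel n a b) :
    ∃ G : C(Ball n × I, Y), (∀ x, G (x, 0) = a x) ∧ (∀ x, G (x, 1) = b x) ∧
      ∀ (x : Ball n), ‖x.1‖ = 1 → ∀ t, G (x, t) = a x := by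
  obtain ⟨R0, hR₀, hR₁⟩ := R
  let R : C(Ball (n + 1), Y) := R0
  have hR₀' : R.comp hemS = a := hR₀
  have hR₁' : R.comp hemT = b := hR₁
  have hb : ∀ p : Ball n × I, |2 * p.2.1 - 1| ≤ 1 := fun p =>
    abs_le.2 ⟨by linarith [p.2.2.1], by linarith [p.2.2.2]⟩
  refine ⟨R.comp ⟨fun p => column p.1 (2 * p.2.1 - 1) (hb p), ?_⟩, fun x => ?_, fun x => ?_,
    fun x hx t => ?_⟩
  · simp only [column]; fun_prop
  · rw [← hR₀']
    exact congrArg R (Subtype.ext (by simp [column, hemS_val]))
  · rw [← hR₁']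
    exact congrArg R (Subtype.ext (by norm_num [column, hemT_val]))
  · rw [← hR₀']
    exact congrArg R (Subtype.ext (by simp [column, hemS_val, width_eq_zero hx]))

/-- The sphere of `Eu n × ℝ` is covered by the bottom and the rest. -/
theorem box_sphere_cases (z : sphere (0 : Eu n × ℝ) 1) :
    z.1.2 = -1 ∨ ‖z.1.1‖ = 1 ∨ z.1.2 = 1 := by
  have hz : max ‖z.1.1‖ ‖z.1.2‖ = 1 := by
    rw [← Prod.norm_def]; exact mem_sphere_zero_iff_norm.1 z.2
  rcases max_choice ‖z.1.1‖ ‖z.1.2‖ with h | h <;> rw [h] at hz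
  · exact Or.inr (Or.inl hz)
  · rcases abs_choice z.1.2 with h' | h' <;> rw [Real.norm_eq_abs, h'] at hz
    · exact Or.inr (Or.inr hz)
    · exact Or.inl (by linarith)

/-- The horizontal coordinate of the box. -/
def boxBase : C(closedBall (0 : Eu n × ℝ) 1, Ball n) :=
  ⟨fun z => ⟨z.1.1, mem_closedBall_zero_iff.2
    ((norm_fst_le z.1).trans (mem_closedBall_zero_iff.1 z.2))⟩, by fun_prop⟩

/-- The vertical coordinate of the box. -/
def boxTime : C(closedBall (0 : Eu n × ℝ) 1, I) :=
  ⟨fun z => ⟨(z.1.2 + 1) / 2, by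
    have := abs_le.1 ((norm_snd_le z.1).trans (mem_closedBall_zero_iff.1 z.2))
    exact ⟨by linarith [this.1], by linarith [this.2]⟩⟩, by fun_prop⟩

/-- The box coordinates of a point of `Ball n × I`. -/
def boxPoint : C(Ball n × I, closedBall (0 : Eu n × ℝ) 1) :=
  ⟨fun p => ⟨(p.1.1, 2 * p.2.1 - 1), by
    rw [mem_closedBall_zero_iff, Prod.norm_def, max_le_iff, Real.norm_eq_abs, abs_le]
    exact ⟨norm_ball_le p.1, by linarith [p.2.2.1], by linarith [p.2.2.2]⟩⟩, by fun_prop⟩

@[simp] theorem boxBase_boxPoint (p : Ball n × I) : boxBase (boxPoint p) = p.1 := rfl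

@[simp] theorem boxTime_boxPoint (p : Ball n × I) : boxTime (boxPoint p) = p.2 :=
  Subtype.ext (by simp [boxTime, boxPoint])

/-- A homotopy of the initial end of a cell of paths extends to the cell, fixing the final end
and the boundary. -/
theorem exists_slide (A : C(Ball n, C(I, Y))) (G : C(Ball n × I, Y))
    (hG0 : ∀ x, G (x, 0) = A x 0) (hGb : ∀ x : Ball n, ‖x.1‖ = 1 → ∀ t, G (x, t) = A x 0) :
    ∃ H : C(Ball n × I, C(I, Y)), (∀ x, H (x, 0) = A x) ∧ (∀ q, H q 0 = G q) ∧
      (∀ x s, H (x, s) 1 = A x 1) ∧ ∀ x : Ball n, ‖x.1‖ = 1 → ∀ s, H (x, s) = A x := by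
  obtain ⟨Abar, hAbar⟩ : ∃ Abar : C(closedBall (0 : Eu n × ℝ) 1, Y),
      ∀ z, Abar z = A (boxBase z) (boxTime z) :=
    ⟨(ContinuousMap.uncurry A).comp (boxBase.prodMk boxTime), fun _ => rfl⟩
  let inc : C(sphere (0 : Eu n × ℝ) 1, closedBall (0 : Eu n × ℝ) 1) :=
    ⟨fun z => ⟨z.1, sphere_subset_closedBall z.2⟩, by fun_prop⟩
  let hfun : sphere (0 : Eu n × ℝ) 1 × I → Y := fun p =>
    if p.1.1.2 = -1 then G (boxBase (inc p.1), p.2) else Abar (inc p.1)
  have hedge : ∀ (z : sphere (0 : Eu n × ℝ) 1) (t : I), z.1.2 = -1 →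
      (‖z.1.1‖ = 1 ∨ t = 0) → G (boxBase (inc z), t) = Abar (inc z) := by
    intro z t hz h
    have h0 : boxTime (inc z) = 0 := Subtype.ext (by simp [boxTime, inc, hz])
    have hA : Abar (inc z) = A (boxBase (inc z)) 0 := by rw [hAbar, h0]
    rcases h with h | h
    · rw [hA, hGb (boxBase (inc z)) h]
    · rw [hA, h, hG0]
  have hcont : Continuous hfun := by
    have hcov : ∀ p : sphere (0 : Eu n × ℝ) 1 × I,
        p ∈ {p : sphere (0 : Eu n × ℝ) 1 × I | p.1.1.2 = -1} ∪
          {p | ‖p.1.1.1‖ = 1 ∨ p.1.1.2 = 1} := fun p => box_sphere_cases p.1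
    rw [← continuousOn_univ]
    refine (ContinuousOn.union_of_isClosed ?_ ?_ (isClosed_eq (by fun_prop) continuous_const)
      ((isClosed_eq (by fun_prop) continuous_const).union
        (isClosed_eq (by fun_prop) continuous_const))).mono fun p _ => hcov p
    · refine ((G.continuous.comp (by fun_prop :
        Continuous fun p : sphere (0 : Eu n × ℝ) 1 × I =>
          (boxBase (inc p.1), p.2))).continuousOn).congr ?_
      exact fun p hp => if_pos hp
    · refine ((Abar.continuous.comp (by fun_prop :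
        Continuous fun p : sphere (0 : Eu n × ℝ) 1 × I => inc p.1)).continuousOn).congr ?_
      intro p hp
      show hfun p = Abar (inc p.1)
      by_cases h : p.1.1.2 = -1
      · rcases hp with hp | hp
        · simp only [hfun, if_pos h]
          exact hedge _ _ h (Or.inl hp)
        · exact absurd (h ▸ hp : (-1 : ℝ) = 1) (by norm_num)
      · exact if_neg h
  obtain ⟨H, h0, h1⟩ := exists_homotopy_extension Abar ⟨hfun, hcont⟩ (fun z => by
    show hfun (z, 0) = Abar (inc z)
    by_cases h : z.1.2 = -1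
    · simp only [hfun, if_pos h]
      exact hedge _ _ h (Or.inr rfl)
    · exact if_neg h)
  have key : ∀ (x : Ball n) (t s : I) (_ : ‖(boxPoint (x, t)).1‖ = 1),
      H (boxPoint (x, t), s) =
        if 2 * t.1 - 1 = -1 then G (x, s) else A x t := by
    intro x t s hn
    rw [h1 _ s hn]
    show (if (boxPoint (x, t)).1.2 = -1 then G (boxBase (boxPoint (x, t)), s)
      else Abar (boxPoint (x, t))) = _
    rw [hAbar, boxBase_boxPoint, boxTime_boxPoint]
    rfl
  have hnorm : ∀ (x : Ball n) (t : I), (‖x.1‖ = 1 ∨ t = 0 ∨ t = 1) →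
      ‖(boxPoint (x, t)).1‖ = 1 := by
    intro x t h
    refine le_antisymm (mem_closedBall_zero_iff.1 (boxPoint (x, t)).2) ?_
    rw [Prod.norm_def]
    rcases h with h | h | h
    · exact h.ge.trans (le_max_left _ _)
    · exact le_max_of_le_right (by simp [boxPoint, h])
    · exact le_max_of_le_right (by norm_num [boxPoint, h])
  refine ⟨(H.comp ⟨fun q : (Ball n × I) × I => (boxPoint (q.1.1, q.2), q.1.2), by fun_prop⟩).curry,
    fun x => ?_, fun q => ?_, fun x s => ?_, fun x hx s => ?_⟩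
  · ext t
    show H (boxPoint (x, t), 0) = A x t
    rw [h0, hAbar, boxBase_boxPoint, boxTime_boxPoint]
  · obtain ⟨x, s⟩ := q
    show H (boxPoint (x, 0), s) = G (x, s)
    rw [key x 0 s (hnorm x 0 (Or.inr (Or.inl rfl))), if_pos (by simp)]
  · show H (boxPoint (x, 1), s) = A x 1
    rw [key x 1 s (hnorm x 1 (Or.inr (Or.inr rfl))), if_neg (by norm_num)]
  · ext t
    show H (boxPoint (x, t), s) = A x t
    rw [key x t s (hnorm x t (Or.inl hx))]
    split_ifs with h
    · have ht : t = 0 := Subtype.ext (by simp only [Icc.coe_zero]; linarith)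
      rw [hGb x hx s, ht]
    · rfl

/-- Replace the initial end of a cell of paths by a homotopic one. -/
theorem exists_swap₀ (A : C(Ball n, C(I, Y))) (w : C(Ball n, Y))
    (R : (discs Y).Rel n ((evI 0).comp A) w) :
    ∃ A' : C(Ball n, C(I, Y)), (∀ x : Ball n, ‖x.1‖ = 1 → A' x = A x) ∧
      (evI 0).comp A' = w ∧ (evI 1).comp A' = (evI 1).comp A := by
  obtain ⟨G, hG0, hG1, hGb⟩ := exists_homotopy_of_rel R
  obtain ⟨H, h0, hst, hend, hb⟩ := exists_slide A G hG0 hGb
  refine ⟨H.comp ⟨fun x => (x, 1), by fun_prop⟩, fun x hx => hb x hx 1,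
    ContinuousMap.ext fun x => (hst (x, 1)).trans (hG1 x), ContinuousMap.ext fun x => hend x 1⟩

end Vale.Agent.P259
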