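import Vale.Agent.P259.Strings
import Mathlib.CategoryTheory.Comma.StructuredArrow.Basic

/-!
# Gluing a string to a string of structured arrows over its last object
-/

noncomputable section

namespace Vale.Agent.P259

open CategoryTheory

section Arrows

variable {C : Type} [Category.{0} C]

theorem arrow_comp_eq {X Y Z X' Y' Z' : C} {f : X ⟶ Y} {g : Y ⟶ Z} {f' : X' ⟶ Y'} {g' : Y' ⟶ Z'}
    (hf : Arrow.mk f = Arrow.mk f') (hg : Arrow.mk g = Arrow.mk g') :
    Arrow.mk (f ≫ g) = Arrow.mk (f' ≫ g') := by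
  obtain ⟨hx, hy, h⟩ := (Arrow.mk_eq_mk_iff _ _).1 hf
  obtain ⟨hy', hz, h'⟩ := (Arrow.mk_eq_mk_iff _ _).1 hg
  subst hx; subst hy; subst hz
  simp only [eqToHom_refl, Category.id_comp, Category.comp_id] at h h'
  rw [h, h']

theorem arrow_eqToHom_conj {X X' Y Y' : C} (h : X' = X) (f : X ⟶ Y) (h' : Y = Y') :
    Arrow.mk (eqToHom h ≫ f ≫ eqToHom h') = Arrow.mk f := by
  subst h; subst h'; simp

theorem arrow_eqToHom_comp' {X X' Y : C} (h : X' = X) (f : X ⟶ Y) :
    Arrow.mk (eqToHom h ≫ f) = Arrow.mk f := by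
  subst h; simp

theorem arrow_comp_id_left {X Y Z c : C} {f : X ⟶ Y} (g : Y ⟶ Z)
    (hf : Arrow.mk f = Arrow.mk (𝟙 c)) : Arrow.mk (f ≫ g) = Arrow.mk g := by
  obtain ⟨hx, hy, h⟩ := (Arrow.mk_eq_mk_iff _ _).1 hf
  subst hx; subst hy
  simp only [eqToHom_refl, Category.id_comp] at h
  rw [h, Category.id_comp]

theorem arrow_id_congr {X Y : C} (h : X = Y) : Arrow.mk (𝟙 X) = Arrow.mk (𝟙 Y) := by rw [h]

end Arrows

namespace Str

variable {C D : Type} [Category.{0} C] [Category.{0} D]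

theorem arr_comp (p : Str C) {a b c : p.A} (h : a ≤ b) (h' : b ≤ c) :
    Arrow.mk (p.hom h ≫ p.hom h') = p.arr (h.trans h') := by
  rw [← p.hom_comp]; rfl

theorem arr_self (p : Str C) {a : p.A} (h : a ≤ a) : p.arr h = Arrow.mk (𝟙 (p.obj a)) := by
  rw [arr, p.hom_id]

/-- A step of a staircase, without the marks. -/
def stair (M : ℤ) (p : Str C) (k l : ℤ) (hM : 1 ≤ M) (hkl : k ≤ l) (hl : l ≤ k + 1) : Str C :=
  (stairPre M p k l hM hkl hl).map (CategoryTheory.Prod.snd (Fin 2) C)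

theorem stair_mono {M : ℤ} {p q : Str C} (hpq : p ≤ q) {k l k' l' : ℤ} (hM : 1 ≤ M)
    (hkl : k ≤ l) (hl : l ≤ k + 1) (hkl' : k' ≤ l') (hl' : l' ≤ k' + 1) (hk : k' ≤ k)
    (hll : l ≤ l') : stair M p k l hM hkl hl ≤ stair M q k' l' hM hkl' hl' :=
  map_mono _ (stairPre_mono hpq hM hkl hl hkl' hl' hk hll)

theorem le_stair_top {M : ℤ} (hM : 1 ≤ M) (p : Str C) {k : ℤ} (hk : ∀ a ∈ p.A, a < k) :
    p ≤ stair M p k k hM le_rfl (by omega) :=
  ⟨fun a ha => mem_stairSet.2 (Or.inl ⟨ha, hk a ha⟩), fun a b hab =>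
    p.arr_congr (Subtype.ext (by simp [hk a.1 a.2])) (Subtype.ext (by simp [hk b.1 b.2]))⟩

theorem shift_le_stair_bot {M : ℤ} (hM : 1 ≤ M) (p : Str C) {k : ℤ} (hk : ∀ a ∈ p.A, k ≤ a) :
    p.shift M ≤ stair M p k k hM le_rfl (by omega) := by
  have hk' : ∀ a ∈ p.A.image (· + M), ¬ a < k := fun a ha => by
    obtain ⟨b, hb, rfl⟩ := Finset.mem_image.1 ha
    have := hk b hb
    omega
  refine ⟨fun a ha => ?_, fun a b hab => ?_⟩
  · obtain ⟨b, hb, hba⟩ := Finset.mem_image.1 (ha : a ∈ p.A.image (· + M))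
    exact mem_stairSet.2 (Or.inr ⟨by rw [← hba]; simpa using hb,
      by have := hk b hb; omega⟩)
  exact p.arr_congr (Subtype.ext (by simp [hk' a.1 a.2])) (Subtype.ext (by simp [hk' b.1 b.2]))

/-! ### Gluing -/

variable (F : D ⥤ C) (p : Str C) (e : Str (StructuredArrow p.last F))

/-- The objects of the glued string. -/
def gobj : p.A ⊕ e.A → C := Sum.elim p.obj fun b => F.obj (e.obj b).right

/-- The order of the indices of the glued string. -/
def GRel : p.A ⊕ e.A → p.A ⊕ e.A → Prop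
  | .inl a, .inl b => a ≤ b
  | .inl _, .inr _ => True
  | .inr _, .inl _ => False
  | .inr a, .inr b => a ≤ b

/-- The arrows of the glued string. -/
def ghom : ∀ x y, GRel F p e x y → (gobj F p e x ⟶ gobj F p e y)
  | .inl _, .inl _, h => p.hom h
  | .inl a, .inr b, _ => p.hom (p.le_hi a) ≫ (e.obj b).hom
  | .inr _, .inl _, h => h.elim
  | .inr _, .inr _, h => F.map (e.hom h).right

theorem ghom_congr {x y x' y' : p.A ⊕ e.A} (hx : x = x') (hy : y = y') (r : GRel F p e x y)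
    (r' : GRel F p e x' y') :
    Arrow.mk (ghom F p e x y r) = Arrow.mk (ghom F p e x' y' r') := by
  subst hx; subst hy; rfl

theorem ghom_id : ∀ x (r : GRel F p e x x), ghom F p e x x r = 𝟙 _
  | .inl a, r => p.hom_id a r
  | .inr a, r => by
    exact (congrArg (fun f : e.obj a ⟶ e.obj a => F.map f.right) (e.hom_id a r)).trans (F.map_id _)

theorem ghom_comp : ∀ x y z (r : GRel F p e x y) (r' : GRel F p e y z) (r'' : GRel F p e x z),
    ghom F p e x z r'' = ghom F p e x y r ≫ ghom F p e y z r'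
  | .inl _, .inl _, .inl _, r, r', _ => p.hom_comp r r'
  | .inl a, .inl b, .inr c, r, _, _ => by
    have r' : a ≤ b := r
    exact (congrArg (· ≫ (e.obj c).hom) (p.hom_comp r' (p.le_hi b))).trans
      (Category.assoc _ _ _)
  | .inl a, .inr b, .inr c, _, r', _ => by
    exact (congrArg (p.hom (p.le_hi a) ≫ ·) (StructuredArrow.w (e.hom r')).symm).trans
      (Category.assoc _ _ _).symm
  | .inr a, .inr b, .inr c, r, r', _ => by
    exact (congrArg (fun f : e.obj a ⟶ e.obj c => F.map f.right) (e.hom_comp r r')).trans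
      (F.map_comp _ _)
  | .inr _, .inl _, _, r, _, _ => r.elim
  | _, .inr _, .inl _, _, r', _ => r'.elim

/-- The classification of an index of the glued string. -/
def cls (a : ↥(p.A ∪ e.A)) : p.A ⊕ e.A :=
  if h : a.1 ∈ e.A then .inr ⟨a.1, h⟩ else .inl ⟨a.1, (Finset.mem_union.1 a.2).resolve_right h⟩

/-- The underlying integer. -/
def idx : p.A ⊕ e.A → ℤ := Sum.elim (fun a => a.1) fun b => b.1

theorem idx_cls (a : ↥(p.A ∪ e.A)) : idx F p e (cls F p e a) = a.1 := by
  unfold cls; split_ifs <;> rfl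

theorem cls_right {a : ↥(p.A ∪ e.A)} (h : a.1 ∈ e.A) : cls F p e a = .inr ⟨a.1, h⟩ := dif_pos h

theorem cls_left {a : ↥(p.A ∪ e.A)} (h : ¬ a.1 ∈ e.A) :
    cls F p e a = .inl ⟨a.1, (Finset.mem_union.1 a.2).resolve_right h⟩ := dif_neg h

variable (hge : ∀ a ∈ e.A, p.hi.1 ≤ a)

include hge in
theorem cls_rel {a b : ↥(p.A ∪ e.A)} (h : a ≤ b) :
    GRel F p e (cls F p e a) (cls F p e b) := by
  by_cases ha : a.1 ∈ e.A
  · by_cases hb : b.1 ∈ e.A
    · rw [cls_right F p e ha, cls_right F p e hb]; exact h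
    · refine absurd ?_ hb
      have h1 : p.hi.1 ≤ a.1 := hge _ ha
      have h2 : b.1 ≤ p.hi.1 := p.le_hi ⟨b.1, (Finset.mem_union.1 b.2).resolve_right hb⟩
      have h3 : a.1 ≤ b.1 := h
      rwa [show b.1 = a.1 by omega]
  · by_cases hb : b.1 ∈ e.A
    · rw [cls_left F p e ha, cls_right F p e hb]; exact True.intro
    · rw [cls_left F p e ha, cls_left F p e hb]; exact h

/-- The glued string. -/
def glue : Str C where
  A := p.A ∪ e.A
  nonempty := p.nonempty.mono Finset.subset_union_left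
  obj a := gobj F p e (cls F p e a)
  hom {_ _} h := ghom F p e _ _ (cls_rel F p e hge h)
  hom_id _ _ := ghom_id F p e _ _
  hom_comp _ _ := ghom_comp F p e _ _ _ _ _ _

variable {F p e}

theorem glue_arr {a b : (glue F p e hge).A} (h : a ≤ b) {x y : p.A ⊕ e.A}
    (hx : cls F p e a = x) (hy : cls F p e b = y) (r : GRel F p e x y) :
    (glue F p e hge).arr h = Arrow.mk (ghom F p e x y r) :=
  ghom_congr F p e hx hy _ r

/-- The universal property of the glued string. -/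
theorem glue_le {q : Str C} (hp : p ≤ q) (he : e.map (StructuredArrow.proj p.last F ⋙ F) ≤ q)
    (hg : ∀ b : e.A, Arrow.mk (e.obj b).hom =
      q.arr (a := ⟨p.hi.1, le_subset hp p.hi.2⟩) (b := ⟨b.1, le_subset he b.2⟩) (hge b.1 b.2)) :
    glue F p e hge ≤ q := by
  have hs : ∀ x, idx F p e x ∈ q.A := fun x => by
    rcases x with a | b
    · exact le_subset hp a.2
    · exact le_subset he b.2
  have key : ∀ x y (r : GRel F p e x y) (h : idx F p e x ≤ idx F p e y),
      Arrow.mk (ghom F p e x y r) = q.arr (a := ⟨_, hs x⟩) (b := ⟨_, hs y⟩) h := by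
    rintro (a | a) (b | b) r h
    · exact hp.2 a b r
    · exact (arrow_comp_eq (hp.2 a p.hi (p.le_hi a)) (hg b)).trans (q.arr_comp _ _)
    · exact r.elim
    · exact he.2 a b r
  refine ⟨Finset.union_subset (le_subset hp) (le_subset he), fun a b hab => ?_⟩
  exact (key _ _ (cls_rel F p e hge hab)
    (le_of_eq_of_le (idx_cls F p e a) (le_of_le_of_eq hab (idx_cls F p e b).symm))).trans
    (q.arr_congr (Subtype.ext (idx_cls F p e a)) (Subtype.ext (idx_cls F p e b)))

variable (hat : ∀ b : e.A, b.1 = p.hi.1 → Arrow.mk (e.obj b).hom = Arrow.mk (𝟙 p.last))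

include hat in
theorem le_glue : p ≤ glue F p e hge := by
  refine ⟨Finset.subset_union_left, fun a b hab => ?_⟩
  by_cases ha : a.1 ∈ e.A
  · have h1 : p.hi.1 ≤ a.1 := hge _ ha
    have h2 : a.1 ≤ b.1 := hab
    have h3 : b.1 ≤ p.hi.1 := p.le_hi b
    obtain rfl : a = p.hi := Subtype.ext (by have := p.le_hi a; omega)
    obtain rfl : b = p.hi := Subtype.ext (by omega)
    refine Eq.trans ?_ (glue_arr (F := F) (a := ⟨p.hi.1, _⟩) (b := ⟨p.hi.1, _⟩) hge hab
      (cls_right F p e (a := ⟨p.hi.1, _⟩) ha) (cls_right F p e (a := ⟨p.hi.1, _⟩) ha)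
      (show (⟨p.hi.1, ha⟩ : e.A) ≤ ⟨p.hi.1, ha⟩ from le_rfl)).symm
    refine (p.arr_self hab).trans (Eq.trans ?_
      (congrArg Arrow.mk (Str.ghom_id F p e (.inr ⟨p.hi.1, ha⟩) _)).symm)
    exact arrow_id_congr (congrArg (fun f : Arrow C => f.right) (hat ⟨_, ha⟩ rfl)).symm
  · by_cases hb : b.1 ∈ e.A
    · have hb' : b = p.hi := Subtype.ext (le_antisymm (p.le_hi b) (hge _ hb))
      subst hb'
      refine Eq.trans ?_ (glue_arr (F := F) (a := ⟨a.1, _⟩) (b := ⟨p.hi.1, _⟩) hge hab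
        (cls_left F p e (a := ⟨a.1, _⟩) ha) (cls_right F p e (a := ⟨p.hi.1, _⟩) hb)
        True.intro).symm
      refine Eq.symm ((arrow_comp_eq rfl ?_).trans (congrArg Arrow.mk (Category.comp_id (p.hom hab))))
      exact hat ⟨_, hb⟩ rfl
    · exact (glue_arr (F := F) (a := ⟨a.1, Finset.mem_union_left _ a.2⟩)
        (b := ⟨b.1, Finset.mem_union_left _ b.2⟩) hge hab
        (cls_left F p e (a := ⟨a.1, Finset.mem_union_left _ a.2⟩) ha)
        (cls_left F p e (a := ⟨b.1, Finset.mem_union_left _ b.2⟩) hb) hab).symm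

include hat in
/-- The arrows of the glued string out of the last index of the prefix. -/
theorem glue_arr_hi (b : e.A) :
    (glue F p e hge).arr (a := ⟨p.hi.1, Finset.mem_union_left _ p.hi.2⟩)
      (b := ⟨b.1, Finset.mem_union_right _ b.2⟩) (hge b.1 b.2) = Arrow.mk (e.obj b).hom := by
  by_cases hm : p.hi.1 ∈ e.A
  · refine (glue_arr (F := F) hge _ (cls_right F p e (a := ⟨p.hi.1, _⟩) hm)
      (cls_right F p e (a := ⟨b.1, _⟩) b.2)
      (show (⟨p.hi.1, hm⟩ : e.A) ≤ b from hge b.1 b.2)).trans ?_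
    have hw := StructuredArrow.w (e.hom (show (⟨p.hi.1, hm⟩ : e.A) ≤ b from hge b.1 b.2))
    exact ((congrArg Arrow.mk hw).symm.trans (arrow_comp_id_left _ (hat ⟨_, hm⟩ rfl))).symm
  · refine (glue_arr (F := F) hge _ (cls_left F p e (a := ⟨p.hi.1, _⟩) hm)
      (cls_right F p e (a := ⟨b.1, _⟩) b.2) True.intro).trans ?_
    exact arrow_comp_id_left (c := p.last) (e.obj b).hom (p.arr_self (p.le_hi p.hi))

theorem map_le_glue : e.map (StructuredArrow.proj p.last F ⋙ F) ≤ glue F p e hge :=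
  ⟨Finset.subset_union_right, fun a b hab =>
    (glue_arr (F := F) (a := ⟨a.1, Finset.mem_union_right _ a.2⟩)
      (b := ⟨b.1, Finset.mem_union_right _ b.2⟩) hge hab
      (cls_right F p e (a := ⟨a.1, Finset.mem_union_right _ a.2⟩) a.2)
      (cls_right F p e (a := ⟨b.1, Finset.mem_union_right _ b.2⟩) b.2) hab).symm⟩

theorem glue_upper {a : ℤ} (ha : a ∈ (glue F p e hge).A) {b : ℤ} (hb : b ∈ e.A) (hba : b ≤ a) :
    a ∈ e.A := by
  rcases Finset.mem_union.1 (ha : a ∈ p.A ∪ e.A) with h | h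
  · have h1 : a ≤ p.hi.1 := p.le_hi ⟨a, h⟩
    have h2 := hge b hb
    rwa [show a = b by omega]
  · exact h

end Str

end Vale.Agent.P259
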