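import Vale.Agent.P259.Extend

/-!
# Maps of globular sets that are bijective on homotopy classes up to a given dimension
-/

noncomputable section

namespace Vale.Agent.P259

open scoped unitInterval

variable {U V W : GlobSet}

/-- Injectivity on classes of `n`-cells. -/
def InjAt (θ : GlobMap U V) (n : ℕ) : Prop :=
  ∀ u v : U.cell n, U.Par u v → V.Rel n (θ.app n u) (θ.app n v) → U.Rel n u v

/-- Surjectivity on classes of `(n+1)`-cells. -/
def SurjAt (θ : GlobMap U V) (n : ℕ) : Prop :=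
  ∀ u v : U.cell n, U.Par u v → ∀ w : V.cell (n + 1),
    V.s n w = θ.app n u → V.t n w = θ.app n v →
      ∃ c, U.s n c = u ∧ U.t n c = v ∧ V.Rel (n + 1) (θ.app (n + 1) c) w

/-- Surjectivity on components. -/
def SurjZero (θ : GlobMap U V) : Prop := ∀ v : V.cell 0, ∃ u, V.Rel 0 (θ.app 0 u) v

/-- Bijectivity on homotopy classes in dimensions at most `n`. -/
structure Good (n : ℕ) (θ : GlobMap U V) : Prop where
  surj0 : SurjZero θ
  surj : ∀ i < n, SurjAt θ i
  inj : ∀ i ≤ n, InjAt θ i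

theorem Good.mono {m n : ℕ} (h : m ≤ n) {θ : GlobMap U V} (hθ : Good n θ) : Good m θ :=
  ⟨hθ.surj0, fun i hi => hθ.surj i (by omega), fun i hi => hθ.inj i (by omega)⟩

/-- The relation on cells is an equivalence relation. -/
class Groupoidal (V : GlobSet) : Prop where
  refl : ∀ {n} (a : V.cell n), V.Rel n a a
  symm : ∀ {n} {a b : V.cell n}, V.Rel n a b → V.Rel n b a
  trans : ∀ {n} {a b c : V.cell n}, V.Rel n a b → V.Rel n b c → V.Rel n a c

theorem Good.id (n : ℕ) [Groupoidal U] : Good n (GlobMap.id U) :=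
  ⟨fun v => ⟨v, Groupoidal.refl v⟩,
    fun _ _ _ _ _ w h₁ h₂ => ⟨w, h₁, h₂, Groupoidal.refl w⟩, fun _ _ _ _ _ h => h⟩

theorem Good.comp {n : ℕ} [Groupoidal W] {f : GlobMap U V} {g : GlobMap V W}
    (hf : Good n f) (hg : Good n g) : Good n (f.comp g) := by
  refine ⟨fun w => ?_, fun i hi u v huv w h₁ h₂ => ?_, fun i hi u v huv h => ?_⟩
  · obtain ⟨v, hv⟩ := hg.surj0 w
    obtain ⟨u, hu⟩ := hf.surj0 v
    exact ⟨u, Groupoidal.trans (hu.map g) hv⟩
  · obtain ⟨c₁, hs, ht, hc⟩ := hg.surj i hi _ _ (GlobSet.par_map f huv) w h₁ h₂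
    obtain ⟨c, hs', ht', hc'⟩ := hf.surj i hi u v huv c₁ hs ht
    exact ⟨c, hs', ht', Groupoidal.trans (hc'.map g) hc⟩
  · exact hf.inj i hi u v huv (hg.inj i hi _ _ (GlobSet.par_map f huv) h)

theorem Good.of_comp {n : ℕ} {f : GlobMap U V} {g : GlobMap V W}
    (hfg : Good n (f.comp g)) (hg : Good n g) : Good n f := by
  refine ⟨fun v => ?_, fun i hi u v huv w h₁ h₂ => ?_,
    fun i hi u v huv h => hfg.inj i hi u v huv (h.map g)⟩
  · obtain ⟨u, hu⟩ := hfg.surj0 (g.app 0 v)
    exact ⟨u, hg.inj 0 (Nat.zero_le n) (f.app 0 u) v True.intro hu⟩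
  · obtain ⟨c, hs, ht, hc⟩ := hfg.surj i hi u v huv (g.app _ w)
      (by rw [g.comm_s, h₁]; rfl) (by rw [g.comm_t, h₂]; rfl)
    refine ⟨c, hs, ht, hg.inj (i + 1) hi (f.app _ c) w ⟨?_, ?_⟩ hc⟩
    · rw [f.comm_s, hs, h₁]
    · rw [f.comm_t, ht, h₂]

/-- Two-out-of-six for a pair of maps in opposite directions. -/
theorem Good.of_inverse {n : ℕ} {f : GlobMap U V} {g : GlobMap V U}
    (hfg : Good n (f.comp g)) (hgf : Good n (g.comp f)) : Good n f := by
  have finj : ∀ i ≤ n, InjAt f i := fun i hi u v huv h => hfg.inj i hi u v huv (h.map g)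
  have ginj : ∀ i ≤ n, InjAt g i := fun i hi u v huv h => hgf.inj i hi u v huv (h.map f)
  refine ⟨fun v => ?_, fun i hi u v huv w h₁ h₂ => ?_, finj⟩
  · obtain ⟨u, hu⟩ := hfg.surj0 (g.app 0 v)
    exact ⟨u, ginj 0 (Nat.zero_le n) (f.app 0 u) v True.intro hu⟩
  · obtain ⟨c, hs, ht, hc⟩ := hfg.surj i hi u v huv (g.app _ w)
      (by rw [g.comm_s, h₁]; rfl) (by rw [g.comm_t, h₂]; rfl)
    refine ⟨c, hs, ht, ginj (i + 1) hi (f.app _ c) w ⟨?_, ?_⟩ hc⟩
    · rw [f.comm_s, hs, h₁]
    · rw [f.comm_t, ht, h₂]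

variable {A B Y : Type} [TopologicalSpace A] [TopologicalSpace B] [TopologicalSpace Y]

instance groupoidal_discs : Groupoidal (discs Y) where
  refl {n} a := by
    let a' : C(Ball n, Y) := a
    exact ⟨a'.comp proj, ContinuousMap.ext fun x => congrArg a' (proj_hemS x),
      ContinuousMap.ext fun x => congrArg a' (proj_hemT x)⟩
  symm {n a b} h := by
    obtain ⟨c, h₁, h₂⟩ := h
    let c' : C(Ball (n + 1), Y) := c
    have hmem : ∀ z : Ball (n + 1), ‖Eu.snoc (Eu.init z.1) (-Eu.last z.1)‖ ≤ 1 := fun z =>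
      norm_snoc_le_one (norm_init_ball_le z) (by rw [abs_neg]; exact abs_last_le z)
    let flip : C(Ball (n + 1), Ball (n + 1)) :=
      ⟨fun z => ⟨Eu.snoc (Eu.init z.1) (-Eu.last z.1), mem_closedBall_zero_iff.2 (hmem z)⟩,
        by fun_prop⟩
    refine ⟨c'.comp flip, ?_, ?_⟩
    · rw [← h₂]
      refine ContinuousMap.ext fun x => congrArg c' (Subtype.ext ?_)
      simp [flip, hemS_val, hemT_val]
    · rw [← h₁]
      refine ContinuousMap.ext fun x => congrArg c' (Subtype.ext ?_)
      simp [flip, hemS_val, hemT_val]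
  trans {n a b c} h h' := by
    classical
    obtain ⟨r, hr₁, hr₂⟩ := h
    obtain ⟨q, hq₁, hq₂⟩ := h'
    let r' : C(Ball (n + 1), Y) := r
    let q' : C(Ball (n + 1), Y) := q
    have erq : r'.comp hemT = q'.comp hemS := hr₂.trans hq₁.symm
    let top : Ball (n + 1) → Ball (n + 1) := fun z =>
      ⟨Eu.snoc (Eu.init z.1) (max (2 * Eu.last z.1 - width (Eu.init z.1)) (-width (Eu.init z.1))),
        mem_closedBall_zero_iff.2 <| norm_snoc_le_one (norm_init_ball_le z) <| by
          have := abs_le.1 (abs_last_le z)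
          rw [abs_le]
          exact ⟨le_max_right _ _,
            max_le (by linarith [this.2]) (by linarith [width_nonneg (Eu.init z.1)])⟩⟩
    let bot : Ball (n + 1) → Ball (n + 1) := fun z =>
      ⟨Eu.snoc (Eu.init z.1) (min (2 * Eu.last z.1 + width (Eu.init z.1)) (width (Eu.init z.1))),
        mem_closedBall_zero_iff.2 <| norm_snoc_le_one (norm_init_ball_le z) <| by
          have := abs_le.1 (abs_last_le z)
          rw [abs_le]
          exact ⟨le_min (by linarith [this.1]) (by linarith [width_nonneg (Eu.init z.1)]),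
            min_le_right _ _⟩⟩
    have htop : Continuous top := by simp only [top]; fun_prop
    have hbot : Continuous bot := by simp only [bot]; fun_prop
    refine ⟨⟨fun z => if Eu.last z.1 ≤ 0 then r' (bot z) else q' (top z), ?_⟩, ?_, ?_⟩
    · refine continuous_if_le (by fun_prop) continuous_const (r'.continuous.comp hbot).continuousOn
        (q'.continuous.comp htop).continuousOn ?_
      intro z hz
      have e1 : bot z = hemT (proj z) := by
        refine Subtype.ext ?_
        rw [hemT_val]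
        show Eu.snoc (Eu.init z.1) _ = Eu.snoc (Eu.init z.1) _
        rw [hz]; simp; rfl
      have e2 : top z = hemS (proj z) := by
        refine Subtype.ext ?_
        rw [hemS_val]
        show Eu.snoc (Eu.init z.1) _ = Eu.snoc (Eu.init z.1) _
        rw [hz]; simp; rfl
      show r' (bot z) = q' (top z)
      rw [e1, e2]
      exact DFunLike.congr_fun erq (proj z)
    · rw [← hr₁]
      refine ContinuousMap.ext fun x => ?_
      have hl : Eu.last (hemS x).1 ≤ 0 := by
        rw [hemS_val, Eu.last_snoc]; exact neg_nonpos.2 (width_nonneg _)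
      show (if Eu.last (hemS x).1 ≤ 0 then r' (bot (hemS x)) else q' (top (hemS x))) = r' (hemS x)
      rw [if_pos hl]
      refine congrArg r' (Subtype.ext ?_)
      show Eu.snoc _ _ = _
      rw [hemS_val, Eu.init_snoc, Eu.last_snoc, min_eq_left (by linarith [width_nonneg x.1])]
      ring_nf
    · rw [← hq₂]
      refine ContinuousMap.ext fun x => ?_
      show (if Eu.last (hemT x).1 ≤ 0 then r' (bot (hemT x)) else q' (top (hemT x))) = q' (hemT x)
      split_ifs with hl
      · rw [hemT_val, Eu.last_snoc] at hl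
        have hw : width x.1 = 0 := le_antisymm hl (width_nonneg _)
        have e1 : bot (hemT x) = hemT x := by
          refine Subtype.ext ?_
          show Eu.snoc _ _ = _
          rw [hemT_val, Eu.init_snoc, Eu.last_snoc, hw]; simp
        have hx : hemS x = hemT x := by
          refine Subtype.ext ?_
          rw [hemS_val, hemT_val, hw, neg_zero]
        rw [e1]
        refine (DFunLike.congr_fun erq x).trans ?_
        exact congrArg q' hx
      · refine congrArg q' (Subtype.ext ?_)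
        show Eu.snoc _ _ = _
        rw [hemT_val, Eu.init_snoc, Eu.last_snoc, max_eq_left (by linarith [width_nonneg x.1])]
        ring_nf

/-- Evaluation of paths at time `0` is good in every dimension. -/
theorem good_evI₀ (n : ℕ) : Good n (discsMap (evI (Y := Y) 0)) := by
  refine ⟨fun v => ?_, fun i _ u v huv w hs ht => ?_, fun i _ u v huv h => ?_⟩
  · let v' : C(Ball 0, Y) := v
    exact ⟨(ContinuousMap.const' : C(Y, C(I, Y))).comp v', Groupoidal.refl _⟩
  · obtain ⟨M, h₁, h₂, h₃⟩ := exists_extend₀ u v huv w hs ht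
    exact ⟨M, h₁, h₂, by rw [show (discsMap (evI 0)).app (i + 1) M = w from h₃]
                         exact Groupoidal.refl w⟩
  · obtain ⟨w, h₁, h₂⟩ := h
    obtain ⟨M, hs, ht, -⟩ := exists_extend₀ u v huv w h₁ h₂
    exact ⟨M, hs, ht⟩

/-- Evaluation of paths at time `1` is good in every dimension. -/
theorem good_evI₁ (n : ℕ) : Good n (discsMap (evI (Y := Y) 1)) := by
  refine ⟨fun v => ?_, fun i _ u v huv w hs ht => ?_, fun i _ u v huv h => ?_⟩
  · let v' : C(Ball 0, Y) := v
    exact ⟨(ContinuousMap.const' : C(Y, C(I, Y))).comp v', Groupoidal.refl _⟩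
  · obtain ⟨M, h₁, h₂, h₃⟩ := exists_extend₁ u v huv w hs ht
    exact ⟨M, h₁, h₂, by rw [show (discsMap (evI 1)).app (i + 1) M = w from h₃]
                         exact Groupoidal.refl w⟩
  · obtain ⟨w, h₁, h₂⟩ := h
    obtain ⟨M, hs, ht, -⟩ := exists_extend₁ u v huv w h₁ h₂
    exact ⟨M, hs, ht⟩

/-- Transfer along a globular homotopy. -/
theorem good_transfer {n : ℕ} (Θ : GlobMap U (discs C(I, Y))) :
    Good n (Θ.comp (discsMap (evI 0))) ↔ Good n (Θ.comp (discsMap (evI 1))) :=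
  ⟨fun h => (h.of_comp (good_evI₀ n)).comp (good_evI₁ n),
    fun h => (h.of_comp (good_evI₁ n)).comp (good_evI₀ n)⟩

/-- Homotopic maps are simultaneously good. -/
theorem good_homotopic {n : ℕ} {f g : C(A, B)} (h : f.Homotopic g)
    (hf : Good n (discsMap f)) : Good n (discsMap g) := by
  obtain ⟨H⟩ := h
  let K : C(A, C(I, B)) := (H.toContinuousMap.comp ContinuousMap.prodSwap).curry
  have e0 : (evI 0).comp K = f := ContinuousMap.ext fun a => H.apply_zero a
  have e1 : (evI 1).comp K = g := ContinuousMap.ext fun a => H.apply_one a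
  have := (good_transfer (n := n) (discsMap K)).1 (by rw [← discsMap_comp, e0]; exact hf)
  rwa [← discsMap_comp, e1] at this

/-- Maps with a homotopy inverse are good. -/
theorem good_of_inverse {n : ℕ} (f : C(A, B)) (g : C(B, A))
    (h₁ : (g.comp f).Homotopic (ContinuousMap.id A))
    (h₂ : (f.comp g).Homotopic (ContinuousMap.id B)) : Good n (discsMap f) := by
  refine Good.of_inverse (g := discsMap g) ?_ ?_
  · rw [← discsMap_comp]; exact good_homotopic h₁.symm (by rw [discsMap_id]; exact Good.id n)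
  · rw [← discsMap_comp]; exact good_homotopic h₂.symm (by rw [discsMap_id]; exact Good.id n)

/-- A single cell can be lifted along a good map, up to homotopy of the whole boundary. -/
theorem exists_lift_pair {n : ℕ} {f : C(A, B)} (hf : Good n (discsMap f)) :
    ∀ (i : ℕ), i ≤ n → ∀ a b : C(Ball i, B), (discs B).Par a b →
      ∃ (u v : C(Ball i, A)) (P Q : C(Ball i, C(I, B))),
        (discs A).Par u v ∧ (discs C(I, B)).Par P Q ∧
        (evI 0).comp P = f.comp u ∧ (evI 1).comp P = a ∧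
        (evI 0).comp Q = f.comp v ∧ (evI 1).comp Q = b := by
  intro i
  induction i with
  | zero =>
    intro _ a b _
    have one : ∀ a : C(Ball 0, B), ∃ (u : C(Ball 0, A)) (P : C(Ball 0, C(I, B))),
        (evI 0).comp P = f.comp u ∧ (evI 1).comp P = a := by
      intro a
      obtain ⟨u, hu⟩ := hf.surj0 a
      have hu' : (discs B).Rel 0 ((evI 0).comp
          ((ContinuousMap.const' : C(B, C(I, B))).comp a)) (f.comp u) := Groupoidal.symm hu
      obtain ⟨P, -, h0, h1⟩ := exists_swap₀ _ _ hu'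
      exact ⟨u, P, h0, h1⟩
    obtain ⟨u, P, h₁, h₂⟩ := one a
    obtain ⟨v, Q, h₃, h₄⟩ := one b
    exact ⟨u, v, P, Q, True.intro, True.intro, h₁, h₂, h₃, h₄⟩
  | succ i ih =>
    intro hi a b hab
    obtain ⟨hab₁, hab₂⟩ : a.comp hemS = b.comp hemS ∧ a.comp hemT = b.comp hemT := hab
    have hpar : (discs B).Par (a.comp hemS) (a.comp hemT) :=
      GlobSet.Rel.par (X := discs B) ⟨a, rfl, rfl⟩
    obtain ⟨u', v', P', Q', huv, hPQ, hP0, hP1, hQ0, hQ1⟩ :=
      ih (by omega) _ _ hpar
    have one : ∀ a₀ : C(Ball (i + 1), B), a₀.comp hemS = a.comp hemS →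
        a₀.comp hemT = a.comp hemT → ∃ (u : C(Ball (i + 1), A)) (P : C(Ball (i + 1), C(I, B))),
          u.comp hemS = u' ∧ u.comp hemT = v' ∧ P.comp hemS = P' ∧ P.comp hemT = Q' ∧
          (evI 0).comp P = f.comp u ∧ (evI 1).comp P = a₀ := by
      intro a₀ hs ht
      obtain ⟨M, hMs, hMt, hM1⟩ := exists_extend₁ P' Q' hPQ a₀ (hs.trans hP1.symm)
        (ht.trans hQ1.symm)
      obtain ⟨c, hcs, hct, hc⟩ := hf.surj i (by omega) u' v' huv ((evI 0).comp M)
        ((congrArg (fun z => (evI 0).comp z) hMs).trans hP0)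
        ((congrArg (fun z => (evI 0).comp z) hMt).trans hQ0)
      obtain ⟨P, hPb, hP0', hP1'⟩ := exists_swap₀ M (f.comp c) (Groupoidal.symm hc)
      refine ⟨c, P, hcs, hct, ?_, ?_, hP0', hP1'.trans hM1⟩
      · rw [← hMs]; exact (discs_bdry_eq hPb).1
      · rw [← hMt]; exact (discs_bdry_eq hPb).2
    obtain ⟨u, P, hu₁, hu₂, hP₁, hP₂, h₁, h₂⟩ := one a rfl rfl
    obtain ⟨v, Q, hv₁, hv₂, hQ₁, hQ₂, h₃, h₄⟩ := one b hab₁.symm hab₂.symm
    exact ⟨u, v, P, Q, ⟨hu₁.trans hv₁.symm, hu₂.trans hv₂.symm⟩,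
      ⟨hP₁.trans hQ₁.symm, hP₂.trans hQ₂.symm⟩, h₁, h₂, h₃, h₄⟩

/-- Post-composition of paths. -/
def mapI (g : C(A, B)) : C(C(I, A), C(I, B)) := ⟨g.comp, ContinuousMap.continuous_postcomp g⟩

/-- A single cell can be lifted along a good map into discs, up to homotopy of the whole
boundary. -/
theorem exists_lift_pair' {U : GlobSet} {n : ℕ} {θ : GlobMap U (discs B)} (hθ : Good n θ) :
    ∀ (i : ℕ), i ≤ n → ∀ a b : C(Ball i, B), (discs B).Par a b →
      ∃ (u v : U.cell i) (P Q : C(Ball i, C(I, B))),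
        U.Par u v ∧ (discs C(I, B)).Par P Q ∧
        (evI 0).comp P = θ.app i u ∧ (evI 1).comp P = a ∧
        (evI 0).comp Q = θ.app i v ∧ (evI 1).comp Q = b := by
  intro i
  induction i with
  | zero =>
    intro _ a b _
    have one : ∀ a : C(Ball 0, B), ∃ (u : U.cell 0) (P : C(Ball 0, C(I, B))),
        (evI 0).comp P = θ.app 0 u ∧ (evI 1).comp P = a := by
      intro a
      obtain ⟨u, hu⟩ := hθ.surj0 a
      have hu' : (discs B).Rel 0 ((evI 0).comp
          ((ContinuousMap.const' : C(B, C(I, B))).comp a)) (θ.app 0 u) := Groupoidal.symm hu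
      obtain ⟨P, -, h0, h1⟩ := exists_swap₀ _ _ hu'
      exact ⟨u, P, h0, h1⟩
    obtain ⟨u, P, h₁, h₂⟩ := one a
    obtain ⟨v, Q, h₃, h₄⟩ := one b
    exact ⟨u, v, P, Q, True.intro, True.intro, h₁, h₂, h₃, h₄⟩
  | succ i ih =>
    intro hi a b hab
    obtain ⟨hab₁, hab₂⟩ : a.comp hemS = b.comp hemS ∧ a.comp hemT = b.comp hemT := hab
    have hpar : (discs B).Par (a.comp hemS) (a.comp hemT) :=
      GlobSet.Rel.par (X := discs B) ⟨a, rfl, rfl⟩
    obtain ⟨u', v', P', Q', huv, hPQ, hP0, hP1, hQ0, hQ1⟩ :=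
      ih (by omega) _ _ hpar
    have one : ∀ a₀ : C(Ball (i + 1), B), a₀.comp hemS = a.comp hemS →
        a₀.comp hemT = a.comp hemT → ∃ (u : U.cell (i + 1)) (P : C(Ball (i + 1), C(I, B))),
          U.s i u = u' ∧ U.t i u = v' ∧ P.comp hemS = P' ∧ P.comp hemT = Q' ∧
          (evI 0).comp P = θ.app (i + 1) u ∧ (evI 1).comp P = a₀ := by
      intro a₀ hs ht
      obtain ⟨M, hMs, hMt, hM1⟩ := exists_extend₁ P' Q' hPQ a₀ (hs.trans hP1.symm)
        (ht.trans hQ1.symm)
      obtain ⟨c, hcs, hct, hc⟩ := hθ.surj i (by omega) u' v' huv ((evI 0).comp M)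
        ((congrArg (fun z => (evI 0).comp z) hMs).trans hP0)
        ((congrArg (fun z => (evI 0).comp z) hMt).trans hQ0)
      obtain ⟨P, hPb, hP0', hP1'⟩ := exists_swap₀ M (θ.app (i + 1) c) (Groupoidal.symm hc)
      refine ⟨c, P, hcs, hct, ?_, ?_, hP0', hP1'.trans hM1⟩
      · rw [← hMs]; exact (discs_bdry_eq hPb).1
      · rw [← hMt]; exact (discs_bdry_eq hPb).2
    obtain ⟨u, P, hu₁, hu₂, hP₁, hP₂, h₁, h₂⟩ := one a rfl rfl
    obtain ⟨v, Q, hv₁, hv₂, hQ₁, hQ₂, h₃, h₄⟩ := one b hab₁.symm hab₂.symm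
    exact ⟨u, v, P, Q, ⟨hu₁.trans hv₁.symm, hu₂.trans hv₂.symm⟩,
      ⟨hP₁.trans hQ₁.symm, hP₂.trans hQ₂.symm⟩, h₁, h₂, h₃, h₄⟩

/-- Left cancellation for a map out of any globular set. -/
theorem good_of_comp_left' {U : GlobSet} {n : ℕ} {θ : GlobMap U (discs B)} {g : C(B, Y)}
    (hgf : Good n (θ.comp (discsMap g))) (hθ : Good n θ) : Good n (discsMap g) := by
  refine ⟨fun v => ?_, fun i hi a b hab w hs ht => ?_, fun i hi a b hab h => ?_⟩
  · obtain ⟨u, hu⟩ := hgf.surj0 v
    exact ⟨θ.app 0 u, hu⟩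
  · obtain ⟨u, v, P, Q, huv, hPQ, hP0, hP1, hQ0, hQ1⟩ := exists_lift_pair' hθ i hi.le a b hab
    let G : C(Ball i, C(I, Y)) := (mapI g).comp P
    let G' : C(Ball i, C(I, Y)) := (mapI g).comp Q
    have hG : (discs C(I, Y)).Par G G' := GlobSet.par_map (discsMap (mapI g)) hPQ
    obtain ⟨M, hMs, hMt, hM1⟩ := exists_extend₁ G G' hG w
      (hs.trans (congrArg (fun z => g.comp z) hP1.symm))
      (ht.trans (congrArg (fun z => g.comp z) hQ1.symm))
    obtain ⟨c, hcs, hct, hc⟩ := hgf.surj i hi u v huv ((evI 0).comp M)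
      ((congrArg (fun z => (evI 0).comp z) hMs).trans (congrArg (fun z => g.comp z) hP0))
      ((congrArg (fun z => (evI 0).comp z) hMt).trans (congrArg (fun z => g.comp z) hQ0))
    let c' : C(Ball (i + 1), B) := θ.app (i + 1) c
    obtain ⟨N, hNs, hNt, hN0⟩ := exists_extend₀ P Q hPQ c'
      ((θ.comm_s i c).trans ((congrArg (θ.app i) hcs).trans hP0.symm))
      ((θ.comm_t i c).trans ((congrArg (θ.app i) hct).trans hQ0.symm))
    refine ⟨(evI 1).comp N, (congrArg (fun z => (evI 1).comp z) hNs).trans hP1,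
      (congrArg (fun z => (evI 1).comp z) hNt).trans hQ1, ?_⟩
    have key : (discs C(I, Y)).Rel (i + 1) ((mapI g).comp N) M := by
      refine (good_evI₀ (i + 1)).inj (i + 1) le_rfl _ _
        ⟨(congrArg (fun z => (mapI g).comp z) hNs).trans hMs.symm,
         (congrArg (fun z => (mapI g).comp z) hNt).trans hMt.symm⟩ ?_
      show (discs Y).Rel (i + 1) (g.comp ((evI 0).comp N)) ((evI 0).comp M)
      rw [hN0]
      exact hc
    have key' : (discs Y).Rel (i + 1) (g.comp ((evI 1).comp N)) ((evI 1).comp M) :=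
      key.map (discsMap (evI 1))
    rw [hM1] at key'
    exact key'
  · obtain ⟨u, v, P, Q, huv, hPQ, hP0, hP1, hQ0, hQ1⟩ := exists_lift_pair' hθ i hi a b hab
    obtain ⟨w, hs, ht⟩ := h
    let G : C(Ball i, C(I, Y)) := (mapI g).comp P
    let G' : C(Ball i, C(I, Y)) := (mapI g).comp Q
    have hG : (discs C(I, Y)).Par G G' := GlobSet.par_map (discsMap (mapI g)) hPQ
    obtain ⟨M, hMs, hMt, -⟩ := exists_extend₁ G G' hG w
      (hs.trans (congrArg (fun z => g.comp z) hP1.symm))
      (ht.trans (congrArg (fun z => g.comp z) hQ1.symm))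
    obtain ⟨c, hcs, hct⟩ := hgf.inj i hi u v huv ⟨(evI 0).comp M,
      (congrArg (fun z => (evI 0).comp z) hMs).trans (congrArg (fun z => g.comp z) hP0),
      (congrArg (fun z => (evI 0).comp z) hMt).trans (congrArg (fun z => g.comp z) hQ0)⟩
    let c' : C(Ball (i + 1), B) := θ.app (i + 1) c
    obtain ⟨N, hNs, hNt, -⟩ := exists_extend₀ P Q hPQ c'
      ((θ.comm_s i c).trans ((congrArg (θ.app i) hcs).trans hP0.symm))
      ((θ.comm_t i c).trans ((congrArg (θ.app i) hct).trans hQ0.symm))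
    exact ⟨(evI 1).comp N, (congrArg (fun z => (evI 1).comp z) hNs).trans hP1,
      (congrArg (fun z => (evI 1).comp z) hNt).trans hQ1⟩

/-- Left cancellation. -/
theorem good_of_comp_left {n : ℕ} {f : C(A, B)} {g : C(B, Y)}
    (hgf : Good n (discsMap (g.comp f))) (hf : Good n (discsMap f)) : Good n (discsMap g) :=
  good_of_comp_left' (θ := discsMap f) (by rw [← discsMap_comp]; exact hgf) hf

end Vale.Agent.P259
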