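import Vale.Agent.P259.Upper
import Vale.Agent.P259.Cubes

/-!
# Controlled lifting over a cubical grid
-/

noncomputable section

namespace Vale.Agent.P259

open scoped unitInterval Topology
open Metric Set

variable {P : Type} [Preorder P] [TopologicalSpace P] [Topology.IsUpperSet P]
variable {E : Type} [TopologicalSpace E] {f : C(E, P)}

/-- One cell: a filler of the open box with controlled top. -/
theorem exists_cell_fill {n d : ℕ} (hd : d ≤ n + 1) {q₀ m₀ : P} (hqm : q₀ ≤ m₀)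
    (hincl : Good n (discsMap (vIncl f hqm))) (β : C(Ball d, VSpace f q₀))
    (s : C(sphere (0 : Eu d) 1 × I, VSpace f q₀))
    (h0 : ∀ x : sphere (0 : Eu d) 1, s (x, 0) = β ⟨x, sphere_subset_closedBall x.2⟩)
    (htop : ∀ x, m₀ ≤ f (s (x, 1)).1) :
    ∃ τ : C(Ball d, VSpace f m₀),
      (∀ (x : Ball d) (hx : ‖x.1‖ = 1), (τ x).1 = (s (⟨x.1, by simpa using hx⟩, 1)).1) ∧
      (d ≤ n → ∃ H : C(Ball d × I, VSpace f q₀), (∀ x, H (x, 0) = β x) ∧
        (∀ x, (H (x, 1)).1 = (τ x).1) ∧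
        ∀ (x : Ball d) (t : I) (hx : ‖x.1‖ = 1), H (x, t) = s (⟨x.1, by simpa using hx⟩, t)) := by
  obtain ⟨H, hH0, hH1⟩ := exists_homotopy_extension β s h0
  let u : C(Ball d, VSpace f q₀) := H.comp ⟨fun x => (x, 1), by fun_prop⟩
  have hu : ∀ x, u x = H (x, 1) := fun _ => rfl
  have step : ∃ τ : C(Ball d, VSpace f m₀),
      (∀ (x : Ball d), ‖x.1‖ = 1 → (vIncl f hqm) (τ x) = u x) ∧
      (d ≤ n → (discs (VSpace f q₀)).Rel d ((vIncl f hqm).comp τ) u) := by
    cases d with
    | zero =>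
      obtain ⟨τ, hτ⟩ := hincl.surj0 u
      refine ⟨τ, fun x hx => ?_, fun _ => hτ⟩
      rw [Subsingleton.elim x.1 0, norm_zero] at hx
      exact absurd hx (by norm_num)
    | succ k =>
      have hmem : ∀ x : Ball k, m₀ ≤ f (u (hemS x)).1 ∧ m₀ ≤ f (u (hemT x)).1 := fun x => by
        constructor
        · rw [hu, hH1 _ _ (norm_hemS x)]; exact htop _
        · rw [hu, hH1 _ _ (norm_hemT x)]; exact htop _
      let a : C(Ball k, VSpace f m₀) := ⟨fun x => ⟨(u (hemS x)).1, (hmem x).1⟩, by fun_prop⟩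
      let b : C(Ball k, VSpace f m₀) := ⟨fun x => ⟨(u (hemT x)).1, (hmem x).2⟩, by fun_prop⟩
      have ha : (vIncl f hqm).comp a = u.comp hemS := rfl
      have hb : (vIncl f hqm).comp b = u.comp hemT := rfl
      have hab : (discs (VSpace f m₀)).Par a b := by
        cases k with
        | zero => exact True.intro
        | succ k =>
          refine ⟨?_, ?_⟩
          · refine ContinuousMap.ext fun x => Subtype.ext ?_
            show (u (hemS (hemS x))).1 = (u (hemT (hemS x))).1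
            rw [hemS_hemS]
          · refine ContinuousMap.ext fun x => Subtype.ext ?_
            show (u (hemS (hemT x))).1 = (u (hemT (hemT x))).1
            rw [hemS_hemT]
      have hbd : ∀ (τ : C(Ball (k + 1), VSpace f m₀)), τ.comp hemS = a → τ.comp hemT = b →
          ∀ x : Ball (k + 1), ‖x.1‖ = 1 → (vIncl f hqm) (τ x) = u x := by
        intro τ hs ht x hx
        rcases le_total (Eu.last x.1) 0 with hl | hl
        · rw [(eq_hem_of_norm_eq_one hx).1 hl]
          exact congrArg (vIncl f hqm) (DFunLike.congr_fun hs (proj x))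
        · rw [(eq_hem_of_norm_eq_one hx).2 hl]
          exact congrArg (vIncl f hqm) (DFunLike.congr_fun ht (proj x))
      rcases Nat.lt_or_ge k n with hk | hk
      · obtain ⟨τ, hs, ht, hrel⟩ := hincl.surj k hk a b hab u ha.symm hb.symm
        exact ⟨τ, hbd τ hs ht, fun _ => hrel⟩
      · obtain ⟨τ, hs, ht⟩ := hincl.inj k (by omega) a b hab ⟨u, ha.symm, hb.symm⟩
        exact ⟨τ, hbd τ hs ht, fun h => absurd h (by omega)⟩
  obtain ⟨τ, hτb, hτr⟩ := step
  refine ⟨τ, fun x hx => ?_, fun hdn => ?_⟩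
  · rw [← hH1 x 1 hx, ← hu, ← hτb x hx]; rfl
  · let A : C(Ball d, C(I, VSpace f q₀)) := revI.comp H.curry
    have hA : (evI 0).comp A = u := by
      refine ContinuousMap.ext fun x => ?_
      show H (x, unitInterval.symm 0) = H (x, 1)
      rw [unitInterval.symm_zero]
    obtain ⟨A', hA'b, hA'0, hA'1⟩ := exists_swap₀ A ((vIncl f hqm).comp τ)
      (by rw [hA]; exact Groupoidal.symm (hτr hdn))
    refine ⟨ContinuousMap.uncurry (revI.comp A'), fun x => ?_, fun x => ?_, fun x t hx => ?_⟩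
    · show A' x (unitInterval.symm 0) = β x
      rw [unitInterval.symm_zero]
      refine (DFunLike.congr_fun hA'1 x).trans ?_
      show H (x, unitInterval.symm 1) = β x
      rw [unitInterval.symm_one]
      exact hH0 x
    · show (A' x (unitInterval.symm 1)).1 = (τ x).1
      rw [unitInterval.symm_one]
      exact congrArg Subtype.val (DFunLike.congr_fun hA'0 x)
    · show A' x (unitInterval.symm t) = _
      rw [hA'b x hx]
      show H (x, unitInterval.symm (unitInterval.symm t)) = _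
      rw [unitInterval.symm_symm]
      exact hH1 x t hx

/-! ### Blocks -/

variable {m N : ℕ}

/-- A point of the grid coordinates. -/
abbrev GridPt (m : ℕ) : Type := (Fin m → ℝ) × ℝ

/-- A point lies in a closed grid cell. -/
def InCell (N : ℕ) (z : GridPt m) (k : Fin m → ℕ) (j : ℕ) : Prop :=
  (∀ i, k i < N ∧ (k i : ℝ) ≤ z.1 i ∧ z.1 i ≤ k i + 1) ∧
    j < N ∧ (j : ℝ) ≤ z.2 ∧ z.2 ≤ j + 1

/-- A bound on each cell, pairwise comparable for meeting cells. -/
structure CellBound (m N : ℕ) (P : Type) [Preorder P] where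
  q : (Fin m → ℕ) → ℕ → P
  comparable : ∀ (z : GridPt m) k j k' j', InCell N z k j → InCell N z k' j' →
    q k j ≤ q k' j' ∨ q k' j' ≤ q k j

/-- A point of `E` respects all bounds of the cells at `z`. -/
def Controlled (f : C(E, P)) (B : CellBound m N P) (z : GridPt m) (e : E) : Prop :=
  ∀ k j, InCell N z k j → B.q k j ≤ f e

/-- The box with integral corners. -/
def box (a b : Fin m → ℕ) : Set (Fin m → ℝ) := {x | ∀ i, (a i : ℝ) ≤ x i ∧ x i ≤ b i}

/-- The boundary of a box, in the coordinates where it is not degenerate. -/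
def boxBdy (a b : Fin m → ℕ) : Set (Fin m → ℝ) :=
  {x | x ∈ box a b ∧ ∃ i, a i < b i ∧ (x i = a i ∨ x i = b i)}

/-- The dimension of a box. -/
def boxDim (a b : Fin m → ℕ) : ℕ := (Finset.univ.filter fun i => a i < b i).card

theorem isClosed_box (a b : Fin m → ℕ) : IsClosed (box a b) := by
  simp only [box, ofPred_forall]
  refine isClosed_iInter fun i => ?_
  exact (isClosed_le continuous_const (continuous_apply i)).inter
    (isClosed_le (continuous_apply i) continuous_const)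

theorem isClosed_boxBdy (a b : Fin m → ℕ) : IsClosed (boxBdy a b) := by
  have : boxBdy a b =
      box a b ∩ ⋃ i : {i // a i < b i}, {x | x i.1 = a i.1} ∪ {x | x i.1 = b i.1} := by
    ext x
    simp only [boxBdy, mem_ofPred_eq, mem_inter_iff, mem_iUnion, mem_union, Subtype.exists,
      exists_prop]
  rw [this]
  exact (isClosed_box a b).inter <| isClosed_iUnion_of_finite fun i =>
    (isClosed_eq (continuous_apply _) continuous_const).union
      (isClosed_eq (continuous_apply _) continuous_const)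

theorem boxBdy_subset (a b : Fin m → ℕ) : boxBdy a b ⊆ box a b := fun _ h => h.1

/-- The given part of a slab over a box. -/
def slabData (a b : Fin m → ℕ) (l : ℕ) : Set (GridPt m) :=
  box a b ×ˢ {(l : ℝ)} ∪ boxBdy a b ×ˢ Icc (l : ℝ) (l + 1)

/-- The part of a slab to be filled. -/
def slabFree (a b : Fin m → ℕ) (l : ℕ) : Set (GridPt m) :=
  (box a b \ boxBdy a b) ×ˢ Ioc (l : ℝ) (l + 1)

/-- The result of filling a slab over a box. -/
structure SlabFilled (n : ℕ) (f : C(E, P)) (B : CellBound m N P) (G₀ G : GridPt m → E)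
    (a b : Fin m → ℕ) (l : ℕ) : Prop where
  eqOff : ∀ z ∉ slabFree a b l, G z = G₀ z
  topCont : ContinuousOn G (box a b ×ˢ {(l : ℝ) + 1})
  topCtl : ∀ x ∈ box a b, Controlled f B (x, (l : ℝ) + 1) (G (x, (l : ℝ) + 1))
  fullCont : boxDim a b ≤ n → ContinuousOn G (box a b ×ˢ Icc (l : ℝ) (l + 1))
  fullCtl : boxDim a b ≤ n →
    ∀ z ∈ box a b ×ˢ Icc (l : ℝ) (l + 1), Controlled f B z (G z)

/-- The centre of a box. -/
def boxCentre (a b : Fin m → ℕ) : Fin m → ℝ := fun i => ((a i : ℝ) + b i) / 2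

theorem boxCentre_mem {a b : Fin m → ℕ} (hab : ∀ i, a i ≤ b i) : boxCentre a b ∈ box a b := by
  intro i
  have : (a i : ℝ) ≤ b i := by exact_mod_cast hab i
  constructor <;> simp only [boxCentre] <;> linarith

theorem inCell_of_centre {a b : Fin m → ℕ} (hab : ∀ i, a i ≤ b i) (h1 : ∀ i, b i ≤ a i + 1)
    {k : Fin m → ℕ} {i : Fin m} (hk : (k i : ℝ) ≤ boxCentre a b i ∧ boxCentre a b i ≤ k i + 1)
    {x : Fin m → ℝ} (hx : x ∈ box a b) : (k i : ℝ) ≤ x i ∧ x i ≤ k i + 1 := by
  rcases eq_or_lt_of_le (hab i) with h | h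
  · have : x i = boxCentre a b i := by
      have h' : (a i : ℝ) = b i := by exact_mod_cast h
      simp only [boxCentre]; linarith [(hx i).1, (hx i).2]
    rw [this]; exact hk
  · have hb : b i = a i + 1 := by have := h1 i; omega
    simp only [boxCentre, hb] at hk
    push_cast at hk
    have hka : k i = a i := by
      have h₁ : (k i : ℝ) < a i + 1 := by linarith [hk.1]
      have h₂ : (a i : ℝ) < k i + 1 := by linarith [hk.2]
      have h₁' : k i < a i + 1 := by exact_mod_cast h₁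
      have h₂' : a i < k i + 1 := by exact_mod_cast h₂
      omega
    have := hx i
    rw [hb] at this
    push_cast at this
    rw [hka]; exact this

theorem inCell_centre_of_mem {a b : Fin m → ℕ} (hab : ∀ i, a i ≤ b i) (h1 : ∀ i, b i ≤ a i + 1)
    {k : Fin m → ℕ} {i : Fin m} {x : Fin m → ℝ} (hx : x ∈ box a b) (hx' : x ∉ boxBdy a b)
    (hk : (k i : ℝ) ≤ x i ∧ x i ≤ k i + 1) :
    (k i : ℝ) ≤ boxCentre a b i ∧ boxCentre a b i ≤ k i + 1 := by
  rcases eq_or_lt_of_le (hab i) with h | h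
  · have : x i = boxCentre a b i := by
      have h' : (a i : ℝ) = b i := by exact_mod_cast h
      simp only [boxCentre]; linarith [(hx i).1, (hx i).2]
    rw [← this]; exact hk
  · have hb : b i = a i + 1 := by have := h1 i; omega
    have hne : x i ≠ a i ∧ x i ≠ b i := ⟨fun e => hx' ⟨hx, i, h, Or.inl e⟩,
      fun e => hx' ⟨hx, i, h, Or.inr e⟩⟩
    have hxa : (a i : ℝ) < x i := lt_of_le_of_ne (hx i).1 hne.1.symm
    have hxb : x i < b i := lt_of_le_of_ne (hx i).2 hne.2
    rw [hb] at hxb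
    push_cast at hxb
    have hka : k i = a i := by
      have h₁ : (k i : ℝ) < a i + 1 := by linarith [hk.1]
      have h₂ : (a i : ℝ) < k i + 1 := by linarith [hk.2]
      have h₁' : k i < a i + 1 := by exact_mod_cast h₁
      have h₂' : a i < k i + 1 := by exact_mod_cast h₂
      omega
    simp only [boxCentre, hb, hka]
    push_cast
    constructor <;> linarith

theorem exists_inCell_nat {x : ℝ} {N : ℕ} (hN : 0 < N) (h0 : 0 ≤ x) (hx : x ≤ N) :
    ∃ k : ℕ, k < N ∧ (k : ℝ) ≤ x ∧ x ≤ k + 1 := by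
  rcases hx.lt_or_eq with h | h
  · refine ⟨⌊x⌋₊, (Nat.floor_lt h0).2 h, Nat.floor_le h0, (Nat.lt_floor_add_one x).le⟩
  · obtain ⟨k, rfl⟩ : ∃ k, N = k + 1 := ⟨N - 1, by omega⟩
    refine ⟨k, Nat.lt_succ_self k, ?_, ?_⟩ <;> push_cast at h <;> linarith

theorem exists_inCell (hN : 0 < N) {z : GridPt m} (hx : ∀ i, 0 ≤ z.1 i ∧ z.1 i ≤ N)
    (ht : 0 ≤ z.2 ∧ z.2 ≤ N) : ∃ k j, InCell N z k j := by
  choose k hk using fun i => exists_inCell_nat hN (hx i).1 (hx i).2
  obtain ⟨j, hj⟩ := exists_inCell_nat hN ht.1 ht.2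
  exact ⟨k, j, hk, hj⟩

/-- The largest bound at a point. -/
theorem exists_max_bound (B : CellBound m N P) (z : GridPt m)
    (hz : ∃ k j, InCell N z k j) :
    ∃ k₀ j₀, InCell N z k₀ j₀ ∧ ∀ k j, InCell N z k j → B.q k j ≤ B.q k₀ j₀ := by
  classical
  let s : Finset ((Fin m → Fin N) × Fin N) :=
    Finset.univ.filter fun c => InCell N z (fun i => (c.1 i : ℕ)) c.2
  have hs : s.Nonempty := by
    obtain ⟨k, j, h⟩ := hz
    exact ⟨(fun i => ⟨k i, (h.1 i).1⟩, ⟨j, h.2.1⟩), Finset.mem_filter.2 ⟨Finset.mem_univ _, h⟩⟩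
  obtain ⟨c, hc, hmax⟩ := exists_max_of_chain hs (fun c => B.q (fun i => (c.1 i : ℕ)) c.2)
    fun c hc c' hc' => B.comparable z _ _ _ _ (Finset.mem_filter.1 hc).2 (Finset.mem_filter.1 hc').2
  refine ⟨_, _, (Finset.mem_filter.1 hc).2, fun k j h => ?_⟩
  exact hmax (fun i => ⟨k i, (h.1 i).1⟩, ⟨j, h.2.1⟩) (Finset.mem_filter.2 ⟨Finset.mem_univ _, h⟩)

/-- Coordinates on a box of side lengths at most one. -/
theorem exists_boxParam (a b : Fin m → ℕ) (hab : ∀ i, a i ≤ b i) (h1 : ∀ i, b i ≤ a i + 1) :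
    ∃ (Φ : C(Ball (boxDim a b), Fin m → ℝ)) (Ψ : C(Fin m → ℝ, Ball (boxDim a b))),
      (∀ y, Φ y ∈ box a b) ∧ (∀ x ∈ box a b, Φ (Ψ x) = x) ∧
      (∀ y, ‖y.1‖ = 1 ↔ Φ y ∈ boxBdy a b) := by
  classical
  let S := {i : Fin m // a i < b i}
  let e : Fin (boxDim a b) ≃ S := (Fintype.equivFinOfCardEq (by
    simp only [boxDim, S, Fintype.card_subtype])).symm
  let φ : (I^(Fin (boxDim a b))) → Fin m → ℝ := fun y i =>
    if h : a i < b i then (a i : ℝ) + y (e.symm ⟨i, h⟩) else a i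
  let ψ : (Fin m → ℝ) → I^(Fin (boxDim a b)) := fun x k =>
    Set.projIcc (0 : ℝ) 1 zero_le_one (x (e k).1 - a (e k).1)
  have hb : ∀ i, a i < b i → b i = a i + 1 := fun i h => by have := h1 i; omega
  have hφc : Continuous φ := by
    refine continuous_pi fun i => ?_
    by_cases h : a i < b i <;> simp only [φ, dif_pos, dif_neg, h, not_false_eq_true] <;> fun_prop
  have hψc : Continuous ψ := continuous_pi fun k => continuous_projIcc.comp (by fun_prop)
  have hmem : ∀ y, φ y ∈ box a b := by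
    intro y i
    simp only [φ]
    by_cases h : a i < b i
    · rw [dif_pos h, hb i h]
      push_cast
      have := (y (e.symm ⟨i, h⟩)).2
      exact ⟨by linarith [this.1], by linarith [this.2]⟩
    · rw [dif_neg h]
      exact ⟨le_rfl, by exact_mod_cast hab i⟩
  have hinv : ∀ x ∈ box a b, φ (ψ x) = x := by
    intro x hx
    funext i
    simp only [φ]
    by_cases h : a i < b i
    · rw [dif_pos h]
      simp only [ψ, Equiv.apply_symm_apply]
      have := hx i
      rw [hb i h] at this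
      push_cast at this
      rw [Set.projIcc_of_mem zero_le_one ⟨by linarith, by linarith⟩]
      ring
    · rw [dif_neg h]
      have h' : b i = a i := le_antisymm (not_lt.1 h) (hab i)
      have := hx i
      rw [h'] at this
      linarith
  have hbd : ∀ y, y ∈ Cube.boundary (Fin (boxDim a b)) ↔ φ y ∈ boxBdy a b := by
    intro y
    constructor
    · rintro ⟨k, hk⟩
      refine ⟨hmem y, (e k).1, (e k).2, ?_⟩
      have hval : φ y (e k).1 = a (e k).1 + y k := by
        simp only [φ, dif_pos (e k).2]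
        exact congrArg (fun k => (a _ : ℝ) + ((y k : I) : ℝ)) (e.symm_apply_apply k)
      rw [hval, hb _ (e k).2]
      rcases hk with hk | hk <;> rw [hk] <;> simp
    · rintro ⟨-, i, hi, hx⟩
      refine ⟨e.symm ⟨i, hi⟩, ?_⟩
      simp only [φ, dif_pos hi] at hx
      rw [hb i hi] at hx
      push_cast at hx
      rcases hx with hx | hx
      · exact Or.inl (Subtype.ext (show ((y (e.symm ⟨i, hi⟩)) : ℝ) = 0 by linarith))
      · exact Or.inr (Subtype.ext (show ((y (e.symm ⟨i, hi⟩)) : ℝ) = 1 by linarith))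
  refine ⟨⟨fun y => φ (cubeHomeo _ y), hφc.comp (cubeHomeo _).continuous⟩,
    ⟨fun x => (cubeHomeo _).symm (ψ x), (cubeHomeo _).symm.continuous.comp hψc⟩,
    fun y => hmem _, fun x hx => ?_, fun y => (cubeHomeo_boundary y).trans (hbd _)⟩
  show φ (cubeHomeo _ ((cubeHomeo _).symm (ψ x))) = x
  rw [Homeomorph.apply_symm_apply]
  exact hinv x hx

theorem exists_slab_fill_base {n : ℕ}
    (hV : ∀ p q : P, ∀ h : p ≤ q, Good n (discsMap (vIncl f h))) (B : CellBound m N P)
    (a b : Fin m → ℕ) (l : ℕ) (hab : ∀ i, a i ≤ b i) (h1 : ∀ i, b i ≤ a i + 1)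
    (hbN : ∀ i, b i ≤ N) (hl : l + 1 ≤ N) (hdim : boxDim a b ≤ n + 1) (G₀ : GridPt m → E)
    (hc : ContinuousOn G₀ (slabData a b l))
    (hctl : ∀ z ∈ slabData a b l, Controlled f B z (G₀ z)) :
    ∃ G, SlabFilled n f B G₀ G a b l := by
  classical
  obtain ⟨Φ, Ψ, hΦ, hΦΨ, hΦb⟩ := exists_boxParam a b hab h1
  have hcoord : ∀ (s : ℝ), 0 ≤ s → s ≤ N → ∀ i, (0 : ℝ) ≤ (boxCentre a b, s).1 i ∧
      (boxCentre a b, s).1 i ≤ N := fun s _ _ i => by
    have hb : (b i : ℝ) ≤ N := by exact_mod_cast hbN i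
    have := boxCentre_mem hab i
    exact ⟨le_trans (Nat.cast_nonneg _) this.1, this.2.trans hb⟩
  have hl' : (l : ℝ) + 1 ≤ N := by exact_mod_cast hl
  obtain ⟨k₁, j₁, hin₁, hmax₁⟩ := exists_max_bound B (boxCentre a b, (l : ℝ) + 1 / 2)
    (exists_inCell (by omega) (hcoord _ (by positivity) (by linarith))
      ⟨by positivity, by linarith⟩)
  obtain ⟨k₂, j₂, hin₂, hmax₂⟩ := exists_max_bound B (boxCentre a b, (l : ℝ) + 1)
    (exists_inCell (by omega) (hcoord _ (by positivity) hl') ⟨by positivity, hl'⟩)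
  set q₀ := B.q k₁ j₁
  set m₀ := B.q k₂ j₂
  have hmid : ∀ {k j}, InCell N (boxCentre a b, (l : ℝ) + 1 / 2) k j → j = l := by
    intro k j h
    have h₁ : (j : ℝ) < l + 1 := by linarith [h.2.2.1]
    have h₂ : (l : ℝ) < j + 1 := by linarith [h.2.2.2]
    have h₁' : j < l + 1 := by exact_mod_cast h₁
    have h₂' : l < j + 1 := by exact_mod_cast h₂
    omega
  have hin_data : ∀ {x : Fin m → ℝ} {t : ℝ}, x ∈ box a b → (l : ℝ) ≤ t → t ≤ l + 1 →
      InCell N (x, t) k₁ j₁ := by
    intro x t hx ht ht'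
    refine ⟨fun i => ⟨(hin₁.1 i).1, inCell_of_centre hab h1 (hin₁.1 i).2 hx⟩, hin₁.2.1, ?_, ?_⟩
    · rw [hmid hin₁]; exact ht
    · rw [hmid hin₁]; exact ht'
  have hin_top : ∀ {x : Fin m → ℝ}, x ∈ box a b → InCell N (x, (l : ℝ) + 1) k₂ j₂ := by
    intro x hx
    exact ⟨fun i => ⟨(hin₂.1 i).1, inCell_of_centre hab h1 (hin₂.1 i).2 hx⟩, hin₂.2⟩
  have hqm : q₀ ≤ m₀ := hmax₂ k₁ j₁ (hin_data (boxCentre_mem hab) (by linarith) le_rfl)
  let βz : Ball (boxDim a b) → GridPt m := fun y => (Φ y, (l : ℝ))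
  have hβz : ∀ y, βz y ∈ slabData a b l := fun y => Or.inl ⟨hΦ y, rfl⟩
  let sz : sphere (0 : Eu (boxDim a b)) 1 × I → GridPt m := fun p =>
    (Φ ⟨p.1.1, sphere_subset_closedBall p.1.2⟩, (l : ℝ) + p.2.1)
  have hsz : ∀ p, sz p ∈ slabData a b l := fun p =>
    Or.inr ⟨(hΦb _).1 (mem_sphere_zero_iff_norm.1 p.1.2), by
      constructor <;> simp only [sz] <;> linarith [p.2.2.1, p.2.2.2]⟩
  let β : C(Ball (boxDim a b), VSpace f q₀) :=
    ⟨fun y => ⟨G₀ (βz y), hctl _ (hβz y) _ _ (hin_data (hΦ y) le_rfl (by linarith))⟩,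
      Continuous.subtype_mk (hc.comp_continuous (by fun_prop) hβz) _⟩
  let s : C(sphere (0 : Eu (boxDim a b)) 1 × I, VSpace f q₀) :=
    ⟨fun p => ⟨G₀ (sz p), hctl _ (hsz p) _ _ (hin_data (hΦ _)
      (by linarith [p.2.2.1]) (by linarith [p.2.2.2]))⟩,
      Continuous.subtype_mk (hc.comp_continuous (by fun_prop) hsz) _⟩
  obtain ⟨τ, hτb, hH⟩ := exists_cell_fill (f := f) hdim hqm (hV _ _ hqm) β s
    (fun x => Subtype.ext (congrArg G₀ (Prod.ext rfl (by simp [sz, βz]))))
    (fun x => by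
      have hmem : sz (x, 1) ∈ slabData a b l := hsz (x, 1)
      refine hctl _ hmem _ _ ?_
      have : sz (x, 1) = (Φ ⟨x.1, sphere_subset_closedBall x.2⟩, (l : ℝ) + 1) := by simp [sz]
      rw [this]
      exact hin_top (hΦ _))
  have hKex : ∃ K : GridPt m → E, Continuous K ∧
      (∀ x, K (x, (l : ℝ) + 1) = (τ (Ψ x)).1) ∧
      (boxDim a b ≤ n → (∀ z, q₀ ≤ f (K z)) ∧
        (∀ x ∈ box a b, K (x, (l : ℝ)) = G₀ (x, (l : ℝ))) ∧
        ∀ x ∈ boxBdy a b, ∀ t ∈ Icc (l : ℝ) (l + 1), K (x, t) = G₀ (x, t)) := by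
    by_cases hd : boxDim a b ≤ n
    · obtain ⟨H, hH0, hH1, hHs⟩ := hH hd
      refine ⟨fun z => (H (Ψ z.1, Set.projIcc 0 1 zero_le_one (z.2 - l))).1, by fun_prop,
        fun x => ?_, fun _ => ⟨fun z => (H _).2, fun x hx => ?_, fun x hx t ht => ?_⟩⟩
      · have : Set.projIcc (0 : ℝ) 1 zero_le_one ((l : ℝ) + 1 - l) = (1 : I) := by
          rw [add_sub_cancel_left, Set.projIcc_right]; rfl
        show (H (Ψ x, Set.projIcc (0 : ℝ) 1 zero_le_one ((l : ℝ) + 1 - l))).1 = _
        rw [this]; exact hH1 _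
      · have : Set.projIcc (0 : ℝ) 1 zero_le_one ((l : ℝ) - l) = (0 : I) := by
          rw [sub_self, Set.projIcc_left]; rfl
        show (H (Ψ x, Set.projIcc (0 : ℝ) 1 zero_le_one ((l : ℝ) - l))).1 = _
        rw [this, hH0]
        show G₀ (Φ (Ψ x), (l : ℝ)) = _
        rw [hΦΨ x hx]
      · have hy : ‖(Ψ x).1‖ = 1 := (hΦb _).2 (by rw [hΦΨ x (boxBdy_subset a b hx)]; exact hx)
        show (H (Ψ x, Set.projIcc (0 : ℝ) 1 zero_le_one (t - l))).1 = _
        rw [hHs _ _ hy]
        show G₀ (Φ (Ψ x), (l : ℝ) + (Set.projIcc (0 : ℝ) 1 zero_le_one (t - l) : I).1) = _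
        rw [hΦΨ x (boxBdy_subset a b hx),
          Set.projIcc_of_mem zero_le_one ⟨by linarith [ht.1], by linarith [ht.2]⟩]
        simp
    · exact ⟨fun z => (τ (Ψ z.1)).1, by fun_prop, fun _ => rfl, fun h => absurd h hd⟩
  obtain ⟨K, hKc, hKtop, hKfull⟩ := hKex
  let G : GridPt m → E := fun z => if z ∈ slabFree a b l then K z else G₀ z
  have hKbdyTop : ∀ x ∈ boxBdy a b, K (x, (l : ℝ) + 1) = G₀ (x, (l : ℝ) + 1) := by
    intro x hx
    have hy : ‖(Ψ x).1‖ = 1 := (hΦb _).2 (by rw [hΦΨ x (boxBdy_subset a b hx)]; exact hx)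
    rw [hKtop, hτb _ hy]
    show G₀ (Φ (Ψ x), (l : ℝ) + ((1 : I) : ℝ)) = _
    rw [hΦΨ x (boxBdy_subset a b hx)]
    simp
  have htopEq : ∀ x ∈ box a b, G (x, (l : ℝ) + 1) = K (x, (l : ℝ) + 1) := by
    intro x hx
    by_cases hb : x ∈ boxBdy a b
    · rw [show G (x, (l : ℝ) + 1) = G₀ (x, (l : ℝ) + 1) from if_neg fun h => h.1.2 hb,
        hKbdyTop x hb]
    · exact if_pos ⟨⟨hx, hb⟩, by constructor <;> linarith⟩
  have hfullEq : boxDim a b ≤ n → ∀ z ∈ box a b ×ˢ Icc (l : ℝ) (l + 1), G z = K z := by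
    rintro hd ⟨x, t⟩ ⟨hx, ht⟩
    by_cases hz : (x, t) ∈ slabFree a b l
    · exact if_pos hz
    · rw [show G (x, t) = G₀ (x, t) from if_neg hz]
      by_cases hb : x ∈ boxBdy a b
      · exact ((hKfull hd).2.2 x hb t ht).symm
      · have : t = (l : ℝ) := by
          by_contra hne
          exact hz ⟨⟨hx, hb⟩, lt_of_le_of_ne ht.1 (Ne.symm hne), ht.2⟩
        rw [this]
        exact ((hKfull hd).2.1 x hx).symm
  have hctlTop : ∀ x ∈ box a b, Controlled f B (x, (l : ℝ) + 1) (G (x, (l : ℝ) + 1)) := by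
    intro x hx k j hk
    by_cases hb : x ∈ boxBdy a b
    · rw [show G (x, (l : ℝ) + 1) = G₀ (x, (l : ℝ) + 1) from if_neg fun h => h.1.2 hb]
      exact hctl _ (Or.inr ⟨hb, by constructor <;> linarith⟩) k j hk
    · rw [htopEq x hx, hKtop]
      refine le_trans (hmax₂ k j ?_) (τ (Ψ x)).2
      exact ⟨fun i => ⟨(hk.1 i).1, inCell_centre_of_mem hab h1 hx hb (hk.1 i).2⟩, hk.2⟩
  refine ⟨G, fun z hz => if_neg hz, hKc.continuousOn.congr ?_, hctlTop,
    fun hd => hKc.continuousOn.congr (hfullEq hd), fun hd z hz => ?_⟩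
  · rintro ⟨x, t⟩ ⟨hx, ht⟩
    rw [mem_singleton_iff] at ht
    subst ht
    exact htopEq x hx
  · obtain ⟨hx, ht⟩ := hz
    by_cases hfree : z ∈ slabFree a b l
    · rcases ht.2.lt_or_eq with hlt | heq
      · intro k j hk
        rw [hfullEq hd z ⟨hx, ht⟩]
        refine le_trans (hmax₁ k j ?_) ((hKfull hd).1 z)
        refine ⟨fun i => ⟨(hk.1 i).1, inCell_centre_of_mem hab h1 hx hfree.1.2 (hk.1 i).2⟩,
          hk.2.1, ?_⟩
        have hjl : j = l := by
          have h₁ : (j : ℝ) < l + 1 := lt_of_le_of_lt hk.2.2.1 hlt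
          have h₂ : (l : ℝ) < j + 1 := lt_of_lt_of_le hfree.2.1 hk.2.2.2
          have h₁' : j < l + 1 := by exact_mod_cast h₁
          have h₂' : l < j + 1 := by exact_mod_cast h₂
          omega
        subst hjl
        constructor <;> simp only <;> linarith
      · have : z = (z.1, (l : ℝ) + 1) := Prod.ext rfl heq
        rw [this]; exact hctlTop _ hx
    · rw [show G z = G₀ z from if_neg hfree]
      refine hctl z ?_
      by_cases hb : z.1 ∈ boxBdy a b
      · exact Or.inr ⟨hb, ht⟩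
      · refine Or.inl ⟨hx, ?_⟩
        rw [mem_singleton_iff]
        by_contra hne
        exact hfree ⟨⟨hx, hb⟩, lt_of_le_of_ne ht.1 (Ne.symm hne), ht.2⟩

theorem box_mono {a b a' b' : Fin m → ℕ} (h : ∀ i, a' i ≤ a i) (h' : ∀ i, b i ≤ b' i) :
    box a b ⊆ box a' b' := fun x hx i =>
  ⟨le_trans (by exact_mod_cast h i) (hx i).1, (hx i).2.trans (by exact_mod_cast h' i)⟩

/-- Filling a slab over a box. -/
theorem exists_slab_fill {n : ℕ} (hV : ∀ p q : P, ∀ h : p ≤ q, Good n (discsMap (vIncl f h)))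
    (B : CellBound m N P) (l : ℕ) (hl : l + 1 ≤ N) :
    ∀ (s : ℕ) (a b : Fin m → ℕ), (∑ i, (b i - a i)) = s → (∀ i, a i ≤ b i) → (∀ i, b i ≤ N) →
      boxDim a b ≤ n + 1 → ∀ G₀ : GridPt m → E, ContinuousOn G₀ (slabData a b l) →
      (∀ z ∈ slabData a b l, Controlled f B z (G₀ z)) →
      ∃ G, SlabFilled n f B G₀ G a b l := by
  intro s
  induction s using Nat.strong_induction_on with
  | _ s ih =>
    intro a b hs hab hbN hdim G₀ hc hctl
    by_cases h1 : ∀ i, b i ≤ a i + 1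
    · exact exists_slab_fill_base hV B a b l hab h1 hbN hl hdim G₀ hc hctl
    push Not at h1
    obtain ⟨i, hi⟩ := h1
    set c := a i + 1 with hcdef
    set aM := Function.update a i c with haM
    set bM := Function.update b i c with hbM
    have hsum : ∀ a' b' : Fin m → ℕ, (∀ j, b' j - a' j ≤ b j - a j) → b' i - a' i < b i - a i →
        (∑ j, (b' j - a' j)) < s := fun a' b' hle hlt =>
      hs ▸ Finset.sum_lt_sum (fun j _ => hle j) ⟨i, Finset.mem_univ i, hlt⟩
    have haM_i : aM i = c := Function.update_self ..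
    have hbM_i : bM i = c := Function.update_self ..
    have haM_ne : ∀ j, j ≠ i → aM j = a j := fun j h => Function.update_of_ne h ..
    have hbM_ne : ∀ j, j ≠ i → bM j = b j := fun j h => Function.update_of_ne h ..
    have haMle : ∀ j, a j ≤ aM j := fun j => by
      rcases eq_or_ne j i with rfl | h
      · rw [haM_i]; omega
      · rw [haM_ne j h]
    have hbMle : ∀ j, bM j ≤ b j := fun j => by
      rcases eq_or_ne j i with rfl | h
      · rw [hbM_i]; omega
      · rw [hbM_ne j h]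
    -- dimensions
    have hdimM : boxDim aM bM + 1 = boxDim a b := by
      classical
      have : (Finset.univ.filter fun j => aM j < bM j) =
          (Finset.univ.filter fun j => a j < b j).erase i := by
        ext j
        simp only [Finset.mem_filter, Finset.mem_univ, true_and, Finset.mem_erase]
        rcases eq_or_ne j i with rfl | h
        · simp [haM_i, hbM_i]
        · simp [haM_ne j h, hbM_ne j h, h]
      rw [boxDim, boxDim, this, Finset.card_erase_add_one]
      exact Finset.mem_filter.2 ⟨Finset.mem_univ _, by omega⟩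
    have hdimL : boxDim a bM = boxDim a b := by
      refine congrArg Finset.card (Finset.filter_congr fun j _ => ?_)
      rcases eq_or_ne j i with rfl | h
      · rw [hbM_i]; exact ⟨fun _ => by omega, fun _ => by omega⟩
      · rw [hbM_ne j h]
    have hdimR : boxDim aM b = boxDim a b := by
      refine congrArg Finset.card (Finset.filter_congr fun j _ => ?_)
      rcases eq_or_ne j i with rfl | h
      · rw [haM_i]; exact ⟨fun _ => by omega, fun _ => by omega⟩
      · rw [haM_ne j h]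
    -- the boxes
    have hMsub : box aM bM ⊆ box a b := box_mono haMle hbMle
    have hLsub : box a bM ⊆ box a b := box_mono (fun _ => le_rfl) hbMle
    have hRsub : box aM b ⊆ box a b := box_mono haMle fun _ => le_rfl
    have hLR : ∀ x ∈ box a b, x ∈ box a bM ∨ x ∈ box aM b := by
      intro x hx
      rcases le_total (x i) c with h | h
      · refine Or.inl fun j => ⟨(hx j).1, ?_⟩
        rcases eq_or_ne j i with rfl | hj
        · rw [hbM_i]; exact h
        · rw [hbM_ne j hj]; exact (hx j).2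
      · refine Or.inr fun j => ⟨?_, (hx j).2⟩
        rcases eq_or_ne j i with rfl | hj
        · rw [haM_i]; exact h
        · rw [haM_ne j hj]; exact (hx j).1
    have hMb : ∀ x ∈ boxBdy aM bM, x ∈ boxBdy a b := by
      rintro x ⟨hx, j, hj, hxj⟩
      have hji : j ≠ i := fun e => by subst e; rw [haM_i, hbM_i] at hj; exact lt_irrefl _ hj
      rw [haM_ne j hji, hbM_ne j hji] at hj hxj
      exact ⟨hMsub hx, j, hj, hxj⟩
    have hLb : ∀ x ∈ boxBdy a bM, x ∈ boxBdy a b ∨ x ∈ box aM bM := by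
      rintro x ⟨hx, j, hj, hxj⟩
      rcases eq_or_ne j i with rfl | hji
      · rcases hxj with h | h
        · exact Or.inl ⟨hLsub hx, j, by omega, Or.inl h⟩
        · refine Or.inr fun k => ⟨?_, (hx k).2⟩
          rcases eq_or_ne k j with rfl | hk
          · rw [haM_i]; rw [hbM_i] at h; exact h.ge
          · rw [haM_ne k hk]; exact (hx k).1
      · rw [hbM_ne j hji] at hj hxj
        exact Or.inl ⟨hLsub hx, j, hj, hxj⟩
    have hRb : ∀ x ∈ boxBdy aM b, x ∈ boxBdy a b ∨ x ∈ box aM bM := by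
      rintro x ⟨hx, j, hj, hxj⟩
      rcases eq_or_ne j i with rfl | hji
      · rcases hxj with h | h
        · refine Or.inr fun k => ⟨(hx k).1, ?_⟩
          rcases eq_or_ne k j with rfl | hk
          · rw [hbM_i]; rw [haM_i] at h; exact h.le
          · rw [hbM_ne k hk]; exact (hx k).2
        · exact Or.inl ⟨hRsub hx, j, by omega, Or.inr h⟩
      · rw [haM_ne j hji] at hj hxj
        exact Or.inl ⟨hRsub hx, j, hj, hxj⟩
    -- disjointness of the free parts from the data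
    have hMfree : ∀ x, x ∈ box aM bM → x ∉ boxBdy aM bM → x ∉ boxBdy a b := by
      rintro x hx hx' ⟨-, j, hj, hxj⟩
      rcases eq_or_ne j i with rfl | hji
      · have h₁ := (hx j).1
        have h₂ := (hx j).2
        rw [haM_i] at h₁
        rw [hbM_i] at h₂
        have hac : (a j : ℝ) < c := by exact_mod_cast (by omega : a j < c)
        have hcb : (c : ℝ) < b j := by exact_mod_cast (by omega : c < b j)
        rcases hxj with h | h <;> linarith
      · exact hx' ⟨hx, j, by rw [haM_ne j hji, hbM_ne j hji]; exact hj,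
          by rw [haM_ne j hji, hbM_ne j hji]; exact hxj⟩
    have hLfree : ∀ x, x ∈ box a bM → x ∉ boxBdy a bM → x ∉ boxBdy a b ∧ x ∉ box aM b := by
      intro x hx hx'
      have hne : x i ≠ c := fun e =>
        hx' ⟨hx, i, by rw [hbM_i]; omega, Or.inr (by rw [hbM_i]; exact e)⟩
      refine ⟨?_, fun h => hne (le_antisymm (by have := (hx i).2; rwa [hbM_i] at this)
        (by have := (h i).1; rwa [haM_i] at this))⟩
      rintro ⟨-, j, hj, hxj⟩
      rcases eq_or_ne j i with rfl | hji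
      · rcases hxj with h | h
        · exact hx' ⟨hx, j, by rw [hbM_i]; omega, Or.inl h⟩
        · have h₂ := (hx j).2
          rw [hbM_i] at h₂
          have hcb : (c : ℝ) < b j := by exact_mod_cast (by omega : c < b j)
          linarith
      · exact hx' ⟨hx, j, by rw [hbM_ne j hji]; exact hj, by rw [hbM_ne j hji]; exact hxj⟩
    have hRfree : ∀ x, x ∈ box aM b → x ∉ boxBdy aM b → x ∉ boxBdy a b ∧ x ∉ box a bM := by
      intro x hx hx'
      have hne : x i ≠ c := fun e =>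
        hx' ⟨hx, i, by rw [haM_i]; omega, Or.inl (by rw [haM_i]; exact e)⟩
      refine ⟨?_, fun h => hne (le_antisymm (by have := (h i).2; rwa [hbM_i] at this)
        (by have := (hx i).1; rwa [haM_i] at this))⟩
      rintro ⟨-, j, hj, hxj⟩
      rcases eq_or_ne j i with rfl | hji
      · rcases hxj with h | h
        · have h₁ := (hx j).1
          rw [haM_i] at h₁
          have hac : (a j : ℝ) < c := by exact_mod_cast (by omega : a j < c)
          linarith
        · exact hx' ⟨hx, j, by rw [haM_i]; omega, Or.inr h⟩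
      · exact hx' ⟨hx, j, by rw [haM_ne j hji]; exact hj, by rw [haM_ne j hji]; exact hxj⟩
    have hbottom : ∀ (a' b' : Fin m → ℕ) (x : Fin m → ℝ), (x, (l : ℝ)) ∉ slabFree a' b' l :=
      fun a' b' x h => lt_irrefl _ h.2.1
    -- the middle
    have hdataM : slabData aM bM l ⊆ slabData a b l :=
      union_subset_union (prod_mono hMsub Subset.rfl)
        (prod_mono (fun x hx => hMb x hx) Subset.rfl)
    obtain ⟨G₁, hG₁⟩ := ih _ (hsum aM bM (fun j => by have := haMle j; have := hbMle j; omega)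
        (by rw [haM_i, hbM_i]; omega)) aM bM rfl (fun j => by
          rcases eq_or_ne j i with rfl | h
          · rw [haM_i, hbM_i]
          · rw [haM_ne j h, hbM_ne j h]; exact hab j)
        (fun j => (hbMle j).trans (hbN j)) (by omega) G₀ (hc.mono hdataM)
        fun z hz => hctl z (hdataM hz)
    have hMn : boxDim aM bM ≤ n := by omega
    let side : Set (GridPt m) :=
      boxBdy a b ×ˢ Icc (l : ℝ) (l + 1) ∪ box aM bM ×ˢ Icc (l : ℝ) (l + 1)
    have hG₁side : ∀ z ∈ boxBdy a b ×ˢ Icc (l : ℝ) (l + 1), G₁ z = G₀ z :=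
      fun z hz => hG₁.eqOff z fun h => hMfree _ h.1.1 h.1.2 hz.1
    have hG₁c : ContinuousOn G₁ side :=
      ((hc.mono subset_union_right).congr hG₁side).union_of_isClosed (hG₁.fullCont hMn)
        ((isClosed_boxBdy a b).prod isClosed_Icc) ((isClosed_box aM bM).prod isClosed_Icc)
    have hG₁ctl : ∀ z ∈ side, Controlled f B z (G₁ z) := by
      rintro z (hz | hz)
      · rw [hG₁side z hz]; exact hctl z (Or.inr hz)
      · exact hG₁.fullCtl hMn z hz
    -- the left part
    have hdataL : slabData a bM l ⊆ box a b ×ˢ {(l : ℝ)} ∪ side := by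
      rintro z (hz | hz)
      · exact Or.inl ⟨hLsub hz.1, hz.2⟩
      · rcases hLb _ hz.1 with h | h
        · exact Or.inr (Or.inl ⟨h, hz.2⟩)
        · exact Or.inr (Or.inr ⟨h, hz.2⟩)
    have hG₁bot : ∀ z ∈ box a b ×ˢ {(l : ℝ)}, G₁ z = G₀ z := by
      rintro ⟨x, t⟩ ⟨-, ht⟩
      rw [mem_singleton_iff] at ht
      subst ht
      exact hG₁.eqOff _ (hbottom _ _ x)
    have hsideClosed : IsClosed side :=
      ((isClosed_boxBdy a b).prod isClosed_Icc).union ((isClosed_box aM bM).prod isClosed_Icc)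
    have hG₁all : ContinuousOn G₁ (box a b ×ˢ {(l : ℝ)} ∪ side) :=
      ((hc.mono subset_union_left).congr hG₁bot).union_of_isClosed hG₁c
        ((isClosed_box a b).prod isClosed_singleton) hsideClosed
    have hG₁allctl : ∀ z ∈ box a b ×ˢ {(l : ℝ)} ∪ side, Controlled f B z (G₁ z) := by
      rintro z (hz | hz)
      · rw [hG₁bot z hz]; exact hctl z (Or.inl hz)
      · exact hG₁ctl z hz
    obtain ⟨G₂, hG₂⟩ := ih _ (hsum a bM (fun j => by have := hbMle j; omega)
        (by rw [hbM_i]; omega)) a bM rfl (fun j => by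
          rcases eq_or_ne j i with rfl | h
          · rw [hbM_i]; omega
          · rw [hbM_ne j h]; exact hab j)
        (fun j => (hbMle j).trans (hbN j)) (by omega) G₁ (hG₁all.mono hdataL)
        fun z hz => hG₁allctl z (hdataL hz)
    -- the right part
    have hdataR : slabData aM b l ⊆ box a b ×ˢ {(l : ℝ)} ∪ side := by
      rintro z (hz | hz)
      · exact Or.inl ⟨hRsub hz.1, hz.2⟩
      · rcases hRb _ hz.1 with h | h
        · exact Or.inr (Or.inl ⟨h, hz.2⟩)
        · exact Or.inr (Or.inr ⟨h, hz.2⟩)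
    have hG₂keep : ∀ z ∈ box a b ×ˢ {(l : ℝ)} ∪ side, G₂ z = G₁ z := by
      rintro ⟨x, t⟩ hz
      refine hG₂.eqOff _ fun h => ?_
      rcases hz with hz | hz | hz
      · have := hz.2
        rw [mem_singleton_iff] at this
        subst this
        exact hbottom _ _ x h
      · exact (hLfree x h.1.1 h.1.2).1 hz.1
      · exact (hLfree x h.1.1 h.1.2).2 (box_mono (fun _ => le_rfl) hbMle hz.1)
    obtain ⟨G₃, hG₃⟩ := ih _ (hsum aM b (fun j => by have := haMle j; omega)
        (by rw [haM_i]; omega)) aM b rfl (fun j => by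
          rcases eq_or_ne j i with rfl | h
          · rw [haM_i]; omega
          · rw [haM_ne j h]; exact hab j)
        hbN (by omega) G₂ ((hG₁all.congr hG₂keep).mono hdataR)
        fun z hz => by rw [hG₂keep z (hdataR hz)]; exact hG₁allctl z (hdataR hz)
    have h32 : ∀ z : GridPt m, z.1 ∈ box a bM → G₃ z = G₂ z := fun z hz =>
      hG₃.eqOff z fun h => (hRfree _ h.1.1 h.1.2).2 hz
    refine ⟨G₃, fun z hz => ?_, ?_, fun x hx => ?_, fun hd => ?_, fun hd z hz => ?_⟩
    · rw [hG₃.eqOff z fun h => hz ⟨⟨hRsub h.1.1, (hRfree _ h.1.1 h.1.2).1⟩, h.2⟩,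
        hG₂.eqOff z fun h => hz ⟨⟨hLsub h.1.1, (hLfree _ h.1.1 h.1.2).1⟩, h.2⟩,
        hG₁.eqOff z fun h => hz ⟨⟨hMsub h.1.1, hMfree _ h.1.1 h.1.2⟩, h.2⟩]
    · refine (((hG₂.topCont.congr fun z hz => h32 z hz.1)).union_of_isClosed hG₃.topCont
        ((isClosed_box a bM).prod isClosed_singleton)
        ((isClosed_box aM b).prod isClosed_singleton)).mono ?_
      rintro ⟨x, t⟩ ⟨hx, ht⟩
      exact (hLR x hx).imp (fun h => ⟨h, ht⟩) fun h => ⟨h, ht⟩
    · rcases hLR x hx with h | h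
      · rw [h32 _ h]; exact hG₂.topCtl x h
      · exact hG₃.topCtl x h
    · refine (((hG₂.fullCont (hdimL ▸ hd)).congr fun z hz => h32 z hz.1).union_of_isClosed
        (hG₃.fullCont (hdimR ▸ hd)) ((isClosed_box a bM).prod isClosed_Icc)
        ((isClosed_box aM b).prod isClosed_Icc)).mono ?_
      rintro ⟨x, t⟩ ⟨hx, ht⟩
      exact (hLR x hx).imp (fun h => ⟨h, ht⟩) fun h => ⟨h, ht⟩
    · rcases hLR z.1 hz.1 with h | h
      · rw [h32 _ h]; exact hG₂.fullCtl (hdimL ▸ hd) z ⟨h, hz.2⟩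
      · exact hG₃.fullCtl (hdimR ▸ hd) z ⟨h, hz.2⟩

/-- Lifting along a column of slabs. -/
theorem exists_column_fill {n : ℕ} (hV : ∀ p q : P, ∀ h : p ≤ q, Good n (discsMap (vIncl f h)))
    (B : CellBound m N P) (a b : Fin m → ℕ) (hab : ∀ i, a i ≤ b i) (hbN : ∀ i, b i ≤ N)
    (hdim : boxDim a b ≤ n + 1) (l₀ : ℕ) (G₀ : GridPt m → E) (d : ℕ) (hd : l₀ + d ≤ N)
    (hc : ContinuousOn G₀ (box a b ×ˢ {(l₀ : ℝ)} ∪ boxBdy a b ×ˢ Icc (l₀ : ℝ) (l₀ + d)))
    (hctl : ∀ z ∈ box a b ×ˢ {(l₀ : ℝ)} ∪ boxBdy a b ×ˢ Icc (l₀ : ℝ) (l₀ + d),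
      Controlled f B z (G₀ z)) :
    ∃ G : GridPt m → E,
      (∀ z, z ∉ (box a b \ boxBdy a b) ×ˢ Ioi (l₀ : ℝ) → G z = G₀ z) ∧
      ContinuousOn G (box a b ×ˢ {(l₀ : ℝ) + d}) ∧
      (∀ x ∈ box a b, Controlled f B (x, (l₀ : ℝ) + d) (G (x, (l₀ : ℝ) + d))) ∧
      (boxDim a b ≤ n → ContinuousOn G (box a b ×ˢ Icc (l₀ : ℝ) (l₀ + d)) ∧
        ∀ z ∈ box a b ×ˢ Icc (l₀ : ℝ) (l₀ + d), Controlled f B z (G z)) := by
  induction d with
  | zero =>
    refine ⟨G₀, fun _ _ => rfl, ?_, fun x hx => ?_, fun _ => ⟨?_, fun z hz => ?_⟩⟩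
    · simpa using hc.mono subset_union_left
    · refine hctl _ (Or.inl ⟨hx, ?_⟩); simp
    · refine hc.mono fun z hz => Or.inl ⟨hz.1, ?_⟩
      simpa [le_antisymm_iff, and_comm] using hz.2
    · refine hctl _ (Or.inl ⟨hz.1, ?_⟩)
      simpa [le_antisymm_iff, and_comm] using hz.2
  | succ d ih =>
    have hle : box a b ×ˢ {(l₀ : ℝ)} ∪ boxBdy a b ×ˢ Icc (l₀ : ℝ) (l₀ + d) ⊆
        box a b ×ˢ {(l₀ : ℝ)} ∪ boxBdy a b ×ˢ Icc (l₀ : ℝ) (l₀ + (d + 1 : ℕ)) :=
      union_subset_union Subset.rfl (prod_mono Subset.rfl (Icc_subset_Icc le_rfl (by simp)))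
    obtain ⟨G, hoff, htc, htl, hfull⟩ :=
      ih (by omega) (hc.mono hle) fun z hz => hctl z (hle hz)
    have hcast : ((l₀ + d : ℕ) : ℝ) = (l₀ : ℝ) + d := by push_cast; ring
    have hcast' : ((l₀ + d : ℕ) : ℝ) + 1 = (l₀ : ℝ) + (d + 1 : ℕ) := by push_cast; ring
    have hside : ∀ z ∈ boxBdy a b ×ˢ Icc ((l₀ + d : ℕ) : ℝ) ((l₀ + d : ℕ) + 1), G z = G₀ z :=
      fun z hz => hoff z fun h => h.1.2 hz.1
    have hsub : boxBdy a b ×ˢ Icc ((l₀ + d : ℕ) : ℝ) ((l₀ + d : ℕ) + 1) ⊆
        box a b ×ˢ {(l₀ : ℝ)} ∪ boxBdy a b ×ˢ Icc (l₀ : ℝ) (l₀ + (d + 1 : ℕ)) := by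
      refine fun z hz => Or.inr ⟨hz.1, ?_, ?_⟩
      · exact le_trans (by simp) hz.2.1
      · exact hz.2.2.trans hcast'.le
    obtain ⟨G', hG'⟩ := exists_slab_fill hV B (l₀ + d) (by omega) _ a b rfl hab hbN hdim G
      (by
        refine ((htc.mono ?_).union_of_isClosed ((hc.mono hsub).congr hside)
          ((isClosed_box a b).prod isClosed_singleton) ((isClosed_boxBdy a b).prod isClosed_Icc))
        rw [hcast])
      (by
        rintro ⟨x, t⟩ (⟨hx, ht⟩ | hz)
        · rw [mem_singleton_iff, hcast] at ht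
          subst ht
          exact htl x hx
        · rw [hside _ hz]; exact hctl _ (hsub hz))
    have hkeep : ∀ z : GridPt m, z.2 ≤ (l₀ + d : ℕ) → G' z = G z := fun z hz =>
      hG'.eqOff z fun h => (h.2.1.trans_le hz).false
    refine ⟨G', fun z hz => ?_, ?_, fun x hx => ?_, fun hn => ⟨?_, fun z hz => ?_⟩⟩
    · rw [hG'.eqOff z fun h => hz ⟨h.1, lt_of_le_of_lt (by simp) h.2.1⟩, hoff z hz]
    · rw [← hcast']; exact hG'.topCont
    · rw [← hcast']; exact hG'.topCtl x hx
    · refine ((((hfull hn).1).congr fun z hz => hkeep z (by rw [hcast]; exact hz.2.2)).union_of_isClosed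
        (hG'.fullCont hn) ((isClosed_box a b).prod isClosed_Icc)
        ((isClosed_box a b).prod isClosed_Icc)).mono ?_
      rintro ⟨x, t⟩ ⟨hx, h₁, h₂⟩
      rcases le_total t ((l₀ + d : ℕ) : ℝ) with h | h
      · exact Or.inl ⟨hx, h₁, h.trans hcast.le⟩
      · exact Or.inr ⟨hx, h, h₂.trans hcast'.ge⟩
    · rcases le_total z.2 ((l₀ + d : ℕ) : ℝ) with h | h
      · rw [hkeep z h]
        exact (hfull hn).2 z ⟨hz.1, hz.2.1, h.trans hcast.le⟩
      · exact hG'.fullCtl hn z ⟨hz.1, h, hz.2.2.trans hcast'.ge⟩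

end Vale.Agent.P259
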