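import Vale.Agent.P259.Natural
import Vale.Agent.P259.Universal
import Vale.Agent.P259.HomSet

/-!
# Suspension of globular sums and hom groupoids
-/

noncomputable section

namespace Vale.Agent.P259

open CategoryTheory

namespace Tree

/-- The suspension of a globular sum. -/
abbrev susp (S : Tree) : Tree := cons S nil

/-- The action of suspension on cells. -/
def suspApp {S T : Tree} (θ : GlobMap S.glob T.glob) : ∀ n, (susp S).Cell n → (susp T).Cell n
  | 0, none => none
  | 0, some u => some u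
  | n + 1, Sum.inl c => Sum.inl (θ.app n c)
  | _ + 1, Sum.inr c => nomatch c

/-- Suspension of globular maps. -/
def suspGlob {S T : Tree} (θ : GlobMap S.glob T.glob) :
    GlobMap (susp S).glob (susp T).glob where
  app := suspApp θ
  comm_s
    | 0, Sum.inl _ => rfl
    | n + 1, Sum.inl c => congrArg Sum.inl (θ.comm_s n c)
    | _, Sum.inr c => nomatch c
  comm_t
    | 0, Sum.inl _ => rfl
    | n + 1, Sum.inl c => congrArg Sum.inl (θ.comm_t n c)
    | _, Sum.inr c => nomatch c

theorem suspGlob_id (S : Tree) : suspGlob (GlobMap.id S.glob) = GlobMap.id (susp S).glob :=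
  GlobMap.ext' fun n c => by
    match n, c with
    | 0, none => rfl
    | 0, some _ => rfl
    | n + 1, Sum.inl _ => rfl
    | n + 1, Sum.inr c => exact nomatch c

theorem suspGlob_comp {S T U : Tree} (θ : GlobMap S.glob T.glob) (η : GlobMap T.glob U.glob) :
    suspGlob (θ.comp η) = (suspGlob θ).comp (suspGlob η) :=
  GlobMap.ext' fun n c => by
    match n, c with
    | 0, none => rfl
    | 0, some _ => rfl
    | n + 1, Sum.inl _ => rfl
    | n + 1, Sum.inr c => exact nomatch c

theorem suspGlob_cellGlob {S : Tree} {n : ℕ} (c : S.Cell n) :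
    suspGlob (cellGlob c) = cellGlob (S := susp S) (n := n + 1) (Sum.inl c) :=
  GlobMap.disc_ext (n := n + 1) (by
    exact (congrArg Sum.inl (classify_top S.glob n c)).trans
      (classify_top (susp S).glob (n + 1) (Sum.inl c)).symm)

theorem disc_src_zero : ∀ (n : ℕ) (c : (disc (n + 1)).Cell 1), (disc (n + 1)).src 0 c = none
  | _, Sum.inl _ => rfl
  | _, Sum.inr c => nomatch c

theorem disc_tgt_zero : ∀ (n : ℕ) (c : (disc (n + 1)).Cell 1), (disc (n + 1)).tgt 0 c = some ()
  | _, Sum.inl _ => rfl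
  | _, Sum.inr c => nomatch c

end Tree

namespace GlobExt

variable (C : GlobExt)

/-- The source pole of a suspension. -/
def srcPole (S : Tree) : C.Hom Tree.nil (Tree.susp S) :=
  C.emb (Tree.cellGlob (S := Tree.susp S) (n := 0) none)

/-- The target pole of a suspension. -/
def tgtPole (S : Tree) : C.Hom Tree.nil (Tree.susp S) :=
  C.emb (Tree.cellGlob (S := Tree.susp S) (n := 0) (some ()))

/-- Preserving both poles. -/
def PolePres {S T : Tree} (f : C.Hom (Tree.susp S) (Tree.susp T)) : Prop :=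
  C.comp (C.srcPole S) f = C.srcPole T ∧ C.comp (C.tgtPole S) f = C.tgtPole T

theorem polePres_emb {S T : Tree} (θ : GlobMap S.glob T.glob) :
    C.PolePres (C.emb (Tree.suspGlob θ)) :=
  ⟨C.emb_cell_comp _ _, C.emb_cell_comp _ _⟩

variable {C} in
theorem PolePres.comp {S T U : Tree} {f : C.Hom (Tree.susp S) (Tree.susp T)}
    {g : C.Hom (Tree.susp T) (Tree.susp U)} (hf : C.PolePres f) (hg : C.PolePres g) :
    C.PolePres (C.comp f g) :=
  ⟨by rw [← C.assoc, hf.1, hg.1], by rw [← C.assoc, hf.2, hg.2]⟩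

theorem comp_σ_emb_cell {S : Tree} {n : ℕ} (c : (Tree.susp S).Cell (n + 1)) :
    C.comp (C.σ n) (C.emb (Tree.cellGlob c)) = C.emb (Tree.cellGlob ((Tree.susp S).src n c)) :=
  C.σ_cell c

/-- The family of cells of a suspension given by poles and cells of the fibre. -/
def suspFamily {S U : Tree} (p q : C.Hom Tree.nil U)
    (f : ∀ n, S.Cell n → C.Hom (Tree.disc (n + 1)) U) :
    ∀ n, (Tree.susp S).Cell n → C.Hom (Tree.disc n) U
  | 0, none => p
  | 0, some _ => q
  | n + 1, Sum.inl c => f n c
  | _ + 1, Sum.inr c => nomatch c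

/-- Maps out of a suspension are glued from the cells. -/
theorem susp_glue {S U : Tree} (p q : C.Hom Tree.nil U)
    (f : ∀ n, S.Cell n → C.Hom (Tree.disc (n + 1)) U)
    (hp : ∀ c, C.comp (C.σ 0) (f 0 c) = p) (hq : ∀ c, C.comp (C.τ 0) (f 0 c) = q)
    (hs : ∀ n c, C.comp (C.σ (n + 1)) (f (n + 1) c) = f n (S.src n c))
    (ht : ∀ n c, C.comp (C.τ (n + 1)) (f (n + 1) c) = f n (S.tgt n c)) :
    ∃! g : C.Hom (Tree.susp S) U, ∀ n (c : (Tree.susp S).Cell n),
      C.comp (C.emb (Tree.cellGlob c)) g = C.suspFamily p q f n c := by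
  refine C.glue (C.suspFamily p q f) (fun n c => ?_) (fun n c => ?_)
  · match n, c with
    | 0, Sum.inl c => exact hp c
    | n + 1, Sum.inl c => exact hs n c
    | n, Sum.inr c => exact nomatch c
  · match n, c with
    | 0, Sum.inl c => exact hq c
    | n + 1, Sum.inl c => exact ht n c
    | n, Sum.inr c => exact nomatch c

/-- The globular extension of pole preserving maps between suspensions. -/
def suspExt : GlobExt where
  Hom S T := {f : C.Hom (Tree.susp S) (Tree.susp T) // C.PolePres f}
  id S := ⟨C.id _, C.comp_id _, C.comp_id _⟩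
  comp f g := ⟨C.comp f.1 g.1, f.2.comp g.2⟩
  id_comp f := Subtype.ext (C.id_comp _)
  comp_id f := Subtype.ext (C.comp_id _)
  assoc f g h := Subtype.ext (C.assoc _ _ _)
  emb θ := ⟨C.emb (Tree.suspGlob θ), C.polePres_emb θ⟩
  emb_id S := Subtype.ext (by simp only [Tree.suspGlob_id, C.emb_id])
  emb_comp θ η := Subtype.ext (by simp only [Tree.suspGlob_comp, C.emb_comp])
  glue {S T} f hs ht := by
    obtain ⟨g, hg, hu⟩ := C.susp_glue (C.srcPole T) (C.tgtPole T) (fun n c => (f n c).1)
      (fun c => (f 0 c).2.1) (fun c => (f 0 c).2.2)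
      (fun n c => by
        have h : C.comp (C.emb (Tree.suspGlob (σG n))) (f (n + 1) c).1 = (f n (S.src n c)).1 :=
          congrArg Subtype.val (hs n c)
        rwa [show Tree.suspGlob (σG n) = σG (n + 1) from Tree.suspGlob_cellGlob _] at h)
      (fun n c => by
        have h : C.comp (C.emb (Tree.suspGlob (τG n))) (f (n + 1) c).1 = (f n (S.tgt n c)).1 :=
          congrArg Subtype.val (ht n c)
        rwa [show Tree.suspGlob (τG n) = τG (n + 1) from Tree.suspGlob_cellGlob _] at h)
    refine ⟨⟨g, hg 0 none, hg 0 (some ())⟩, fun n c => Subtype.ext ?_, fun g' hg' => Subtype.ext ?_⟩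
    · show C.comp (C.emb (Tree.suspGlob (Tree.cellGlob c))) g = _
      rw [Tree.suspGlob_cellGlob]
      exact hg (n + 1) (Sum.inl c)
    · refine hu g'.1 fun n c => ?_
      match n, c with
      | 0, none => exact g'.2.1
      | 0, some _ => exact g'.2.2
      | n + 1, Sum.inl c =>
        rw [← Tree.suspGlob_cellGlob]
        exact congrArg Subtype.val (hg' n c)
      | n + 1, Sum.inr c => exact nomatch c

theorem suspExt_contractible (hC : C.Contractible) : C.suspExt.Contractible := by
  intro n S f g hfg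
  have hσ : ∀ m, (C.suspExt.σ m).1 = C.σ (m + 1) := fun m =>
    congrArg C.emb (Tree.suspGlob_cellGlob _)
  have hτ : ∀ m, (C.suspExt.τ m).1 = C.τ (m + 1) := fun m =>
    congrArg C.emb (Tree.suspGlob_cellGlob _)
  have hpar : C.Parallel (n := n + 1) f.1 g.1 := by
    cases n with
    | zero => exact ⟨f.2.1.trans g.2.1.symm, f.2.2.trans g.2.2.symm⟩
    | succ m =>
      obtain ⟨h₁, h₂⟩ := hfg
      constructor
      · rw [← hσ]; exact congrArg Subtype.val h₁
      · rw [← hτ]; exact congrArg Subtype.val h₂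
  obtain ⟨h, h₁, h₂⟩ := hC (n := n + 1) (S := Tree.susp S) f.1 g.1 hpar
  refine ⟨⟨h, ?_, ?_⟩, Subtype.ext ?_, Subtype.ext ?_⟩
  · have e : C.comp (C.srcPole (Tree.disc n)) (C.σ (n + 1)) = C.srcPole (Tree.disc (n + 1)) := by
      rw [← hσ]; exact (C.suspExt.σ n).2.1
    exact ((congrArg (fun k => C.comp k h) e.symm).trans (C.assoc _ _ _)).trans
      ((congrArg (C.comp (C.srcPole (Tree.disc n))) h₁).trans f.2.1)
  · have e : C.comp (C.tgtPole (Tree.disc n)) (C.σ (n + 1)) = C.tgtPole (Tree.disc (n + 1)) := by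
      rw [← hσ]; exact (C.suspExt.σ n).2.2
    exact ((congrArg (fun k => C.comp k h) e.symm).trans (C.assoc _ _ _)).trans
      ((congrArg (C.comp (C.tgtPole (Tree.disc n))) h₁).trans f.2.2)
  · show C.comp (C.suspExt.σ n).1 h = f.1
    rw [hσ]; exact h₁
  · show C.comp (C.suspExt.τ n).1 h = g.1
    rw [hτ]; exact h₂

end GlobExt

/-- A suspension of a coherator. -/
def Coherator.suspHom (K : Coherator) : ExtHom K.colim K.colim.suspExt :=
  Classical.choice (K.exists_extHom (K.colim.suspExt_contractible K.contractible))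

namespace Gpd

variable {K : Coherator} {X Y : Gpd K.colim}

/-- The groupoid of cells between two objects. -/
@[reducible] def homGpd (X : Gpd K.colim) (x y : X.cell 0) : Gpd K.colim where
  obj S := {c : X.obj (Tree.susp S) //
    X.map (K.colim.srcPole S) c = x ∧ X.map (K.colim.tgtPole S) c = y}
  map f c := ⟨X.map (K.suspHom.map f).1 c.1,
    by rw [← X.map_comp, (K.suspHom.map f).2.1, c.2.1],
    by rw [← X.map_comp, (K.suspHom.map f).2.2, c.2.2]⟩
  map_id {S} c := Subtype.ext (by
    show X.map (K.suspHom.map (K.colim.id S)).1 c.1 = c.1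
    rw [← K.colim.emb_id, K.suspHom.map_emb]
    show X.map (K.colim.emb (Tree.suspGlob (GlobMap.id S.glob))) c.1 = c.1
    rw [Tree.suspGlob_id, K.colim.emb_id, X.map_id])
  map_comp f g c := Subtype.ext (by
    show X.map (K.suspHom.map (K.colim.comp f g)).1 c.1 = _
    rw [K.suspHom.map_comp]
    exact X.map_comp _ _ _)
  segal {S} a h₁ h₂ := by
    have hemb : ∀ {A B : Tree} (θ : GlobMap A.glob B.glob),
        (K.suspHom.map (K.colim.emb θ)).1 = K.colim.emb (Tree.suspGlob θ) := fun θ => by
      rw [K.suspHom.map_emb]; rfl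
    let fam : ∀ n, (Tree.susp S).Cell n → X.obj (Tree.disc n) := fun n =>
      match n with
      | 0 => fun c => Option.elim c x fun _ => y
      | n + 1 => fun c => Sum.elim (fun c => (a n c).1) (fun c => nomatch c) c
    have hσ : ∀ n (c : S.Cell (n + 1)),
        X.map (K.colim.σ (n + 1)) (a (n + 1) c).1 = (a n (S.src n c)).1 := fun n c => by
      have h := congrArg Subtype.val (h₁ n c)
      refine Eq.trans ?_ h
      show _ = X.map (K.suspHom.map (K.colim.emb (σG n))).1 _
      rw [hemb, show Tree.suspGlob (σG n) = σG (n + 1) from Tree.suspGlob_cellGlob _]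
      rfl
    have hτ : ∀ n (c : S.Cell (n + 1)),
        X.map (K.colim.τ (n + 1)) (a (n + 1) c).1 = (a n (S.tgt n c)).1 := fun n c => by
      have h := congrArg Subtype.val (h₂ n c)
      refine Eq.trans ?_ h
      show _ = X.map (K.suspHom.map (K.colim.emb (τG n))).1 _
      rw [hemb, show Tree.suspGlob (τG n) = τG (n + 1) from Tree.suspGlob_cellGlob _]
      rfl
    obtain ⟨z, hz, hu⟩ := X.segal (S := Tree.susp S) fam
      (fun n c => by
        match n, c with
        | 0, Sum.inl c => exact (a 0 c).2.1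
        | n + 1, Sum.inl c => exact hσ n c
        | n, Sum.inr c => exact nomatch c)
      (fun n c => by
        match n, c with
        | 0, Sum.inl c => exact (a 0 c).2.2
        | n + 1, Sum.inl c => exact hτ n c
        | n, Sum.inr c => exact nomatch c)
    refine ⟨⟨z, hz 0 none, hz 0 (some ())⟩, fun n c => Subtype.ext ?_,
      fun z' hz' => Subtype.ext (hu z'.1 fun n c => ?_)⟩
    · show X.map (K.suspHom.map (K.colim.emb (Tree.cellGlob c))).1 z = _
      rw [hemb, Tree.suspGlob_cellGlob]
      exact hz (n + 1) (Sum.inl c)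
    · match n, c with
      | 0, none => exact z'.2.1
      | 0, some _ => exact z'.2.2
      | n + 1, Sum.inl c =>
        exact ((congrArg (fun θ => X.map (K.colim.emb θ) z'.1) (Tree.suspGlob_cellGlob c)).symm.trans
          (congrArg (fun k => X.map k z'.1) (hemb _)).symm).trans
          (congrArg Subtype.val (hz' n c))
      | n + 1, Sum.inr c => exact nomatch c

theorem homGpd_map_σ {x y : X.cell 0} (n : ℕ) (c : (X.homGpd x y).cell (n + 1)) :
    ((X.homGpd x y).map (K.colim.σ n) c).1 = X.map (K.colim.σ (n + 1)) c.1 := by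
  show X.map (K.suspHom.map (K.colim.emb (σG n))).1 c.1 = _
  rw [K.suspHom.map_emb]
  show X.map (K.colim.emb (Tree.suspGlob (σG n))) c.1 = _
  rw [show Tree.suspGlob (σG n) = σG (n + 1) from Tree.suspGlob_cellGlob _]
  rfl

theorem homGpd_map_τ {x y : X.cell 0} (n : ℕ) (c : (X.homGpd x y).cell (n + 1)) :
    ((X.homGpd x y).map (K.colim.τ n) c).1 = X.map (K.colim.τ (n + 1)) c.1 := by
  show X.map (K.suspHom.map (K.colim.emb (τG n))).1 c.1 = _
  rw [K.suspHom.map_emb]
  show X.map (K.colim.emb (Tree.suspGlob (τG n))) c.1 = _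
  rw [show Tree.suspGlob (τG n) = τG (n + 1) from Tree.suspGlob_cellGlob _]
  rfl

/-- The map on hom groupoids. -/
def homMap (φ : X ⟶ Y) {x y : X.cell 0} {x' y' : Y.cell 0} (hx : φ.app _ x = x')
    (hy : φ.app _ y = y') : X.homGpd x y ⟶ Y.homGpd x' y' where
  app S c := ⟨φ.app _ c.1, by rw [← φ.natural, c.2.1]; exact hx,
    by rw [← φ.natural, c.2.2]; exact hy⟩
  natural f c := Subtype.ext (φ.natural _ _)

theorem vs_glob (X : Gpd K.colim) : ∀ (n : ℕ) (c : X.cell n),
    X.glob.vs n c = X.map (K.colim.emb (Tree.cellGlob (Tree.disc n).first)) c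
  | 0, c => by
    show c = _
    rw [show Tree.cellGlob (S := Tree.disc 0) (Tree.disc 0).first = GlobMap.id _ from
      cellGlob_top 0, K.colim.emb_id]
    exact (X.map_id c).symm
  | n + 1, c => by
    show X.glob.vs n (X.map (K.colim.σ n) c) = _
    rw [vs_glob X n, ← X.map_comp, GlobExt.σ, K.colim.emb_cell_comp]
    refine congrArg (fun a => X.map (K.colim.emb (Tree.cellGlob a)) c) ?_
    cases n with
    | zero => rfl
    | succ n =>
      exact (((σG (n + 1)).comm_s 0 (Sum.inl (Tree.disc n).first)).symm.trans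
        (Tree.disc_src_zero (n + 1) _))

theorem vs_glob_pole (X : Gpd K.colim) (n : ℕ) (c : X.cell (n + 1)) :
    X.glob.vs (n + 1) c = X.map (K.colim.srcPole (Tree.disc n)) c :=
  vs_glob X (n + 1) c

theorem vt_glob_pole (X : Gpd K.colim) : ∀ (n : ℕ) (c : X.cell (n + 1)),
    X.glob.vt (n + 1) c = X.map (K.colim.tgtPole (Tree.disc n)) c
  | 0, _ => rfl
  | n + 1, c => by
    show X.glob.vt (n + 1) (X.map (K.colim.τ (n + 1)) c) = _
    refine (vt_glob_pole X n _).trans ((X.map_comp _ _ c).symm.trans ?_)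
    refine (congrArg (fun k => X.map k c)
      (K.colim.emb_cell_comp (S := Tree.disc (n + 1)) (n := 0) (some ()) (τG (n + 1)))).trans ?_
    refine congrArg (fun a => X.map (K.colim.emb (Tree.cellGlob a)) c) ?_
    exact (((τG (n + 1)).comm_t 0 (Sum.inl (Tree.disc n).first)).symm.trans
      (Tree.disc_tgt_zero (n + 1) _))

end Gpd

/-- Groupoids with two marked objects. -/
structure BiPt (K : Coherator) where
  X : Gpd K.colim
  x : X.cell 0
  y : X.cell 0

namespace BiPt

variable {K : Coherator}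

instance : Category (BiPt K) where
  Hom p q := {φ : p.X ⟶ q.X // φ.app _ p.x = q.x ∧ φ.app _ p.y = q.y}
  id p := ⟨𝟙 _, rfl, rfl⟩
  comp f g := ⟨f.1 ≫ g.1, by rw [Gpd.comp_app, f.2.1, g.2.1], by rw [Gpd.comp_app, f.2.2, g.2.2]⟩

theorem hom_ext {p q : BiPt K} {f g : p ⟶ q} (h : f.1 = g.1) : f = g := Subtype.ext h

/-- The globular map of cells between the marked objects. -/
def homCellsMap {p q : BiPt K} (φ : p ⟶ q) :
    GlobMap (p.X.glob.hom p.x p.y) (q.X.glob.hom q.x q.y) where
  app n c := ⟨φ.1.app _ c.1,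
    (GlobSet.vs_map (Gpd.globMap φ.1) (n + 1) c.1).trans
      ((congrArg (φ.1.app _) c.2.1).trans φ.2.1),
    (GlobSet.vt_map (Gpd.globMap φ.1) (n + 1) c.1).trans
      ((congrArg (φ.1.app _) c.2.2).trans φ.2.2)⟩
  comm_s n c := Subtype.ext ((Gpd.globMap φ.1).comm_s (n + 1) c.1)
  comm_t n c := Subtype.ext ((Gpd.globMap φ.1).comm_t (n + 1) c.1)

variable (K) in
/-- The cells between the marked objects. -/
@[reducible] def homCells : BiPt K ⥤ GlobSet where
  obj p := p.X.glob.hom p.x p.y
  map φ := homCellsMap φ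
  map_id _ := rfl
  map_comp _ _ := rfl

/-- The free cell between two objects. -/
@[reducible] def free (K : Coherator) (n : ℕ) : BiPt K where
  X := Gpd.rep K.colim (Tree.disc (n + 1))
  x := K.colim.srcPole (Tree.disc n)
  y := K.colim.tgtPole (Tree.disc n)

variable (K) in
/-- The universal cells between two objects. -/
def reps : Reps (homCells K) where
  obj n := free K n
  cell n := ⟨K.colim.id _,
    (Gpd.vs_glob_pole (free K n).X n (K.colim.id _)).trans (K.colim.comp_id _),
    (Gpd.vt_glob_pole (free K n).X n (K.colim.id _)).trans (K.colim.comp_id _)⟩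
  universal {p n} c := by
    refine ⟨⟨Gpd.yoneda c.1, ?_, ?_⟩, Subtype.ext (Gpd.yoneda_id c.1),
      fun f hf => hom_ext (Gpd.rep_hom_ext ((congrArg Subtype.val hf).trans
        (Gpd.yoneda_id c.1).symm))⟩
    · exact (Gpd.vs_glob_pole p.X n c.1).symm.trans c.2.1
    · exact (Gpd.vt_glob_pole p.X n c.1).symm.trans c.2.2

/-- From cells between the marked objects to the cells of the hom groupoid. -/
def toHomGpd (p : BiPt K) : GlobMap (p.X.glob.hom p.x p.y) (p.X.homGpd p.x p.y).glob where
  app n c := ⟨c.1, (Gpd.vs_glob_pole p.X n c.1).symm.trans c.2.1,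
    (Gpd.vt_glob_pole p.X n c.1).symm.trans c.2.2⟩
  comm_s n _ := Subtype.ext (Gpd.homGpd_map_σ n _)
  comm_t n _ := Subtype.ext (Gpd.homGpd_map_τ n _)

/-- From the cells of the hom groupoid to cells between the marked objects. -/
def ofHomGpd (p : BiPt K) : GlobMap (p.X.homGpd p.x p.y).glob (p.X.glob.hom p.x p.y) where
  app n c := ⟨c.1, (Gpd.vs_glob_pole p.X n c.1).trans c.2.1,
    (Gpd.vt_glob_pole p.X n c.1).trans c.2.2⟩
  comm_s n c := Subtype.ext (Gpd.homGpd_map_σ n c).symm
  comm_t n c := Subtype.ext (Gpd.homGpd_map_τ n c).symm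

theorem toHomGpd_ofHomGpd (p : BiPt K) :
    (toHomGpd p).comp (ofHomGpd p) = GlobMap.id _ := rfl

theorem ofHomGpd_toHomGpd (p : BiPt K) :
    (ofHomGpd p).comp (toHomGpd p) = GlobMap.id _ := rfl

/-- A map on cells of the hom groupoid is good if and only if it is on cells between the objects. -/
theorem good_toHomGpd_comp (p : BiPt K) {n : ℕ} {A : Type} [TopologicalSpace A]
    {θ : GlobMap (p.X.homGpd p.x p.y).glob (discs A)} (hθ : Good n θ) :
    Good n ((toHomGpd p).comp θ) := by
  have hback : ∀ (i : ℕ) (u v : (p.X.glob.hom p.x p.y).cell i),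
      (p.X.homGpd p.x p.y).glob.Rel i ((toHomGpd p).app i u) ((toHomGpd p).app i v) →
        (p.X.glob.hom p.x p.y).Rel i u v := fun i u v h => h.map (ofHomGpd p)
  refine ⟨fun w => ?_, fun i hi u v huv w hs ht => ?_, fun i hi u v huv h => hback i u v
    (hθ.inj i hi _ _ (GlobSet.par_map (toHomGpd p) huv) h)⟩
  · obtain ⟨u, hu⟩ := hθ.surj0 w
    exact ⟨(ofHomGpd p).app 0 u, hu⟩
  · obtain ⟨c, hcs, hct, hc⟩ := hθ.surj i hi _ _ (GlobSet.par_map (toHomGpd p) huv) w hs ht
    exact ⟨(ofHomGpd p).app _ c,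
      ((ofHomGpd p).comm_s i c).trans (congrArg ((ofHomGpd p).app i) hcs),
      ((ofHomGpd p).comm_t i c).trans (congrArg ((ofHomGpd p).app i) hct), hc⟩

end BiPt

end Vale.Agent.P259
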