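import Vale.Agent.P259.Partial
import Vale.Agent.P259.Eps

/-!
# The homotopy hypothesis, given disc functors and their contractibility
-/

noncomputable section

namespace Vale.Agent.P259

open CategoryTheory

/-- The homotopy hypothesis from the existence and contractibility of disc functors. -/
theorem homotopyHypothesis_of_discs (K : Coherator) (hex : Nonempty (DiscFunctor K.colim))
    (hcon : ∀ (D : DiscFunctor K.colim) (S : Tree),
      ∃ x, (ContinuousMap.id (D.space S).toTop).Homotopic (ContinuousMap.const _ x)) :
    HomotopyHypothesis K := by
  refine homotopyHypothesis_of K hex (span_FR K) fun D => ?_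
  obtain ⟨θ, hθ⟩ := exists_thetaReal K
  exact exists_eps D (hcon D) θ hθ

end Vale.Agent.P259
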