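import Vale.Agent.P259.Natural

/-!
# Moore paths in function spaces, and gluing maps out of the values of a disc functor
-/

noncomputable section

namespace Vale.Agent.P259

open CategoryTheory
open scoped unitInterval Topology
open Set Filter

/-- A map into the space of Moore paths of `Y`: a length and a path that is constant before time
`0` and after the length. -/
@[ext]
structure Moore (X Y : Type) [TopologicalSpace X] [TopologicalSpace Y] where
  len : C(X, ℝ)
  path : C(X × ℝ, Y)
  len_nonneg : ∀ x, 0 ≤ len x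
  left : ∀ x t, t ≤ 0 → path (x, t) = path (x, 0)
  right : ∀ x t, len x ≤ t → path (x, t) = path (x, len x)

namespace Moore

variable {X X' X'' Y Y' Y'' : Type} [TopologicalSpace X] [TopologicalSpace X']
  [TopologicalSpace X''] [TopologicalSpace Y] [TopologicalSpace Y'] [TopologicalSpace Y'']

/-- The initial point. -/
def start (P : Moore X Y) : C(X, Y) := P.path.comp ⟨fun x => (x, 0), by fun_prop⟩

/-- The final point. -/
def fin (P : Moore X Y) : C(X, Y) := P.path.comp ⟨fun x => (x, P.len x), by fun_prop⟩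

theorem start_apply (P : Moore X Y) (x : X) : P.start x = P.path (x, 0) := rfl

theorem fin_apply (P : Moore X Y) (x : X) : P.fin x = P.path (x, P.len x) := rfl

theorem ext_apply {P Q : Moore X Y} (h₁ : ∀ x, P.len x = Q.len x)
    (h₂ : ∀ x t, P.path (x, t) = Q.path (x, t)) : P = Q :=
  Moore.ext (ContinuousMap.ext h₁) (ContinuousMap.ext fun p => h₂ p.1 p.2)

/-- The constant path. -/
def refl (a : C(X, Y)) : Moore X Y where
  len := ContinuousMap.const X 0
  path := a.comp ContinuousMap.fst
  len_nonneg _ := le_rfl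
  left _ _ _ := rfl
  right _ _ _ := rfl

@[simp] theorem refl_start (a : C(X, Y)) : (refl a).start = a := rfl

@[simp] theorem refl_fin (a : C(X, Y)) : (refl a).fin = a := rfl

/-- Post-composition. -/
def map (P : Moore X Y) (g : C(Y, Y')) : Moore X Y' where
  len := P.len
  path := g.comp P.path
  len_nonneg := P.len_nonneg
  left x t h := congrArg g (P.left x t h)
  right x t h := congrArg g (P.right x t h)

/-- Pre-composition. -/
def pre (P : Moore X Y) (f : C(X', X)) : Moore X' Y where
  len := P.len.comp f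
  path := P.path.comp (f.prodMap (ContinuousMap.id ℝ))
  len_nonneg x := P.len_nonneg (f x)
  left x t h := P.left (f x) t h
  right x t h := P.right (f x) t h

@[simp] theorem map_start (P : Moore X Y) (g : C(Y, Y')) : (P.map g).start = g.comp P.start := rfl

@[simp] theorem map_fin (P : Moore X Y) (g : C(Y, Y')) : (P.map g).fin = g.comp P.fin := rfl

@[simp] theorem pre_start (P : Moore X Y) (f : C(X', X)) : (P.pre f).start = P.start.comp f := rfl

@[simp] theorem pre_fin (P : Moore X Y) (f : C(X', X)) : (P.pre f).fin = P.fin.comp f := rfl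

theorem map_id (P : Moore X Y) : P.map (ContinuousMap.id Y) = P := rfl

theorem map_map (P : Moore X Y) (g : C(Y, Y')) (h : C(Y', Y'')) :
    (P.map g).map h = P.map (h.comp g) := rfl

theorem pre_id (P : Moore X Y) : P.pre (ContinuousMap.id X) = P := rfl

theorem pre_pre (P : Moore X Y) (f : C(X', X)) (f' : C(X'', X')) :
    (P.pre f).pre f' = P.pre (f.comp f') := rfl

theorem map_pre (P : Moore X Y) (g : C(Y, Y')) (f : C(X', X)) :
    (P.map g).pre f = (P.pre f).map g := rfl

theorem map_refl (a : C(X, Y)) (g : C(Y, Y')) : (refl a).map g = refl (g.comp a) := rfl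

theorem pre_refl (a : C(X, Y)) (f : C(X', X)) : (refl a).pre f = refl (a.comp f) := rfl

/-- Concatenation. -/
def trans (P Q : Moore X Y) (h : P.fin = Q.start) : Moore X Y where
  len := P.len + Q.len
  path := ⟨fun p => if p.2 ≤ P.len p.1 then P.path p else Q.path (p.1, p.2 - P.len p.1), by
    refine continuous_if_le (by fun_prop) (by fun_prop) P.path.continuous.continuousOn
      (Q.path.continuous.comp (by fun_prop)).continuousOn fun p hp => ?_
    have h' := DFunLike.congr_fun h p.1
    rw [fin_apply, start_apply] at h'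
    show P.path p = Q.path (p.1, p.2 - P.len p.1)
    rw [show p = (p.1, P.len p.1) from Prod.ext rfl hp, h', sub_self]⟩
  len_nonneg x := add_nonneg (P.len_nonneg x) (Q.len_nonneg x)
  left x t ht := by
    simp only [ContinuousMap.coe_mk]
    rw [if_pos (ht.trans (P.len_nonneg x)), if_pos (P.len_nonneg x), P.left x t ht]
  right x t ht := by
    simp only [ContinuousMap.coe_mk]
    have ht' : P.len x + Q.len x ≤ t := ht
    show (if t ≤ P.len x then P.path (x, t) else Q.path (x, t - P.len x)) =
      if P.len x + Q.len x ≤ P.len x then P.path (x, P.len x + Q.len x)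
      else Q.path (x, P.len x + Q.len x - P.len x)
    have hP := P.len_nonneg x
    have hQ := Q.len_nonneg x
    by_cases h₁ : t ≤ P.len x
    · rw [if_pos h₁, if_pos (by linarith), show t = P.len x + Q.len x by linarith]
    · rw [if_neg h₁, Q.right x (t - P.len x) (by linarith)]
      by_cases h₂ : P.len x + Q.len x ≤ P.len x
      · have hQ0 : Q.len x = 0 := by linarith
        have h' := DFunLike.congr_fun h x
        rw [fin_apply, start_apply] at h'
        rw [if_pos h₂, hQ0, add_zero, h']
      · rw [if_neg h₂, add_sub_cancel_left]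

theorem trans_path (P Q : Moore X Y) (h : P.fin = Q.start) (x : X) (t : ℝ) :
    (P.trans Q h).path (x, t) =
      if t ≤ P.len x then P.path (x, t) else Q.path (x, t - P.len x) := rfl

theorem trans_start (P Q : Moore X Y) (h : P.fin = Q.start) :
    (P.trans Q h).start = P.start := by
  ext x
  rw [start_apply, trans_path, if_pos (P.len_nonneg x)]
  rfl

theorem trans_fin (P Q : Moore X Y) (h : P.fin = Q.start) : (P.trans Q h).fin = Q.fin := by
  ext x
  rw [fin_apply, trans_path]
  show (if P.len x + Q.len x ≤ P.len x then _ else _) = Q.fin x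
  split_ifs with h'
  · have hQ0 : Q.len x = 0 := le_antisymm (by linarith) (Q.len_nonneg x)
    have h'' := DFunLike.congr_fun h x
    rw [fin_apply, start_apply] at h''
    show P.path (x, P.len x + Q.len x) = _
    rw [hQ0, add_zero, h'', fin_apply, hQ0]
  · show Q.path (x, P.len x + Q.len x - P.len x) = _
    rw [add_sub_cancel_left]
    rfl

theorem trans_congr {P P' Q Q' : Moore X Y} (hP : P = P') (hQ : Q = Q') (h : P.fin = Q.start)
    (h' : P'.fin = Q'.start) : P.trans Q h = P'.trans Q' h' := by subst hP hQ; rfl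

theorem refl_trans (a : C(X, Y)) (Q : Moore X Y) (h : (refl a).fin = Q.start) :
    (refl a).trans Q h = Q := by
  refine ext_apply (fun x => zero_add _) fun x t => ?_
  rw [trans_path]
  show (if t ≤ 0 then a x else Q.path (x, t - 0)) = _
  split_ifs with ht
  · rw [Q.left x t ht]
    exact DFunLike.congr_fun h x
  · rw [sub_zero]

theorem trans_refl (P : Moore X Y) (a : C(X, Y)) (h : P.fin = (refl a).start) :
    P.trans (refl a) h = P := by
  refine ext_apply (fun x => add_zero _) fun x t => ?_
  rw [trans_path]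
  split_ifs with ht
  · rfl
  · rw [P.right x t (le_of_not_ge ht)]
    exact (DFunLike.congr_fun h x).symm

theorem trans_assoc (P Q R : Moore X Y) (h₁ : P.fin = Q.start) (h₂ : Q.fin = R.start) :
    (P.trans Q h₁).trans R ((trans_fin P Q h₁).trans h₂) =
      P.trans (Q.trans R h₂) (h₁.trans (trans_start Q R h₂).symm) := by
  refine ext_apply (fun x => add_assoc _ _ _) fun x t => ?_
  simp only [trans_path]
  show (if t ≤ P.len x + Q.len x then _ else R.path (x, t - (P.len x + Q.len x))) = _
  have hQ := Q.len_nonneg x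
  by_cases h₃ : t ≤ P.len x
  · rw [if_pos (by linarith), if_pos h₃, if_pos h₃]
  · by_cases h₄ : t ≤ P.len x + Q.len x
    · rw [if_pos h₄, if_neg h₃, if_neg h₃, if_pos (by linarith)]
    · rw [if_neg h₄, if_neg h₃, if_neg (by linarith), sub_sub]

theorem map_trans (P Q : Moore X Y) (h : P.fin = Q.start) (g : C(Y, Y')) :
    (P.trans Q h).map g = (P.map g).trans (Q.map g) (congrArg g.comp h) := by
  refine ext_apply (fun x => rfl) fun x t => ?_
  show g (if t ≤ P.len x then P.path (x, t) else Q.path (x, t - P.len x)) =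
    if t ≤ P.len x then g (P.path (x, t)) else g (Q.path (x, t - P.len x))
  exact apply_ite g _ _ _

theorem pre_trans (P Q : Moore X Y) (h : P.fin = Q.start) (f : C(X', X)) :
    (P.trans Q h).pre f =
      (P.pre f).trans (Q.pre f) (congrArg (fun a => ContinuousMap.comp a f) h) :=
  ext_apply (fun _ => rfl) fun _ _ => rfl

theorem min_max_eq (P : Moore X Y) (x : X) (t : ℝ) :
    P.path (x, min (max t 0) (P.len x)) = P.path (x, t) := by
  rcases le_total t 0 with ht | ht
  · rw [max_eq_right ht, min_eq_left (P.len_nonneg x), P.left x t ht]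
  · rw [max_eq_left ht]
    rcases le_total t (P.len x) with ht' | ht'
    · rw [min_eq_left ht']
    · rw [min_eq_right ht', P.right x t ht']

/-- Reparametrization by the unit interval. -/
def toI (P : Moore X Y) : C(X, C(I, Y)) :=
  (P.path.comp (⟨fun p => (p.1, (p.2 : ℝ) * P.len p.1), by fun_prop⟩ : C(X × I, X × ℝ))).curry

theorem toI_apply (P : Moore X Y) (x : X) (u : I) :
    P.toI x u = P.path (x, (u : ℝ) * P.len x) := rfl

theorem ev0_toI (P : Moore X Y) : (evI 0).comp P.toI = P.start := by
  ext x
  show P.path (x, ((0 : I) : ℝ) * P.len x) = _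
  simp [start_apply]

theorem ev1_toI (P : Moore X Y) : (evI 1).comp P.toI = P.fin := by
  ext x
  show P.path (x, ((1 : I) : ℝ) * P.len x) = _
  simp [fin_apply]

theorem toI_pre (P : Moore X Y) (f : C(X', X)) : (P.pre f).toI = P.toI.comp f := rfl

/-- Stretch a family of paths on the unit interval to a given length. -/
def ofI (A : C(X, C(I, Y))) (L : C(X, ℝ)) (hL : ∀ x, 0 ≤ L x)
    (hA : ∀ x, L x = 0 → ∀ u, A x u = A x 0) : Moore X Y where
  len := L
  path := ⟨fun p => A p.1 (projIcc 0 1 zero_le_one (p.2 / L p.1)), by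
    refine continuous_iff_continuousAt.2 fun p => ?_
    have hev : Continuous fun q : X × I => A q.1 q.2 := (ContinuousMap.uncurry A).continuous
    by_cases hp : L p.1 = 0
    · intro U hU
      obtain ⟨V, hVU, hV, hpV⟩ := mem_nhds_iff.1 hU
      have hconst : ∀ u : I, (fun q : X × I => A q.1 q.2) (p.1, u) ∈ V := fun u => by
        show A p.1 u ∈ V
        rwa [hA _ hp u, ← hA _ hp (projIcc 0 1 zero_le_one (p.2 / L p.1))]
      have h1 : ∀ᶠ x in 𝓝 p.1, ∀ u ∈ (univ : Set I), A x u ∈ V :=
        isCompact_univ.eventually_forall_of_forall_eventually fun u _ =>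
          (hev.tendsto (p.1, u)).eventually (hV.mem_nhds (hconst u))
      exact ((continuous_fst.tendsto p).eventually h1).mono fun q hq => hVU (hq _ trivial)
    · refine (hev.tendsto (p.1, projIcc 0 1 zero_le_one (p.2 / L p.1))).comp
        (f := fun q : X × ℝ => (q.1, projIcc 0 1 zero_le_one (q.2 / L q.1))) ?_
      refine ContinuousAt.prodMk continuousAt_fst ?_
      exact continuous_projIcc.continuousAt.comp
        (ContinuousAt.div continuousAt_snd (by fun_prop) hp)⟩
  len_nonneg := hL
  left x t ht := by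
    show A x _ = A x _
    congr 1
    rw [projIcc_of_le_left _ (div_nonpos_of_nonpos_of_nonneg ht (hL x)), zero_div,
      projIcc_of_le_left _ le_rfl]
  right x t ht := by
    show A x _ = A x _
    rcases eq_or_lt_of_le (hL x) with h0 | hpos
    · rw [hA x h0.symm, hA x h0.symm (projIcc 0 1 zero_le_one (L x / L x))]
    · congr 1
      rw [projIcc_of_right_le _ ((one_le_div hpos).2 ht), div_self hpos.ne',
        projIcc_of_right_le _ le_rfl]

theorem ofI_toI (A : C(X, C(I, Y))) (L : C(X, ℝ)) (hL : ∀ x, 0 ≤ L x)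
    (hA : ∀ x, L x = 0 → ∀ u, A x u = A x 0) : (ofI A L hL hA).toI = A := by
  ext x u
  show A x (projIcc 0 1 zero_le_one ((u : ℝ) * L x / L x)) = A x u
  by_cases hx : L x = 0
  · rw [hA x hx, hA x hx u]
  · rw [mul_div_assoc, div_self hx, mul_one, projIcc_val]

theorem ofI_start (A : C(X, C(I, Y))) (L : C(X, ℝ)) (hL : ∀ x, 0 ≤ L x)
    (hA : ∀ x, L x = 0 → ∀ u, A x u = A x 0) :
    (ofI A L hL hA).start = (evI 0).comp A := by rw [← ev0_toI, ofI_toI]

theorem ofI_fin (A : C(X, C(I, Y))) (L : C(X, ℝ)) (hL : ∀ x, 0 ≤ L x)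
    (hA : ∀ x, L x = 0 → ∀ u, A x u = A x 0) :
    (ofI A L hL hA).fin = (evI 1).comp A := by rw [← ev1_toI, ofI_toI]

theorem eq_of_toI {P Q : Moore X Y} (hl : P.len = Q.len) (hp : P.toI = Q.toI) : P = Q := by
  refine ext_apply (fun x => DFunLike.congr_fun hl x) fun x t => ?_
  rw [← P.min_max_eq, ← Q.min_max_eq, ← hl]
  set s := min (max t 0) (P.len x)
  have hs0 : 0 ≤ s := le_min (le_max_right _ _) (P.len_nonneg x)
  have hsL : s ≤ P.len x := min_le_right _ _
  rcases eq_or_lt_of_le (P.len_nonneg x) with h0 | hpos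
  · have h := DFunLike.congr_fun (DFunLike.congr_fun hp x) 0
    rw [toI_apply, toI_apply, Icc.coe_zero, zero_mul, zero_mul] at h
    rwa [show s = 0 by linarith]
  · have hu : s / P.len x ∈ Icc (0 : ℝ) 1 := ⟨div_nonneg hs0 hpos.le, (div_le_one hpos).2 hsL⟩
    have h := DFunLike.congr_fun (DFunLike.congr_fun hp x) ⟨_, hu⟩
    rw [toI_apply, toI_apply, ← hl, div_mul_cancel₀ _ hpos.ne'] at h
    exact h

end Moore

/-- Fill a parallel pair of Moore paths of discs by a cell with given unit-interval path. -/
theorem exists_moore_of_paths {Y : Type} [TopologicalSpace Y] {n : ℕ}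
    (u v : Moore (Ball n) Y) (M : C(Ball (n + 1), C(I, Y)))
    (hlen : (discs ℝ).Par u.len v.len)
    (hs : M.comp hemS = u.toI) (ht : M.comp hemT = v.toI) :
    ∃ P : Moore (Ball (n + 1)) Y, P.pre hemS = u ∧ P.pre hemT = v ∧ P.toI = M := by
  let b := glueSphere u.len v.len hlen
  obtain ⟨H, -, hH⟩ := exists_homotopy_extension
    (ContinuousMap.const (Ball (n + 1)) (0 : ℝ))
    ⟨fun p => (p.2 : ℝ) * b p.1, by fun_prop⟩ (fun z => by simp)
  let L : C(Ball (n + 1), ℝ) :=
    ⟨fun x => max (H (x, 1)) 0 + (1 - ‖x.1‖), by fun_prop⟩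
  have hLs : ∀ y : Ball n, L (hemS y) = u.len y := fun y => by
    show max (H (hemS y, 1)) 0 + (1 - ‖(hemS y).1‖) = u.len y
    rw [norm_hemS, sub_self, add_zero, hH _ _ (norm_hemS y)]
    show max (((1 : I) : ℝ) * b ⟨(hemS y).1, _⟩) 0 = u.len y
    rw [Icc.coe_one, one_mul,
      show b ⟨(hemS y).1, _⟩ = u.len y from glueSphere_hemS u.len v.len hlen y,
      max_eq_left (u.len_nonneg y)]
  have hLt : ∀ y : Ball n, L (hemT y) = v.len y := fun y => by
    show max (H (hemT y, 1)) 0 + (1 - ‖(hemT y).1‖) = v.len y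
    rw [norm_hemT, sub_self, add_zero, hH _ _ (norm_hemT y)]
    show max (((1 : I) : ℝ) * b ⟨(hemT y).1, _⟩) 0 = v.len y
    rw [Icc.coe_one, one_mul,
      show b ⟨(hemT y).1, _⟩ = v.len y from glueSphere_hemT u.len v.len hlen y,
      max_eq_left (v.len_nonneg y)]
  have hpos : ∀ x, 0 ≤ L x := fun x =>
    add_nonneg (le_max_right _ _) (sub_nonneg.2 (norm_ball_le x))
  have hzero : ∀ x, L x = 0 → ∀ r, M x r = M x 0 := fun x hx r => by
    have hx' : max (H (x, 1)) 0 + (1 - ‖x.1‖) = 0 := hx
    have h1 : ‖x.1‖ = 1 := by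
      linarith [norm_ball_le x, le_max_right (H (x, 1)) 0]
    rcases le_total (Eu.last x.1) 0 with hl | hl
    · obtain ⟨y, rfl⟩ : ∃ y, x = hemS y := ⟨_, (eq_hem_of_norm_eq_one h1).1 hl⟩
      rw [show M (hemS y) = u.toI y from DFunLike.congr_fun hs y, Moore.toI_apply,
        Moore.toI_apply, ← hLs, hx, mul_zero, mul_zero]
    · obtain ⟨y, rfl⟩ : ∃ y, x = hemT y := ⟨_, (eq_hem_of_norm_eq_one h1).2 hl⟩
      rw [show M (hemT y) = v.toI y from DFunLike.congr_fun ht y, Moore.toI_apply,
        Moore.toI_apply, ← hLt, hx, mul_zero, mul_zero]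
  refine ⟨Moore.ofI M L hpos hzero, Moore.eq_of_toI (ContinuousMap.ext hLs) ?_,
    Moore.eq_of_toI (ContinuousMap.ext hLt) ?_, Moore.ofI_toI _ _ _ _⟩
  · rw [Moore.toI_pre, Moore.ofI_toI, hs]
  · rw [Moore.toI_pre, Moore.ofI_toI, ht]

/-! ### The compactly generated topology -/

/-- A space with its compactly generated topology. -/
def KSp (Y : Type) : Type := Y

instance (Y : Type) [TopologicalSpace Y] : TopologicalSpace (KSp Y) :=
  TopologicalSpace.compactlyGenerated.{0} Y

/-- A point in the compactly generated topology. -/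
def KSp.mk {Y : Type} (y : Y) : KSp Y := y

/-- A point in the original topology. -/
def KSp.get {Y : Type} (y : KSp Y) : Y := y

theorem KSp.continuous_mk {Y : Type} [TopologicalSpace Y] (S : CompHaus.{0}) (g : C(S, Y)) :
    Continuous fun s : S => KSp.mk (g s) := by
  refine continuous_def.2 fun U hU => ?_
  exact isOpen_sigma_iff.1 (isOpen_coinduced.1 hU) ⟨S, g⟩

/-- Into the compactly generated topology. -/
def KSp.lift {X Y : Type} [TopologicalSpace X] [UCompactlyGeneratedSpace.{0} X]
    [TopologicalSpace Y] (f : C(X, Y)) : C(X, KSp Y) where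
  toFun x := KSp.mk (f x)
  continuous_toFun :=
    continuous_from_uCompactlyGeneratedSpace _ fun S g => KSp.continuous_mk S (f.comp g)

/-- Out of the compactly generated topology. -/
def KSp.out (Y : Type) [TopologicalSpace Y] : C(KSp Y, Y) :=
  ⟨KSp.get, by exact continuous_from_compactlyGenerated (X := Y) _ fun _ g => g.continuous⟩

instance (Y : Type) [TopologicalSpace Y] : UCompactlyGeneratedSpace.{0} (KSp Y) :=
  uCompactlyGeneratedSpace_of_continuous_maps fun f h => by
    exact continuous_from_compactlyGenerated (X := Y) (fun y => f (KSp.mk y))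
      fun S g => h S ⟨_, KSp.continuous_mk S g⟩

namespace DiscFunctor

variable {C : GlobExt} (D : DiscFunctor C)

/-- The continuous map of a morphism. -/
def dmap {S T : Tree} (f : C.Hom S T) : C(D.space S, D.space T) := (D.map f).hom.hom

theorem dmap_id (S : Tree) : D.dmap (C.id S) = ContinuousMap.id _ := by
  rw [dmap, D.map_id]; rfl

theorem dmap_comp {S T U : Tree} (f : C.Hom S T) (g : C.Hom T U) :
    D.dmap (C.comp f g) = (D.dmap g).comp (D.dmap f) := by
  rw [dmap, D.map_comp]; rfl

/-- The inclusion of a cell. -/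
def cellMap {S : Tree} {n : ℕ} (c : S.Cell n) : C(D.space (Tree.disc n), D.space S) :=
  D.dmap (C.emb (Tree.cellGlob c))

theorem cellMap_σ {S : Tree} {n : ℕ} (c : S.Cell (n + 1)) :
    (D.cellMap c).comp (D.dmap (C.σ n)) = D.cellMap (S.src n c) := by
  show (D.dmap _).comp (D.dmap _) = D.dmap _
  rw [GlobExt.σ, ← dmap_comp, C.σ_cell]

theorem cellMap_τ {S : Tree} {n : ℕ} (c : S.Cell (n + 1)) :
    (D.cellMap c).comp (D.dmap (C.τ n)) = D.cellMap (S.tgt n c) := by
  show (D.dmap _).comp (D.dmap _) = D.dmap _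
  rw [GlobExt.τ, ← dmap_comp, C.τ_cell]

theorem cellMap_emb {S T : Tree} (η : GlobMap S.glob T.glob) {n : ℕ} (c : S.Cell n) :
    (D.dmap (C.emb η)).comp (D.cellMap c) = D.cellMap (η.app n c) := by
  show (D.dmap _).comp (D.dmap _) = D.dmap _
  rw [← dmap_comp, C.emb_cell_comp]

variable {Y : Type} [TopologicalSpace Y]

/-- Maps out of the value at a globular sum are glued from the cells. -/
theorem existsUnique_glue {S : Tree} (f : ∀ n, S.Cell n → C(D.space (Tree.disc n), Y))
    (hσ : ∀ n c, (f (n + 1) c).comp (D.dmap (C.σ n)) = f n (S.src n c))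
    (hτ : ∀ n c, (f (n + 1) c).comp (D.dmap (C.τ n)) = f n (S.tgt n c)) :
    ∃! g : C(D.space S, Y), ∀ n c, g.comp (D.cellMap c) = f n c := by
  obtain ⟨g, hg, huniq⟩ := D.colimit (CompactlyGenerated.of (KSp Y))
    (fun n c => CompactlyGenerated.ofHom (KSp.lift (f n c)))
    (fun n c => by
      ext x
      exact DFunLike.congr_fun (hσ n c) x)
    (fun n c => by
      ext x
      exact DFunLike.congr_fun (hτ n c) x)
  refine ⟨(KSp.out Y).comp g.hom.hom, fun n c => ContinuousMap.ext fun x => ?_, fun g' hg' => ?_⟩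
  · exact congrArg (fun φ => (KSp.out Y) (φ.hom.hom x)) (hg n c)
  · have h : CompactlyGenerated.ofHom (KSp.lift g') = g := huniq _ fun n c => by
      ext x
      exact DFunLike.congr_fun (hg' n c) x
    rw [← h]
    rfl

theorem hom_ext {S : Tree} {a b : C(D.space S, Y)}
    (h : ∀ n (c : S.Cell n), a.comp (D.cellMap c) = b.comp (D.cellMap c)) : a = b :=
  (D.existsUnique_glue (fun _ c => b.comp (D.cellMap c))
    (fun _ c => by rw [ContinuousMap.comp_assoc, D.cellMap_σ])
    (fun _ c => by rw [ContinuousMap.comp_assoc, D.cellMap_τ])).unique h fun _ _ => rfl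

theorem moore_ext {S : Tree} {P Q : Moore (D.space S) Y}
    (h : ∀ n (c : S.Cell n), P.pre (D.cellMap c) = Q.pre (D.cellMap c)) : P = Q := by
  have hl : P.len = Q.len := D.hom_ext fun n c => congrArg Moore.len (h n c)
  have hp : P.path.curry = Q.path.curry := D.hom_ext fun n c => by
    ext x t
    exact DFunLike.congr_fun (congrArg Moore.path (h n c)) (x, t)
  exact Moore.ext hl (ContinuousMap.ext fun p => DFunLike.congr_fun (DFunLike.congr_fun hp p.1) p.2)

/-- Moore paths are glued from the cells. -/
theorem existsUnique_moore_glue {S : Tree} (P : ∀ n, S.Cell n → Moore (D.space (Tree.disc n)) Y)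
    (hσ : ∀ n c, (P (n + 1) c).pre (D.dmap (C.σ n)) = P n (S.src n c))
    (hτ : ∀ n c, (P (n + 1) c).pre (D.dmap (C.τ n)) = P n (S.tgt n c)) :
    ∃! Q : Moore (D.space S) Y, ∀ n c, Q.pre (D.cellMap c) = P n c := by
  obtain ⟨L, hL, -⟩ := D.existsUnique_glue (fun n c => (P n c).len)
    (fun n c => congrArg Moore.len (hσ n c)) (fun n c => congrArg Moore.len (hτ n c))
  obtain ⟨G, hG, -⟩ := D.existsUnique_glue (fun n c => (P n c).path.curry)
    (fun n c => by
      ext x t
      exact DFunLike.congr_fun (congrArg Moore.path (hσ n c)) (x, t))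
    (fun n c => by
      ext x t
      exact DFunLike.congr_fun (congrArg Moore.path (hτ n c)) (x, t))
  have hLc : ∀ n c x, L (D.cellMap c x) = (P n c).len x := fun n c x => DFunLike.congr_fun (hL n c) x
  have hGc : ∀ n c x t, G (D.cellMap c x) t = (P n c).path (x, t) := fun n c x t =>
    DFunLike.congr_fun (DFunLike.congr_fun (hG n c) x) t
  have hnn : (⟨fun x => max (L x) 0, by fun_prop⟩ : C(D.space S, ℝ)) = L :=
    D.hom_ext fun n c => ContinuousMap.ext fun x => by
      show max (L (D.cellMap c x)) 0 = L (D.cellMap c x)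
      rw [hLc, max_eq_left ((P n c).len_nonneg x)]
  have hmm : ((ContinuousMap.uncurry G).comp
      (⟨fun p => (p.1, min (max p.2 0) (L p.1)), by fun_prop⟩ :
        C(D.space S × ℝ, D.space S × ℝ))).curry = G :=
    D.hom_ext fun n c => ContinuousMap.ext fun x => ContinuousMap.ext fun t => by
      show G (D.cellMap c x) (min (max t 0) (L (D.cellMap c x))) = G (D.cellMap c x) t
      rw [hLc, hGc, hGc, (P n c).min_max_eq]
  have hmm' : ∀ x t, G x (min (max t 0) (L x)) = G x t := fun x t =>
    DFunLike.congr_fun (DFunLike.congr_fun hmm x) t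
  have hnn' : ∀ x, 0 ≤ L x := fun x => by
    rw [← DFunLike.congr_fun hnn x]
    exact le_max_right (L x) 0
  let Q : Moore (D.space S) Y :=
    { len := L
      path := ContinuousMap.uncurry G
      len_nonneg := hnn'
      left := fun x t ht => by
        show G x t = G x 0
        rw [← hmm' x t, max_eq_right ht, min_eq_left (hnn' x)]
      right := fun x t ht => by
        show G x t = G x (L x)
        rw [← hmm' x t, min_eq_right (ht.trans (le_max_left _ _))] }
  exact ⟨Q, fun n c => Moore.ext_apply (hLc n c) (hGc n c),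
    fun Q' hQ' => D.moore_ext fun n c => (hQ' n c).trans (Moore.ext_apply (hLc n c) (hGc n c)).symm⟩

/-! ### Discs of the values at discs -/

/-- The disc as a map. -/
def discFwd (n : ℕ) : C(D.space (Tree.disc n), Ball n) := ⟨D.disc n, (D.disc n).continuous⟩

/-- The inverse of the disc as a map. -/
def discInv (n : ℕ) : C(Ball n, D.space (Tree.disc n)) :=
  ⟨(D.disc n).symm, (D.disc n).symm.continuous⟩

theorem discInv_discFwd (n : ℕ) : (D.discInv n).comp (D.discFwd n) = ContinuousMap.id _ :=
  ContinuousMap.ext fun p => (D.disc n).symm_apply_apply p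

theorem discFwd_discInv (n : ℕ) : (D.discFwd n).comp (D.discInv n) = ContinuousMap.id _ :=
  ContinuousMap.ext fun p => (D.disc n).apply_symm_apply p

theorem discFwd_σ (n : ℕ) :
    (D.discFwd (n + 1)).comp (D.dmap (C.σ n)) = hemS.comp (D.discFwd n) := by
  ext p : 1
  refine Subtype.ext ?_
  refine (D.disc_σ n p).trans ?_
  show hemisphere (-1) (D.disc n p).1 = (hemS (D.disc n p)).1
  rw [hemS_val, hemisphere, neg_one_mul]
  rfl

theorem discFwd_τ (n : ℕ) :
    (D.discFwd (n + 1)).comp (D.dmap (C.τ n)) = hemT.comp (D.discFwd n) := by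
  ext p : 1
  refine Subtype.ext ?_
  refine (D.disc_τ n p).trans ?_
  show hemisphere 1 (D.disc n p).1 = (hemT (D.disc n p)).1
  rw [hemT_val, hemisphere, one_mul]
  rfl

theorem discInv_σ (n : ℕ) :
    (D.dmap (C.σ n)).comp (D.discInv n) = (D.discInv (n + 1)).comp hemS := by
  calc (D.dmap (C.σ n)).comp (D.discInv n)
      = ((D.discInv (n + 1)).comp (D.discFwd (n + 1))).comp
          ((D.dmap (C.σ n)).comp (D.discInv n)) := by
        rw [D.discInv_discFwd, ContinuousMap.id_comp]
    _ = (D.discInv (n + 1)).comp (((D.discFwd (n + 1)).comp (D.dmap (C.σ n))).comp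
          (D.discInv n)) := by simp only [ContinuousMap.comp_assoc]
    _ = (D.discInv (n + 1)).comp hemS := by
        rw [D.discFwd_σ, ContinuousMap.comp_assoc, D.discFwd_discInv, ContinuousMap.comp_id]

theorem discInv_τ (n : ℕ) :
    (D.dmap (C.τ n)).comp (D.discInv n) = (D.discInv (n + 1)).comp hemT := by
  calc (D.dmap (C.τ n)).comp (D.discInv n)
      = ((D.discInv (n + 1)).comp (D.discFwd (n + 1))).comp
          ((D.dmap (C.τ n)).comp (D.discInv n)) := by
        rw [D.discInv_discFwd, ContinuousMap.id_comp]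
    _ = (D.discInv (n + 1)).comp (((D.discFwd (n + 1)).comp (D.dmap (C.τ n))).comp
          (D.discInv n)) := by simp only [ContinuousMap.comp_assoc]
    _ = (D.discInv (n + 1)).comp hemT := by
        rw [D.discFwd_τ, ContinuousMap.comp_assoc, D.discFwd_discInv, ContinuousMap.comp_id]

end DiscFunctor

end Vale.Agent.P259
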