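import Vale.Agent.P259.Homotopy
import Vale.Agent.P259.Moore
import Vale.Agent.P259.Universal
import Mathlib.CategoryTheory.Localization.Predicate

/-!
# A natural span between a groupoid and the fundamental groupoid of its space

For a functor `F` from groupoids to spaces with a natural good map `θ` from cells to discs that
is trivial on representables, a cell of `B X` is a cell of `X` with a Moore path starting at its
image. Forgetting the path and taking the final end are weak equivalences.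
-/

noncomputable section

namespace Vale.Agent.P259

open CategoryTheory CompactlyGenerated
open scoped unitInterval

/-- The globular set of Moore paths of discs. -/
@[reducible] def mooreDiscs (Y : Type) [TopologicalSpace Y] : GlobSet where
  cell n := Moore (Ball n) Y
  s _ P := P.pre hemS
  t _ P := P.pre hemT
  ss _ P := by
    rw [Moore.pre_pre, Moore.pre_pre,
      show hemS.comp hemS = hemT.comp hemS from ContinuousMap.ext hemS_hemS]
  tt _ P := by
    rw [Moore.pre_pre, Moore.pre_pre,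
      show hemS.comp hemT = hemT.comp hemT from ContinuousMap.ext hemS_hemT]

/-- The lengths. -/
def mooreLen (Y : Type) [TopologicalSpace Y] : GlobMap (mooreDiscs Y) (discs ℝ) :=
  ⟨fun _ P => P.len, fun _ _ => rfl, fun _ _ => rfl⟩

/-- The unit-interval reparametrizations. -/
def mooreToI (Y : Type) [TopologicalSpace Y] : GlobMap (mooreDiscs Y) (discs C(I, Y)) :=
  ⟨fun _ P => P.toI, fun _ _ => rfl, fun _ _ => rfl⟩

section Fill

variable {Y : Type} [TopologicalSpace Y] {n : ℕ} (u v : Moore (Ball n) Y)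

/-- Fill with a given initial end. -/
theorem exists_moore_fill₀ (h : (mooreDiscs Y).Par u v) (w : C(Ball (n + 1), Y))
    (hs : w.comp hemS = u.start) (ht : w.comp hemT = v.start) :
    ∃ P : Moore (Ball (n + 1)) Y, P.pre hemS = u ∧ P.pre hemT = v ∧ P.start = w := by
  obtain ⟨M, hMs, hMt, hM0⟩ := exists_extend₀ u.toI v.toI (GlobSet.par_map (mooreToI Y) h) w
    (hs.trans u.ev0_toI.symm) (ht.trans v.ev0_toI.symm)
  obtain ⟨P, hPs, hPt, hP⟩ :=
    exists_moore_of_paths u v M (GlobSet.par_map (mooreLen Y) h) hMs hMt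
  exact ⟨P, hPs, hPt, by rw [← P.ev0_toI, hP, hM0]⟩

/-- Fill with both ends given, in a space without homotopy. -/
theorem exists_moore_fill₀₁ (h : (mooreDiscs Y).Par u v) (hY : TrivialUpTo (n + 1) Y)
    (w₀ w₁ : C(Ball (n + 1), Y)) (hs : w₀.comp hemS = u.start) (ht : w₀.comp hemT = v.start)
    (hs' : w₁.comp hemS = u.fin) (ht' : w₁.comp hemT = v.fin) :
    ∃ P : Moore (Ball (n + 1)) Y, P.pre hemS = u ∧ P.pre hemT = v ∧ P.start = w₀ ∧ P.fin = w₁ := by
  obtain ⟨M, hMs, hMt, hM0⟩ := exists_extend₀ u.toI v.toI (GlobSet.par_map (mooreToI Y) h) w₀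
    (hs.trans u.ev0_toI.symm) (ht.trans v.ev0_toI.symm)
  have hrel := hY.rel (n + 1) le_rfl ((evI 1).comp M) w₁
    ⟨((congrArg (fun z => (evI 1).comp z) hMs).trans u.ev1_toI).trans hs'.symm,
     ((congrArg (fun z => (evI 1).comp z) hMt).trans v.ev1_toI).trans ht'.symm⟩
  obtain ⟨M', hb, h0, h1⟩ := exists_swap₁ M w₁ hrel
  obtain ⟨P, hPs, hPt, hP⟩ := exists_moore_of_paths u v M' (GlobSet.par_map (mooreLen Y) h)
    ((discs_bdry_eq hb).1.trans hMs) ((discs_bdry_eq hb).2.trans hMt)
  exact ⟨P, hPs, hPt, by rw [← P.ev0_toI, hP, h0, hM0], by rw [← P.ev1_toI, hP, h1]⟩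

/-- Fill with a given final end, through a good map of cells. -/
theorem exists_moore_fill₁ {U : GlobSet} {η : GlobMap U (discs Y)} (hη : SurjAt η n)
    (a b : U.cell n) (hab : U.Par a b) (hu : u.start = η.app n a) (hv : v.start = η.app n b)
    (h : (mooreDiscs Y).Par u v) (w : C(Ball (n + 1), Y))
    (hs : w.comp hemS = u.fin) (ht : w.comp hemT = v.fin) :
    ∃ (c : U.cell (n + 1)) (P : Moore (Ball (n + 1)) Y), U.s n c = a ∧ U.t n c = b ∧
      P.pre hemS = u ∧ P.pre hemT = v ∧ P.start = η.app (n + 1) c ∧ P.fin = w := by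
  obtain ⟨M, hMs, hMt, hM1⟩ := exists_extend₁ u.toI v.toI (GlobSet.par_map (mooreToI Y) h) w
    (hs.trans u.ev1_toI.symm) (ht.trans v.ev1_toI.symm)
  obtain ⟨c, hcs, hct, hc⟩ := hη a b hab ((evI 0).comp M)
    (((congrArg (fun z => (evI 0).comp z) hMs).trans u.ev0_toI).trans hu)
    (((congrArg (fun z => (evI 0).comp z) hMt).trans v.ev0_toI).trans hv)
  obtain ⟨M', hb, h0, h1⟩ := exists_swap₀ M (η.app (n + 1) c) (Groupoidal.symm hc)
  obtain ⟨P, hPs, hPt, hP⟩ := exists_moore_of_paths u v M' (GlobSet.par_map (mooreLen Y) h)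
    ((discs_bdry_eq hb).1.trans hMs) ((discs_bdry_eq hb).2.trans hMt)
  exact ⟨c, P, hcs, hct, hPs, hPt, by rw [← P.ev0_toI, hP, h0],
    by rw [← P.ev1_toI, hP, h1, hM1]⟩

end Fill

section Paths

variable {X Y : Type} [TopologicalSpace X] [TopologicalSpace Y] {P Q R A B C' D' : Moore X Y}
  {a : C(X, Y)}

theorem Moore.trans_eq_right (hP : P = Moore.refl a) (h : P.fin = Q.start) :
    P.trans Q h = Q := by
  subst hP; exact Moore.refl_trans a Q h

theorem Moore.trans_eq_left (hQ : Q = Moore.refl a) (h : P.fin = Q.start) :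
    P.trans Q h = P := by
  subst hQ; exact Moore.trans_refl P a h

theorem Moore.assoc_congr {h₁ : P.fin = Q.start} (hA : A = P.trans Q h₁) (hB : B = R)
    (h : A.fin = B.start) (h₂ : Q.fin = R.start) (hC : C' = P) (hD : D' = Q.trans R h₂)
    (h' : C'.fin = D'.start) : A.trans B h = C'.trans D' h' := by
  subst hA hB hC hD; exact Moore.trans_assoc _ _ _ h₁ h₂

end Paths

theorem Gpd.glob_rel_refl {C : GlobExt} (hC : C.Contractible) (X : Gpd C) {n : ℕ}
    (a : X.cell n) : X.glob.Rel n a a := by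
  obtain ⟨h, h₁, h₂⟩ := Gpd.exists_idLift hC n
  refine ⟨X.map h a, ?_, ?_⟩
  · show X.map (C.σ n) (X.map h a) = a
    rw [← X.map_comp, h₁, X.map_id]
  · show X.map (C.τ n) (X.map h a) = a
    rw [← X.map_comp, h₂, X.map_id]

namespace Span

variable {C : GlobExt} (D : DiscFunctor C) (F : Gpd C ⥤ CGTop)
  (θ : Gpd.globF C ⟶ F ⋙ compactlyGeneratedToTop ⋙ discsF)

/-- The continuous map of a morphism of groupoids. -/
def fmap {X Y : Gpd C} (φ : X ⟶ Y) : C(F.obj X, F.obj Y) := (F.map φ).hom.hom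

theorem fmap_id (X : Gpd C) : fmap F (𝟙 X) = ContinuousMap.id _ := by
  rw [fmap, F.map_id]; rfl

theorem fmap_comp {X Y Z : Gpd C} (φ : X ⟶ Y) (ψ : Y ⟶ Z) :
    fmap F (φ ≫ ψ) = (fmap F ψ).comp (fmap F φ) := by
  rw [fmap, F.map_comp]; rfl

/-- The components of `θ`. -/
def th (X : Gpd C) : GlobMap X.glob (discs (F.obj X)) := θ.app X

theorem th_natural {X Y : Gpd C} (φ : X ⟶ Y) (n : ℕ) (x : X.cell n) :
    (th F θ Y).app n (φ.app _ x) = (fmap F φ).comp ((th F θ X).app n x) :=
  congrArg (fun η : GlobMap X.glob (discs (F.obj Y)) => η.app n x) (θ.naturality φ)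

/-- The image of a cell, as a map on the value at the disc. -/
def thD (X : Gpd C) (n : ℕ) (x : X.cell n) : C(D.space (Tree.disc n), F.obj X) :=
  ((th F θ X).app n x : C(Ball n, F.obj X)).comp (D.discFwd n)

theorem thD_σ (X : Gpd C) (n : ℕ) (x : X.cell (n + 1)) :
    (thD D F θ X (n + 1) x).comp (D.dmap (C.σ n)) = thD D F θ X n (X.map (C.σ n) x) := by
  rw [thD, ContinuousMap.comp_assoc, D.discFwd_σ, ← ContinuousMap.comp_assoc]
  exact congrArg (fun z => ContinuousMap.comp z (D.discFwd n)) ((th F θ X).comm_s n x)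

theorem thD_τ (X : Gpd C) (n : ℕ) (x : X.cell (n + 1)) :
    (thD D F θ X (n + 1) x).comp (D.dmap (C.τ n)) = thD D F θ X n (X.map (C.τ n) x) := by
  rw [thD, ContinuousMap.comp_assoc, D.discFwd_τ, ← ContinuousMap.comp_assoc]
  exact congrArg (fun z => ContinuousMap.comp z (D.discFwd n)) ((th F θ X).comm_t n x)

theorem existsUnique_thEl (X : Gpd C) {S : Tree} (a : X.obj S) :
    ∃! g : C(D.space S, F.obj X), ∀ n c,
      g.comp (D.cellMap c) = thD D F θ X n (X.map (C.emb (Tree.cellGlob c)) a) := by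
  refine D.existsUnique_glue _ (fun n c => ?_) (fun n c => ?_)
  · rw [thD_σ, ← X.map_comp, GlobExt.σ, C.σ_cell]
  · rw [thD_τ, ← X.map_comp, GlobExt.τ, C.τ_cell]

/-- The image of an element. -/
def thEl (X : Gpd C) {S : Tree} (a : X.obj S) : C(D.space S, F.obj X) :=
  Classical.choose (existsUnique_thEl D F θ X a).exists

theorem thEl_cell (X : Gpd C) {S : Tree} (a : X.obj S) {n : ℕ} (c : S.Cell n) :
    (thEl D F θ X a).comp (D.cellMap c) = thD D F θ X n (X.map (C.emb (Tree.cellGlob c)) a) :=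
  Classical.choose_spec (existsUnique_thEl D F θ X a).exists n c

theorem thEl_map_emb (X : Gpd C) {S T : Tree} (η : GlobMap S.glob T.glob) (a : X.obj T) :
    thEl D F θ X (X.map (C.emb η) a) = (thEl D F θ X a).comp (D.dmap (C.emb η)) :=
  D.hom_ext fun n c => by
    rw [ContinuousMap.comp_assoc, D.cellMap_emb, thEl_cell, ← X.map_comp, C.emb_cell_comp]
    exact (thEl_cell D F θ X a (η.app n c)).symm

theorem thEl_disc (X : Gpd C) {n : ℕ} (a : X.cell n) :
    thEl D F θ X a = thD D F θ X n a := by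
  have h := thEl_cell D F θ X a (Tree.top n)
  rwa [DiscFunctor.cellMap, cellGlob_top, C.emb_id, D.dmap_id, ContinuousMap.comp_id,
    X.map_id] at h

theorem thEl_natural {X Y : Gpd C} (φ : X ⟶ Y) {S : Tree} (a : X.obj S) :
    (fmap F φ).comp (thEl D F θ X a) = thEl D F θ Y (φ.app S a) :=
  D.hom_ext fun n c => by
    rw [ContinuousMap.comp_assoc, thEl_cell, thEl_cell, ← φ.natural, thD, thD,
      ← ContinuousMap.comp_assoc, th_natural]

/-- The image of the universal element of a representable. -/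
def thTop (T : Tree) : C(D.space T, F.obj (Gpd.rep C T)) := thEl D F θ (Gpd.rep C T) (C.id T)

theorem fmap_yoneda_thTop {X : Gpd C} {T : Tree} (a : X.obj T) :
    (fmap F (Gpd.yoneda a)).comp (thTop D F θ T) = thEl D F θ X a := by
  rw [thTop, thEl_natural, Gpd.yoneda_id]

theorem fmap_yoneda_thEl {X : Gpd C} {S T : Tree} (f : C.Hom S T) (a : X.obj T) :
    (fmap F (Gpd.yoneda a)).comp (thEl D F θ (Gpd.rep C T) f) = thEl D F θ X (X.map f a) :=
  thEl_natural D F θ (Gpd.yoneda a) f

theorem fmap_yoneda_comp {X : Gpd C} {T U : Tree} (g : C.Hom T U) (a : X.obj U) :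
    (fmap F (Gpd.yoneda a)).comp (fmap F (Gpd.yoneda (X := Gpd.rep C U) g)) =
      fmap F (Gpd.yoneda (X.map g a)) := by
  rw [← fmap_comp, Gpd.yoneda_comp]
  rfl

theorem yoneda_id_eq (T : Tree) :
    Gpd.yoneda (X := Gpd.rep C T) (C.id T) = 𝟙 (Gpd.rep C T) :=
  Gpd.rep_hom_ext (C.id_comp _)

theorem thEl_emb {S T : Tree} (η : GlobMap S.glob T.glob) :
    thEl D F θ (Gpd.rep C T) (C.emb η) = (thTop D F θ T).comp (D.dmap (C.emb η)) := by
  refine Eq.trans ?_ (thEl_map_emb D F θ (Gpd.rep C T) η (C.id T))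
  exact congrArg _ (C.comp_id _).symm

/-- A map of globular sums with a Moore path between its two images. -/
@[ext]
structure MHom (S T : Tree) where
  base : C.Hom S T
  P : Moore (D.space S) (F.obj (Gpd.rep C T))
  start_eq : P.start = thEl D F θ (Gpd.rep C T) base
  fin_eq : P.fin = (thTop D F θ T).comp (D.dmap base)

variable {D F θ}

/-- The constant path on a globular map. -/
def MHom.ofEmb {S T : Tree} (η : GlobMap S.glob T.glob) : MHom D F θ S T where
  base := C.emb η
  P := Moore.refl (thEl D F θ (Gpd.rep C T) (C.emb η))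
  start_eq := rfl
  fin_eq := thEl_emb D F θ η

theorem MHom.comp_cond {S T U : Tree} (f : MHom D F θ S T) (g : MHom D F θ T U) :
    (f.P.map (fmap F (Gpd.yoneda (X := Gpd.rep C U) g.base))).fin =
      (g.P.pre (D.dmap f.base)).start := by
  rw [Moore.map_fin, Moore.pre_start, f.fin_eq, g.start_eq, ← ContinuousMap.comp_assoc,
    fmap_yoneda_thTop]

/-- Composition. -/
def MHom.comp {S T U : Tree} (f : MHom D F θ S T) (g : MHom D F θ T U) : MHom D F θ S U where
  base := C.comp f.base g.base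
  P := (f.P.map (fmap F (Gpd.yoneda (X := Gpd.rep C U) g.base))).trans (g.P.pre (D.dmap f.base))
    (f.comp_cond g)
  start_eq := by
    rw [Moore.trans_start, Moore.map_start, f.start_eq, fmap_yoneda_thEl]
  fin_eq := by
    rw [Moore.trans_fin, Moore.pre_fin, g.fin_eq, D.dmap_comp, ContinuousMap.comp_assoc]

theorem MHom.comp_P {S T U : Tree} (f : MHom D F θ S T) (g : MHom D F θ T U) :
    (f.comp g).P = (f.P.map (fmap F (Gpd.yoneda (X := Gpd.rep C U) g.base))).trans
      (g.P.pre (D.dmap f.base)) (f.comp_cond g) := rfl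

theorem MHom.emb_comp_P {S T U : Tree} (η : GlobMap S.glob T.glob) (g : MHom D F θ T U) :
    ((MHom.ofEmb η).comp g).P = g.P.pre (D.dmap (C.emb η)) :=
  (MHom.comp_P _ g).trans
    (Moore.trans_eq_right (Moore.map_refl _ _) (MHom.comp_cond (MHom.ofEmb η) g))

theorem MHom.id_comp {S T : Tree} (f : MHom D F θ S T) :
    (MHom.ofEmb (GlobMap.id S.glob)).comp f = f := by
  refine MHom.ext ?_ ?_
  · show C.comp (C.emb _) f.base = f.base
    rw [C.emb_id, C.id_comp]
  · rw [MHom.emb_comp_P, C.emb_id, D.dmap_id, Moore.pre_id]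

theorem MHom.comp_id {S T : Tree} (f : MHom D F θ S T) :
    f.comp (MHom.ofEmb (GlobMap.id T.glob)) = f := by
  refine MHom.ext ?_ ?_
  · show C.comp f.base (C.emb _) = f.base
    rw [C.emb_id, C.comp_id]
  · have h : f.P.map (fmap F (Gpd.yoneda (X := Gpd.rep C T) (C.emb (GlobMap.id T.glob)))) = f.P := by
      rw [C.emb_id, yoneda_id_eq, fmap_id, Moore.map_id]
    exact (MHom.comp_P f _).trans
      ((Moore.trans_eq_left (Moore.pre_refl _ _) (f.comp_cond _)).trans h)

theorem MHom.assoc {S T U V : Tree} (f : MHom D F θ S T) (g : MHom D F θ T U)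
    (h : MHom D F θ U V) : (f.comp g).comp h = f.comp (g.comp h) := by
  refine MHom.ext (C.assoc _ _ _) ?_
  let a := fmap F (Gpd.yoneda (X := Gpd.rep C U) g.base)
  let b := fmap F (Gpd.yoneda (X := Gpd.rep C V) h.base)
  have hC : f.P.map (fmap F (Gpd.yoneda (X := Gpd.rep C V) (C.comp g.base h.base))) =
      f.P.map (b.comp a) :=
    congrArg f.P.map (fmap_yoneda_comp F g.base (X := Gpd.rep C V) h.base).symm
  have hA : (f.comp g).P.map b =
      (f.P.map (b.comp a)).trans ((g.P.map b).pre (D.dmap f.base))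
        (congrArg b.comp (f.comp_cond g)) := by
    rw [MHom.comp_P, Moore.map_trans]
    rfl
  have hB : h.P.pre (D.dmap (C.comp f.base g.base)) =
      (h.P.pre (D.dmap g.base)).pre (D.dmap f.base) := by
    rw [D.dmap_comp, Moore.pre_pre]
  have h₂ : ((g.P.map b).pre (D.dmap f.base)).fin =
      ((h.P.pre (D.dmap g.base)).pre (D.dmap f.base)).start :=
    congrArg (fun z => ContinuousMap.comp z (D.dmap f.base)) (g.comp_cond h)
  have hD : (g.comp h).P.pre (D.dmap f.base) =
      ((g.P.map b).pre (D.dmap f.base)).trans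
        ((h.P.pre (D.dmap g.base)).pre (D.dmap f.base)) h₂ := by
    rw [MHom.comp_P, Moore.pre_trans]
  exact (MHom.comp_P _ h).trans ((Moore.assoc_congr hA hB ((f.comp g).comp_cond h) h₂ hC hD
    (f.comp_cond (g.comp h))).trans (MHom.comp_P f _).symm)

theorem MHom.emb_comp_base {S T U : Tree} (η : GlobMap S.glob T.glob) (g : MHom D F θ T U) :
    ((MHom.ofEmb η).comp g).base = C.comp (C.emb η) g.base := rfl

variable (D F θ)

/-- The extension of maps with Moore paths. -/
@[reducible] def MExt : GlobExt where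
  Hom S T := MHom D F θ S T
  id S := MHom.ofEmb (GlobMap.id S.glob)
  comp f g := f.comp g
  id_comp f := f.id_comp
  comp_id f := f.comp_id
  assoc f g h := f.assoc g h
  emb η := MHom.ofEmb η
  emb_id _ := rfl
  emb_comp {S T U} η η' := by
    refine MHom.ext (C.emb_comp η η') ?_
    rw [MHom.emb_comp_P]
    show Moore.refl _ = (Moore.refl _).pre _
    rw [Moore.pre_refl]
    refine congrArg Moore.refl ?_
    rw [← thEl_map_emb]
    exact congrArg _ (C.emb_comp η η')
  glue {S T} f hσ hτ := by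
    obtain ⟨g, hg, hguniq⟩ := C.glue (fun n c => (f n c).base)
      (fun n c => congrArg MHom.base (hσ n c)) (fun n c => congrArg MHom.base (hτ n c))
    obtain ⟨Q, hQ, hQuniq⟩ := D.existsUnique_moore_glue (fun n c => (f n c).P)
      (fun n c => (MHom.emb_comp_P (σG n) (f (n + 1) c)).symm.trans (congrArg MHom.P (hσ n c)))
      (fun n c => (MHom.emb_comp_P (τG n) (f (n + 1) c)).symm.trans (congrArg MHom.P (hτ n c)))
    refine ⟨⟨g, Q, ?_, ?_⟩, fun n c => ?_, fun g' hg' => ?_⟩
    · refine D.hom_ext fun n c => ?_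
      show (Q.pre (D.cellMap c)).start = _
      rw [hQ, (f n c).start_eq, DiscFunctor.cellMap, ← thEl_map_emb, ← hg n c]
    · refine D.hom_ext fun n c => ?_
      show (Q.pre (D.cellMap c)).fin = _
      rw [hQ, (f n c).fin_eq, ContinuousMap.comp_assoc, DiscFunctor.cellMap, ← D.dmap_comp, hg]
    · exact MHom.ext (hg n c) ((MHom.emb_comp_P _ _).trans (hQ n c))
    · exact MHom.ext (hguniq _ fun n c => congrArg MHom.base (hg' n c))
        (hQuniq _ fun n c => (MHom.emb_comp_P _ g').symm.trans (congrArg MHom.P (hg' n c)))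

/-- The projection. -/
def proj : ExtHom (MExt D F θ) C where
  map f := f.base
  map_comp _ _ := rfl
  map_emb _ := rfl

/-- The path of a map at a disc, on the ball. -/
def toBall {n : ℕ} {T : Tree} (f : MHom D F θ (Tree.disc n) T) :
    Moore (Ball n) (F.obj (Gpd.rep C T)) :=
  f.P.pre (D.discInv n)

variable {D F θ}

theorem toBall_par {n : ℕ} {T : Tree} {f g : MHom D F θ (Tree.disc n) T}
    (h : (MExt D F θ).Parallel f g) : (mooreDiscs _).Par (toBall D F θ f) (toBall D F θ g) := by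
  cases n with
  | zero => exact True.intro
  | succ n =>
    obtain ⟨h₁, h₂⟩ := h
    have h₁' : f.P.pre (D.dmap (C.σ n)) = g.P.pre (D.dmap (C.σ n)) :=
      ((MHom.emb_comp_P (σG n) f).symm.trans (congrArg MHom.P h₁)).trans
        (MHom.emb_comp_P (σG n) g)
    have h₂' : f.P.pre (D.dmap (C.τ n)) = g.P.pre (D.dmap (C.τ n)) :=
      ((MHom.emb_comp_P (τG n) f).symm.trans (congrArg MHom.P h₂)).trans
        (MHom.emb_comp_P (τG n) g)
    constructor
    · show (f.P.pre _).pre hemS = (g.P.pre _).pre hemS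
      rw [Moore.pre_pre, Moore.pre_pre, ← D.discInv_σ, ← Moore.pre_pre, ← Moore.pre_pre, h₁']
    · show (f.P.pre _).pre hemT = (g.P.pre _).pre hemT
      rw [Moore.pre_pre, Moore.pre_pre, ← D.discInv_τ, ← Moore.pre_pre, ← Moore.pre_pre, h₂']

theorem thD_discInv (X : Gpd C) (n : ℕ) (x : X.cell n) :
    (thD D F θ X n x).comp (D.discInv n) = (th F θ X).app n x := by
  rw [thD, ContinuousMap.comp_assoc, D.discFwd_discInv, ContinuousMap.comp_id]

theorem exists_lift (htriv : ∀ T m, TrivialUpTo m (F.obj (Gpd.rep C T))) {n : ℕ} {S : Tree}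
    (f g : MHom D F θ (Tree.disc n) S) (hfg : (MExt D F θ).Parallel f g)
    (h : C.Hom (Tree.disc (n + 1)) S) (hh : C.IsLift f.base g.base h) :
    ∃ h' : MHom D F θ (Tree.disc (n + 1)) S, (MExt D F θ).IsLift f g h' ∧ h'.base = h := by
  obtain ⟨hs, ht⟩ := hh
  obtain ⟨Q, hQs, hQt, hQ0, hQ1⟩ := exists_moore_fill₀₁ (toBall D F θ f) (toBall D F θ g)
    (toBall_par hfg) (htriv S (n + 1)) ((th F θ (Gpd.rep C S)).app (n + 1) h)
    (((thTop D F θ S).comp (D.dmap h)).comp (D.discInv (n + 1)))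
    (by
      show _ = f.P.start.comp (D.discInv n)
      rw [f.start_eq, thEl_disc, thD_discInv, ← hs]
      exact (th F θ (Gpd.rep C S)).comm_s n h)
    (by
      show _ = g.P.start.comp (D.discInv n)
      rw [g.start_eq, thEl_disc, thD_discInv, ← ht]
      exact (th F θ (Gpd.rep C S)).comm_t n h)
    (by
      show _ = f.P.fin.comp (D.discInv n)
      rw [f.fin_eq, ContinuousMap.comp_assoc, ← D.discInv_σ, ← hs, D.dmap_comp]
      rfl)
    (by
      show _ = g.P.fin.comp (D.discInv n)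
      rw [g.fin_eq, ContinuousMap.comp_assoc, ← D.discInv_τ, ← ht, D.dmap_comp]
      rfl)
  refine ⟨⟨h, Q.pre (D.discFwd (n + 1)), ?_, ?_⟩, ⟨MHom.ext hs ?_, MHom.ext ht ?_⟩, rfl⟩
  · rw [Moore.pre_start, hQ0, thEl_disc]
    rfl
  · rw [Moore.pre_fin, hQ1, ContinuousMap.comp_assoc, D.discInv_discFwd, ContinuousMap.comp_id]
  · refine (MHom.emb_comp_P _ _).trans ?_
    show (Q.pre (D.discFwd (n + 1))).pre (D.dmap (C.σ n)) = f.P
    rw [Moore.pre_pre, D.discFwd_σ, ← Moore.pre_pre, hQs, toBall, Moore.pre_pre,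
      D.discInv_discFwd, Moore.pre_id]
  · refine (MHom.emb_comp_P _ _).trans ?_
    show (Q.pre (D.discFwd (n + 1))).pre (D.dmap (C.τ n)) = g.P
    rw [Moore.pre_pre, D.discFwd_τ, ← Moore.pre_pre, hQt, toBall, Moore.pre_pre,
      D.discInv_discFwd, Moore.pre_id]

variable (D F θ)

/-- Strictly functorial Moore homotopies between the two images of every map. -/
structure Homotopies where
  H : ∀ {S T : Tree}, C.Hom S T → Moore (D.space S) (F.obj (Gpd.rep C T))
  start_eq : ∀ {S T : Tree} (f : C.Hom S T), (H f).start = thEl D F θ (Gpd.rep C T) f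
  fin_eq : ∀ {S T : Tree} (f : C.Hom S T), (H f).fin = (thTop D F θ T).comp (D.dmap f)
  emb_eq : ∀ {S T : Tree} (η : GlobMap S.glob T.glob),
    H (C.emb η) = Moore.refl (thEl D F θ (Gpd.rep C T) (C.emb η))
  comp_eq : ∀ {S T U : Tree} (f : C.Hom S T) (g : C.Hom T U)
    (h : ((H f).map (fmap F (Gpd.yoneda (X := Gpd.rep C U) g))).fin =
      ((H g).pre (D.dmap f)).start),
    H (C.comp f g) = ((H f).map (fmap F (Gpd.yoneda (X := Gpd.rep C U) g))).trans
      ((H g).pre (D.dmap f)) h

end Span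

theorem Span.exists_homotopies (K : Coherator) (D : DiscFunctor K.colim)
    (F : Gpd K.colim ⥤ CGTop) (θ : Gpd.globF K.colim ⟶ F ⋙ compactlyGeneratedToTop ⋙ discsF)
    (htriv : ∀ T n, TrivialUpTo n (F.obj (Gpd.rep K.colim T))) :
    Nonempty (Span.Homotopies D F θ) := by
  obtain ⟨G, hG⟩ := K.exists_section_ext (Span.proj D F θ)
    (fun f g hfg h hh => Span.exists_lift htriv f g hfg h hh)
  have hb : ∀ {S T : Tree} (f : K.colim.Hom S T), (G.map f).base = f := fun f => hG f
  refine ⟨{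
    H := fun f => (G.map f).P
    start_eq := fun f => by rw [(G.map f).start_eq, hb]
    fin_eq := fun f => by rw [(G.map f).fin_eq, hb]
    emb_eq := fun η => by rw [G.map_emb]; rfl
    comp_eq := fun f g h => by
      refine ((congrArg Span.MHom.P (G.map_comp f g)).trans (Span.MHom.comp_P _ _)).trans ?_
      exact Moore.trans_congr (by rw [hb]) (by rw [hb]) _ _ }⟩

namespace Span

variable {C : GlobExt} {D : DiscFunctor C} {F : Gpd C ⥤ CGTop}
  {θ : Gpd.globF C ⟶ F ⋙ compactlyGeneratedToTop ⋙ discsF} (H : Homotopies D F θ)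

variable (D F θ) in
/-- An element with a Moore path starting at its image. -/
@[ext]
structure BObj (X : Gpd C) (S : Tree) where
  a : X.obj S
  P : Moore (D.space S) (F.obj X)
  start_eq : P.start = thEl D F θ X a

theorem bmap_cond {X : Gpd C} {S T : Tree} (f : C.Hom S T) (x : BObj D F θ X T) :
    ((H.H f).map (fmap F (Gpd.yoneda x.a))).fin = (x.P.pre (D.dmap f)).start := by
  rw [Moore.map_fin, H.fin_eq, Moore.pre_start, x.start_eq, ← ContinuousMap.comp_assoc,
    fmap_yoneda_thTop]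

/-- The action of a map. -/
def bmap {X : Gpd C} {S T : Tree} (f : C.Hom S T) (x : BObj D F θ X T) : BObj D F θ X S where
  a := X.map f x.a
  P := ((H.H f).map (fmap F (Gpd.yoneda x.a))).trans (x.P.pre (D.dmap f)) (bmap_cond H f x)
  start_eq := by rw [Moore.trans_start, Moore.map_start, H.start_eq, fmap_yoneda_thEl]

theorem bmap_P {X : Gpd C} {S T : Tree} (f : C.Hom S T) (x : BObj D F θ X T) :
    (bmap H f x).P = ((H.H f).map (fmap F (Gpd.yoneda x.a))).trans (x.P.pre (D.dmap f))
      (bmap_cond H f x) := rfl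

theorem bmap_emb_P {X : Gpd C} {S T : Tree} (η : GlobMap S.glob T.glob) (x : BObj D F θ X T) :
    (bmap H (C.emb η) x).P = x.P.pre (D.dmap (C.emb η)) := by
  have h : (H.H (C.emb η)).map (fmap F (Gpd.yoneda x.a)) =
      Moore.refl ((fmap F (Gpd.yoneda x.a)).comp (thEl D F θ (Gpd.rep C T) (C.emb η))) := by
    rw [H.emb_eq, Moore.map_refl]
  exact (bmap_P H _ x).trans (Moore.trans_eq_right h (bmap_cond H _ x))

theorem bmap_id {X : Gpd C} {S : Tree} (x : BObj D F θ X S) : bmap H (C.id S) x = x := by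
  refine BObj.ext (X.map_id x.a) ?_
  have h := bmap_emb_P H (GlobMap.id S.glob) x
  rwa [C.emb_id, D.dmap_id, Moore.pre_id] at h

theorem bmap_comp {X : Gpd C} {S T U : Tree} (f : C.Hom S T) (g : C.Hom T U)
    (x : BObj D F θ X U) : bmap H (C.comp f g) x = bmap H f (bmap H g x) := by
  refine BObj.ext (X.map_comp f g x.a) ?_
  let a := fmap F (Gpd.yoneda (X := Gpd.rep C U) g)
  let b := fmap F (Gpd.yoneda x.a)
  have hc : ((H.H f).map a).fin = ((H.H g).pre (D.dmap f)).start := by
    rw [Moore.map_fin, H.fin_eq, Moore.pre_start, H.start_eq, ← ContinuousMap.comp_assoc,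
      fmap_yoneda_thTop]
  have e₁ : (H.H (C.comp f g)).map b =
      ((H.H f).map (b.comp a)).trans (((H.H g).map b).pre (D.dmap f))
        (congrArg b.comp hc) := by
    rw [H.comp_eq f g hc]
    exact Moore.map_trans _ _ _ _
  have e₂ : x.P.pre (D.dmap (C.comp f g)) = (x.P.pre (D.dmap g)).pre (D.dmap f) := by
    rw [D.dmap_comp, Moore.pre_pre]
  have hab : (H.H f).map (b.comp a) = (H.H f).map (fmap F (Gpd.yoneda (X.map g x.a))) :=
    congrArg _ (fmap_yoneda_comp F g x.a)
  have hgx : ((H.H g).map b).fin = (x.P.pre (D.dmap g)).start := bmap_cond H g x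
  have hgx' : (((H.H g).map b).pre (D.dmap f)).fin =
      ((x.P.pre (D.dmap g)).pre (D.dmap f)).start :=
    congrArg (fun z => ContinuousMap.comp z (D.dmap f)) hgx
  have hD : (bmap H g x).P.pre (D.dmap f) =
      (((H.H g).map b).pre (D.dmap f)).trans ((x.P.pre (D.dmap g)).pre (D.dmap f)) hgx' := by
    rw [bmap_P, Moore.pre_trans]
  exact (bmap_P H _ x).trans ((Moore.assoc_congr e₁ e₂ (bmap_cond H (C.comp f g) x) hgx'
    hab.symm hD (bmap_cond H f (bmap H g x))).trans (bmap_P H f (bmap H g x)).symm)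

/-- The groupoid of elements with Moore paths. -/
@[reducible] def bGpd (X : Gpd C) : Gpd C where
  obj S := BObj D F θ X S
  map f x := bmap H f x
  map_id x := bmap_id H x
  map_comp f g x := bmap_comp H f g x
  segal {S} x hσ hτ := by
    obtain ⟨a, ha, hauniq⟩ := X.segal (fun n c => (x n c).a)
      (fun n c => congrArg BObj.a (hσ n c)) (fun n c => congrArg BObj.a (hτ n c))
    obtain ⟨Q, hQ, hQuniq⟩ := D.existsUnique_moore_glue (fun n c => (x n c).P)
      (fun n c => (bmap_emb_P H (σG n) (x (n + 1) c)).symm.trans (congrArg BObj.P (hσ n c)))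
      (fun n c => (bmap_emb_P H (τG n) (x (n + 1) c)).symm.trans (congrArg BObj.P (hτ n c)))
    refine ⟨⟨a, Q, D.hom_ext fun n c => ?_⟩, fun n c => ?_, fun y hy => ?_⟩
    · show (Q.pre (D.cellMap c)).start = _
      rw [hQ, (x n c).start_eq, DiscFunctor.cellMap, ← thEl_map_emb, ha]
    · exact BObj.ext (ha n c) ((bmap_emb_P H _ _).trans (hQ n c))
    · exact BObj.ext (hauniq _ fun n c => congrArg BObj.a (hy n c))
        (hQuniq _ fun n c => (bmap_emb_P H _ y).symm.trans (congrArg BObj.P (hy n c)))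

/-- Functoriality. -/
def bHom {X Y : Gpd C} (φ : X ⟶ Y) : bGpd H X ⟶ bGpd H Y where
  app S x := ⟨φ.app S x.a, x.P.map (fmap F φ), by
    rw [Moore.map_start, x.start_eq, thEl_natural]⟩
  natural {S T} f x := by
    refine BObj.ext (φ.natural f x.a) ?_
    have e₁ : ((H.H f).map (fmap F (Gpd.yoneda x.a))).map (fmap F φ) =
        (H.H f).map (fmap F (Gpd.yoneda (φ.app T x.a))) := by
      rw [Moore.map_map, ← fmap_comp, Gpd.yoneda_comp]
    show (bmap H f x).P.map (fmap F φ) = (bmap H f ⟨φ.app T x.a, x.P.map (fmap F φ), _⟩).P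
    rw [bmap_P, bmap_P, Moore.map_trans]
    exact Moore.trans_congr e₁ rfl _ _

/-- The functor of elements with Moore paths. -/
def bFun : Gpd C ⥤ Gpd C where
  obj X := bGpd H X
  map φ := bHom H φ
  map_id X := Gpd.hom_ext' fun S x => BObj.ext rfl (by
    show x.P.map (fmap F (𝟙 X)) = x.P
    rw [fmap_id, Moore.map_id])
  map_comp φ ψ := Gpd.hom_ext' fun S x => BObj.ext rfl (by
    show x.P.map (fmap F (φ ≫ ψ)) = (x.P.map (fmap F φ)).map (fmap F ψ)
    rw [fmap_comp, Moore.map_map])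

/-- Forget the path. -/
def forget : bFun H ⟶ 𝟭 (Gpd C) where
  app X := { app := fun S x => x.a, natural := fun _ _ => rfl }
  naturality _ _ _ := Gpd.hom_ext' fun _ _ => rfl

/-- Take the final end. -/
def endMap : bFun H ⟶ F ⋙ D.PiInfty where
  app X :=
    { app := fun S x => (ConcreteCategory.ofHom x.P.fin : D.space S ⟶ F.obj X)
      natural := fun {S T} f x => by
        refine ConcreteCategory.hom_ext _ _ fun p => ?_
        exact DFunLike.congr_fun (Moore.trans_fin _ _ (bmap_cond H f x)) p }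
  naturality X Y φ := Gpd.hom_ext' fun S x => by
    refine ConcreteCategory.hom_ext _ _ fun p => ?_
    rfl

theorem bmap_ball_σ {X : Gpd C} {n : ℕ} (x : BObj D F θ X (Tree.disc (n + 1))) :
    (x.P.pre (D.discInv (n + 1))).pre hemS = (bmap H (C.emb (σG n)) x).P.pre (D.discInv n) := by
  rw [bmap_emb_P, Moore.pre_pre, Moore.pre_pre, ← D.discInv_σ]
  rfl

theorem bmap_ball_τ {X : Gpd C} {n : ℕ} (x : BObj D F θ X (Tree.disc (n + 1))) :
    (x.P.pre (D.discInv (n + 1))).pre hemT = (bmap H (C.emb (τG n)) x).P.pre (D.discInv n) := by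
  rw [bmap_emb_P, Moore.pre_pre, Moore.pre_pre, ← D.discInv_τ]
  rfl

/-- The paths of cells on balls. -/
def bBall (X : Gpd C) : GlobMap (bGpd H X).glob (mooreDiscs (F.obj X)) where
  app n x := (x : BObj D F θ X (Tree.disc n)).P.pre (D.discInv n)
  comm_s _ x := bmap_ball_σ H x
  comm_t _ x := bmap_ball_τ H x

theorem bBall_start {X : Gpd C} {n : ℕ} (x : BObj D F θ X (Tree.disc n)) :
    (x.P.pre (D.discInv n)).start = (th F θ X).app n x.a := by
  rw [Moore.pre_start, x.start_eq, thEl_disc, thD_discInv]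

theorem par_a {X : Gpd C} {n : ℕ} {u v : (bGpd H X).cell n}
    (h : (bGpd H X).glob.Par u v) : X.glob.Par (u : BObj D F θ X _).a (v : BObj D F θ X _).a :=
  GlobSet.par_map (Gpd.globMap ((forget H).app X)) h

/-- A cell from a cell below and a Moore path on the ball. -/
theorem exists_bcell {X : Gpd C} {n : ℕ} (u v : BObj D F θ X (Tree.disc n))
    (c : X.cell (n + 1)) (hcs : X.map (C.σ n) c = u.a) (hct : X.map (C.τ n) c = v.a)
    (Q : Moore (Ball (n + 1)) (F.obj X)) (hQ : Q.start = (th F θ X).app (n + 1) c)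
    (hQs : Q.pre hemS = u.P.pre (D.discInv n)) (hQt : Q.pre hemT = v.P.pre (D.discInv n)) :
    ∃ z : BObj D F θ X (Tree.disc (n + 1)), bmap H (C.σ n) z = u ∧ bmap H (C.τ n) z = v ∧
      z.a = c ∧ z.P = Q.pre (D.discFwd (n + 1)) := by
  refine ⟨⟨c, Q.pre (D.discFwd (n + 1)), ?_⟩, BObj.ext hcs ?_, BObj.ext hct ?_, rfl, rfl⟩
  · rw [Moore.pre_start, hQ, thEl_disc]
    rfl
  · refine (bmap_emb_P H (σG n) _).trans ?_
    show (Q.pre _).pre (D.dmap (C.σ n)) = u.P
    rw [Moore.pre_pre, D.discFwd_σ, ← Moore.pre_pre, hQs, Moore.pre_pre, D.discInv_discFwd,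
      Moore.pre_id]
  · refine (bmap_emb_P H (τG n) _).trans ?_
    show (Q.pre _).pre (D.dmap (C.τ n)) = v.P
    rw [Moore.pre_pre, D.discFwd_τ, ← Moore.pre_pre, hQt, Moore.pre_pre, D.discInv_discFwd,
      Moore.pre_id]

theorem exists_bcell_over {X : Gpd C} {n : ℕ} (u v : (bGpd H X).cell n)
    (huv : (bGpd H X).glob.Par u v) (c : X.cell (n + 1))
    (hcs : X.map (C.σ n) c = (u : BObj D F θ X _).a)
    (hct : X.map (C.τ n) c = (v : BObj D F θ X _).a) :
    ∃ z : BObj D F θ X (Tree.disc (n + 1)),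
      bmap H (C.σ n) z = u ∧ bmap H (C.τ n) z = v ∧ z.a = c := by
  obtain ⟨Q, hQs, hQt, hQ0⟩ := exists_moore_fill₀ ((bBall H X).app n u) ((bBall H X).app n v)
    (GlobSet.par_map (bBall H X) huv) ((th F θ X).app (n + 1) c)
    (by
      show _ = (u.P.pre (D.discInv n)).start
      rw [bBall_start, ← hcs]
      exact (th F θ X).comm_s n c)
    (by
      show _ = (v.P.pre (D.discInv n)).start
      rw [bBall_start, ← hct]
      exact (th F θ X).comm_t n c)
  obtain ⟨z, h₁, h₂, h₃, -⟩ := exists_bcell H u v c hcs hct Q hQ0 hQs hQt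
  exact ⟨z, h₁, h₂, h₃⟩

theorem good_forget (hC : C.Contractible) (X : Gpd C) (m : ℕ) :
    Good m (Gpd.globMap ((forget H).app X)) := by
  refine ⟨fun v => ?_, fun i _ u v huv w hs ht => ?_, fun i _ u v huv h => ?_⟩
  · exact ⟨(⟨v, Moore.refl (thEl D F θ X v), rfl⟩ : BObj D F θ X (Tree.disc 0)),
      Gpd.glob_rel_refl hC X v⟩
  · obtain ⟨z, h₁, h₂, h₃⟩ := exists_bcell_over H u v huv w hs ht
    exact ⟨z, h₁, h₂, by
      show X.glob.Rel (i + 1) z.a w
      rw [h₃]
      exact Gpd.glob_rel_refl hC X w⟩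
  · obtain ⟨c, hs, ht⟩ := h
    obtain ⟨z, h₁, h₂, -⟩ := exists_bcell_over H u v huv c hs ht
    exact ⟨z, h₁, h₂⟩

theorem exists_bcell_end {X : Gpd C} (hgood : ∀ m, Good m (th F θ X)) {n : ℕ}
    (u v : (bGpd H X).cell n) (huv : (bGpd H X).glob.Par u v)
    (w : (D.PiInfty.obj (F.obj X)).cell (n + 1))
    (hs : (D.PiInfty.obj (F.obj X)).map (C.σ n) w = ((endMap H).app X).app _ u)
    (ht : (D.PiInfty.obj (F.obj X)).map (C.τ n) w = ((endMap H).app X).app _ v) :
    ∃ z : BObj D F θ X (Tree.disc (n + 1)),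
      bmap H (C.σ n) z = u ∧ bmap H (C.τ n) z = v ∧ ((endMap H).app X).app _ z = w := by
  let w' : C(Ball (n + 1), F.obj X) := (w.hom.hom).comp (D.discInv (n + 1))
  obtain ⟨c, Q, hcs, hct, hQs, hQt, hQ0, hQ1⟩ :=
    exists_moore_fill₁ ((bBall H X).app n u) ((bBall H X).app n v)
      ((hgood (n + 1)).surj n (Nat.lt_succ_self n)) _ _ (par_a H huv) (bBall_start u)
      (bBall_start v) (GlobSet.par_map (bBall H X) huv) w'
      (ContinuousMap.ext fun p => by
        show w.hom.hom (D.discInv (n + 1) (hemS p)) = (u : BObj D F θ X _).P.fin (D.discInv n p)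
        rw [← show D.dmap (C.σ n) (D.discInv n p) = D.discInv (n + 1) (hemS p) from
          DFunLike.congr_fun (D.discInv_σ n) p]
        exact congrArg (fun φ => φ.hom.hom (D.discInv n p)) hs)
      (ContinuousMap.ext fun p => by
        show w.hom.hom (D.discInv (n + 1) (hemT p)) = (v : BObj D F θ X _).P.fin (D.discInv n p)
        rw [← show D.dmap (C.τ n) (D.discInv n p) = D.discInv (n + 1) (hemT p) from
          DFunLike.congr_fun (D.discInv_τ n) p]
        exact congrArg (fun φ => φ.hom.hom (D.discInv n p)) ht)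
  obtain ⟨z, h₁, h₂, -, h₄⟩ := exists_bcell H u v c hcs hct Q hQ0 hQs hQt
  refine ⟨z, h₁, h₂, ConcreteCategory.hom_ext _ _ fun p => ?_⟩
  show z.P.fin p = w.hom.hom p
  rw [h₄, Moore.pre_fin, hQ1]
  exact congrArg w.hom.hom (DFunLike.congr_fun (D.discInv_discFwd (n + 1)) p)

theorem good_endMap (hC : C.Contractible) (X : Gpd C) (hgood : ∀ m, Good m (th F θ X)) (m : ℕ) :
    Good m (Gpd.globMap ((endMap H).app X)) := by
  refine ⟨fun v => ?_, fun i _ u v huv w hs ht => ?_, fun i _ u v huv h => ?_⟩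
  · let v₀ : D.space (Tree.disc 0) ⟶ F.obj X := v
    let v' : C(Ball 0, F.obj X) := (v₀.hom.hom).comp (D.discInv 0)
    obtain ⟨a, ha⟩ := (hgood 0).surj0 v'
    let u₀ : C(Ball 0, F.obj X) := (th F θ X).app 0 a
    obtain ⟨A, -, hA0, hA1⟩ :=
      exists_swap₁ ((ContinuousMap.const' : C(F.obj X, C(I, F.obj X))).comp u₀) v' ha
    let Q : Moore (Ball 0) (F.obj X) :=
      Moore.ofI A (ContinuousMap.const _ 1) (fun _ => zero_le_one) fun _ h => absurd h one_ne_zero
    have hQ0 : Q.start = u₀ := (Moore.ofI_start _ _ _ _).trans hA0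
    have hQ1 : Q.fin = v' := (Moore.ofI_fin _ _ _ _).trans hA1
    let z : BObj D F θ X (Tree.disc 0) :=
      ⟨a, Q.pre (D.discFwd 0), by
        rw [Moore.pre_start, hQ0]
        exact (thEl_disc D F θ X (n := 0) a).symm⟩
    have hz : ((endMap H).app X).app _ z = v₀ := ConcreteCategory.hom_ext _ _ fun p => by
      show z.P.fin p = v₀.hom.hom p
      rw [show z.P = Q.pre (D.discFwd 0) from rfl, Moore.pre_fin, hQ1]
      exact congrArg v₀.hom.hom (DFunLike.congr_fun (D.discInv_discFwd 0) p)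
    refine ⟨z, ?_⟩
    show (D.PiInfty.obj (F.obj X)).glob.Rel 0 (((endMap H).app X).app _ z) v
    rw [hz]
    exact Gpd.glob_rel_refl hC (D.PiInfty.obj (F.obj X)) v
  · obtain ⟨z, h₁, h₂, h₃⟩ := exists_bcell_end H hgood u v huv w hs ht
    exact ⟨z, h₁, h₂, by
      show (D.PiInfty.obj (F.obj X)).glob.Rel (i + 1) (((endMap H).app X).app _ z) w
      rw [h₃]
      exact Gpd.glob_rel_refl hC (D.PiInfty.obj (F.obj X)) w⟩
  · obtain ⟨w, hs, ht⟩ := h
    obtain ⟨z, h₁, h₂, -⟩ := exists_bcell_end H hgood u v huv w hs ht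
    exact ⟨z, h₁, h₂⟩

end Span

/-- The span gives a natural isomorphism in the localization, given that good maps are weak
equivalences. -/
theorem span_iso_of (K : Coherator) (D : DiscFunctor K.colim) (F : Gpd K.colim ⥤ CGTop)
    (θ : Gpd.globF K.colim ⟶ F ⋙ compactlyGeneratedToTop ⋙ discsF)
    (hgood : ∀ X n, Good n (θ.app X : GlobMap X.glob (discs (F.obj X))))
    (htriv : ∀ T n, TrivialUpTo n (F.obj (Gpd.rep K.colim T)))
    (hWE : ∀ {X Y : Gpd K.colim} (f : X ⟶ Y), (∀ n, Good n (Gpd.globMap f)) →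
      Gpd.IsWeakEquiv K.contractible f) :
    Nonempty (F ⋙ D.PiInfty ⋙ (Gpd.weakEquivs K.contractible).Q ≅
      (Gpd.weakEquivs K.contractible).Q) := by
  obtain ⟨H⟩ := Span.exists_homotopies K D F θ htriv
  let W := Gpd.weakEquivs K.contractible
  have h₁ : ∀ X, IsIso (W.Q.map ((Span.forget H).app X)) := fun X =>
    Localization.inverts W.Q W _ (hWE _ (Span.good_forget H K.contractible X))
  have h₂ : ∀ X, IsIso (W.Q.map ((Span.endMap H).app X)) := fun X =>
    Localization.inverts W.Q W _ (hWE _ (Span.good_endMap H K.contractible X (hgood X)))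
  let e₁ : Span.bFun H ⋙ W.Q ≅ W.Q :=
    NatIso.ofComponents (fun X => @asIso _ _ _ _ _ (h₁ X)) fun φ => by
      show W.Q.map ((Span.bFun H).map φ) ≫ W.Q.map ((Span.forget H).app _) =
        W.Q.map ((Span.forget H).app _) ≫ W.Q.map φ
      rw [← Functor.map_comp, ← Functor.map_comp]
      exact congrArg W.Q.map ((Span.forget H).naturality φ)
  let e₂ : Span.bFun H ⋙ W.Q ≅ F ⋙ D.PiInfty ⋙ W.Q :=
    NatIso.ofComponents (fun X => @asIso _ _ _ _ _ (h₂ X)) fun φ => by
      show W.Q.map ((Span.bFun H).map φ) ≫ W.Q.map ((Span.endMap H).app _) =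
        W.Q.map ((Span.endMap H).app _) ≫ W.Q.map ((F ⋙ D.PiInfty).map φ)
      rw [← Functor.map_comp, ← Functor.map_comp]
      exact congrArg W.Q.map ((Span.endMap H).naturality φ)
  exact ⟨e₂.symm ≪≫ e₁⟩

/-- A good natural map from cells to discs that is trivial on representables makes the composite
with the fundamental groupoid isomorphic to the localization functor. -/
theorem span_iso (K : Coherator) (D : DiscFunctor K.colim) (F : Gpd K.colim ⥤ CGTop)
    (θ : Gpd.globF K.colim ⟶ F ⋙ compactlyGeneratedToTop ⋙ discsF)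
    (hgood : ∀ X n, Good n (θ.app X : GlobMap X.glob (discs (F.obj X))))
    (htriv : ∀ T n, TrivialUpTo n (F.obj (Gpd.rep K.colim T))) :
    Nonempty (F ⋙ D.PiInfty ⋙ (Gpd.weakEquivs K.contractible).Q ≅
      (Gpd.weakEquivs K.contractible).Q) :=
  span_iso_of K D F θ hgood htriv fun f h => Gpd.isWeakEquiv_of_good f h

end Vale.Agent.P259
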