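import Vale.Agent.P259.Assembly
import Vale.Agent.P259.Span

/-!
# Realization followed by the fundamental groupoid is the identity of the localization
-/

noncomputable section

namespace Vale.Agent.P259

open CategoryTheory

/-- For every disc functor the realization is a one-sided inverse of the fundamental groupoid. -/
theorem span_FR (K : Coherator) (D : DiscFunctor K.colim) :
    Nonempty (FR K.colim ⋙ D.PiInfty ⋙ (Gpd.weakEquivs K.contractible).Q ≅
      (Gpd.weakEquivs K.contractible).Q) := by
  obtain ⟨θ, hθ⟩ := exists_thetaReal K
  exact span_iso K D (FR K.colim) θ hθ (trivial_FR_rep K)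

/-- The induced functor between localizations is essentially surjective. -/
theorem essSurj_lift (K : Coherator) (D : DiscFunctor K.colim) :
    (Localization.Construction.lift _ (inverts_piInfty K D)).EssSurj := by
  obtain ⟨i⟩ := span_FR K D
  let W := Gpd.weakEquivs K.contractible
  let P := Localization.Construction.lift (D.PiInfty ⋙ W.Q) (inverts_piInfty K D)
  have eP : weakHomotopyEquivs.Q ⋙ P = D.PiInfty ⋙ W.Q := Localization.Construction.fac _ _
  haveI := Localization.essSurj W.Q W
  refine ⟨fun Z => ?_⟩
  refine ⟨weakHomotopyEquivs.Q.obj ((FR K.colim).obj (W.Q.objPreimage Z)), ⟨?_⟩⟩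
  exact (eqToIso eP).app _ ≪≫ i.app _ ≪≫ W.Q.objObjPreimageIso Z

end Vale.Agent.P259
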