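import Vale.Agent.P259.Alg
import Mathlib.Analysis.Convex.StdSimplex
import Mathlib.Topology.CompactOpen

/-!
# Realization of a poset by weights on finite chains, and the maximum map to the poset
-/

noncomputable section

namespace Vale.Agent.P259

open CategoryTheory Topology Set
open scoped unitInterval

variable {P Q R : Type} [PartialOrder P] [PartialOrder Q] [PartialOrder R]

/-- Finite nonempty chains. -/
abbrev Chain (P : Type) [PartialOrder P] : Type :=
  {s : Finset P // s.Nonempty ∧ IsChain (· ≤ ·) (s : Set P)}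

/-- Finitely supported weights on a chain. -/
def RzSpace (P : Type) [PartialOrder P] : Type :=
  {w : P →₀ ℝ // (∀ p, 0 ≤ w p) ∧ (w.sum fun _ r => r) = 1 ∧ IsChain (· ≤ ·) (w.support : Set P)}

/-- Sum of point masses. -/
def weights (s : Finset P) (x : stdSimplex ℝ s) : P →₀ ℝ := ∑ a : s, Finsupp.single a.1 (x a)

theorem weights_apply [DecidableEq P] (s : Finset P) (x : stdSimplex ℝ s) (p : P) :
    weights s x p = if h : p ∈ s then x ⟨p, h⟩ else 0 := by
  rw [weights, Finset.sum_apply']
  split_ifs with h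
  · rw [Finset.sum_eq_single ⟨p, h⟩]
    · exact Finsupp.single_eq_same
    · intro b _ hb
      exact Finsupp.single_eq_of_ne fun e => hb (Subtype.ext e.symm)
    · exact fun hn => absurd (Finset.mem_univ _) hn
  · refine Finset.sum_eq_zero fun a _ => Finsupp.single_eq_of_ne fun e => h (e ▸ a.2)

theorem weights_support_subset (s : Finset P) (x : stdSimplex ℝ s) :
    (weights s x).support ⊆ s := by
  classical
  intro p hp
  by_contra h
  rw [Finsupp.mem_support_iff, weights_apply, dif_neg h] at hp
  exact hp rfl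

/-- The inclusion of a simplex, as a function. -/
def rzInclFun (s : Chain P) (x : stdSimplex ℝ s.1) : RzSpace P :=
  ⟨weights s.1 x, fun p => by
      classical
      rw [weights_apply]; split_ifs <;> simp, by
      rw [weights, ← Finsupp.sum_finsetSum_index (fun _ => rfl) (fun _ _ _ => rfl)]
      exact (Finset.sum_congr rfl fun i _ => Finsupp.sum_single_index rfl).trans x.2.2,
    s.2.2.mono (Finset.coe_subset.2 (weights_support_subset s.1 x))⟩

/-- All simplices to the space. -/
def rzGlue (z : Σ s : Chain P, stdSimplex ℝ s.1) : RzSpace P := rzInclFun z.1 z.2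

instance : TopologicalSpace (RzSpace P) := TopologicalSpace.coinduced rzGlue inferInstance

theorem continuous_rzGlue : Continuous (rzGlue (P := P)) := continuous_coinduced_rng

instance : UCompactlyGeneratedSpace.{0} (RzSpace P) :=
  uCompactlyGeneratedSpace_of_coinduced continuous_rzGlue rfl

/-- The realization, as a compactly generated space. -/
abbrev Rz (P : Type) [PartialOrder P] : CGTop := CompactlyGenerated.of (RzSpace P)

/-- The inclusion of a simplex. -/
def rzIncl (s : Chain P) : C(stdSimplex ℝ s.1, RzSpace P) :=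
  ⟨rzInclFun s, continuous_rzGlue.comp continuous_sigmaMk⟩

theorem rzIncl_val (s : Chain P) (x : stdSimplex ℝ s.1) : (rzIncl s x).1 = weights s.1 x := rfl

theorem rzIncl_apply_mem (s : Chain P) (x : stdSimplex ℝ s.1) (a : s.1) :
    (rzIncl s x).1 a.1 = x a := by
  classical
  rw [rzIncl_val, weights_apply, dif_pos a.2]

theorem rzIncl_apply_notMem (s : Chain P) (x : stdSimplex ℝ s.1) {p : P} (h : p ∉ s.1) :
    (rzIncl s x).1 p = 0 := by
  classical
  rw [rzIncl_val, weights_apply, dif_neg h]

theorem rzIncl_injective (s : Chain P) : Function.Injective (rzIncl s) := fun x y h =>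
  stdSimplex.ext (funext fun a => by rw [← rzIncl_apply_mem s x a, h, rzIncl_apply_mem])

namespace RzSpace

theorem support_nonempty (w : RzSpace P) : w.1.support.Nonempty :=
  Finset.nonempty_iff_ne_empty.2 fun h => by
    have := w.2.2.1
    rw [Finsupp.sum, h, Finset.sum_empty] at this
    exact zero_ne_one this

/-- The support, as a chain. -/
def chain (w : RzSpace P) : Chain P := ⟨w.1.support, w.support_nonempty, w.2.2.2⟩

/-- The coordinates of a point in any chain containing its support. -/
def toSimplex (w : RzSpace P) (s : Chain P) (h : w.1.support ⊆ s.1) : stdSimplex ℝ s.1 :=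
  ⟨fun a => w.1 a.1, fun a => w.2.1 a.1, by
    rw [Finset.sum_coe_sort s.1 fun p => w.1 p]
    exact (Finsupp.sum_of_support_subset w.1 h (fun _ r => r) fun _ _ => rfl).symm.trans w.2.2.1⟩

@[simp] theorem toSimplex_apply (w : RzSpace P) (s : Chain P) (h : w.1.support ⊆ s.1) (a : s.1) :
    w.toSimplex s h a = w.1 a.1 := rfl

theorem incl_toSimplex (w : RzSpace P) (s : Chain P) (h : w.1.support ⊆ s.1) :
    rzIncl s (w.toSimplex s h) = w := by
  refine Subtype.ext (Finsupp.ext fun p => ?_)
  by_cases hp : p ∈ s.1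
  · exact rzIncl_apply_mem s _ ⟨p, hp⟩
  · rw [rzIncl_apply_notMem _ _ hp]
    exact (Finsupp.notMem_support_iff.1 fun hh => hp (h hh)).symm

end RzSpace

theorem rzGlue_surjective : Function.Surjective (rzGlue (P := P)) := fun w =>
  ⟨⟨w.chain, w.toSimplex w.chain subset_rfl⟩, w.incl_toSimplex w.chain subset_rfl⟩

theorem isQuotientMap_rzGlue : IsQuotientMap (rzGlue (P := P)) :=
  ⟨⟨rfl⟩, rzGlue_surjective⟩

theorem rz_continuous_iff {Y : Type*} [TopologicalSpace Y] {f : RzSpace P → Y} :
    Continuous f ↔ ∀ s : Chain P, Continuous (f ∘ rzIncl s) := by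
  rw [isQuotientMap_rzGlue.continuous_iff, continuous_sigma_iff]
  rfl

theorem rz_hom_ext {Y : Type*} [TopologicalSpace Y] {f g : C(RzSpace P, Y)}
    (h : ∀ s : Chain P, ∀ x, f (rzIncl s x) = g (rzIncl s x)) : f = g :=
  ContinuousMap.ext fun w => by
    rw [← w.incl_toSimplex w.chain subset_rfl]
    exact h _ _

/-- Subchains give the same points. -/
theorem rzIncl_subset {s t : Chain P} (h : s.1 ⊆ t.1) (x : stdSimplex ℝ s.1) :
    rzIncl t (stdSimplex.map (fun a : s.1 => (⟨a.1, h a.2⟩ : t.1)) x) = rzIncl s x := by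
  classical
  refine Subtype.ext (Finsupp.ext fun p => ?_)
  by_cases hp : p ∈ t.1
  · rw [rzIncl_apply_mem t _ ⟨p, hp⟩, stdSimplex.map_coe, FunOnFinite.linearMap_apply_apply]
    by_cases hs : p ∈ s.1
    · rw [rzIncl_apply_mem s _ ⟨p, hs⟩, Finset.sum_eq_single ⟨p, hs⟩]
      · intro b hb hne
        exact absurd (Subtype.ext (Subtype.ext_iff.1 (Finset.mem_filter.1 hb).2 :) : b = ⟨p, hs⟩) hne
      · simp
    · rw [rzIncl_apply_notMem _ _ hs]
      refine Finset.sum_eq_zero fun b hb => absurd ?_ hs
      have : b.1 = p := congrArg Subtype.val (Finset.mem_filter.1 hb).2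
      exact this ▸ b.2
  · rw [rzIncl_apply_notMem _ _ hp, rzIncl_apply_notMem _ _ fun hs => hp (h hs)]

/-- Maps out of the realization from compatible maps on simplices. -/
def rzDesc {Y : Type*} [TopologicalSpace Y] (f : ∀ s : Chain P, C(stdSimplex ℝ s.1, Y))
    (hf : ∀ (s t : Chain P) (h : s.1 ⊆ t.1) (x : stdSimplex ℝ s.1),
      f t (stdSimplex.map (fun a : s.1 => (⟨a.1, h a.2⟩ : t.1)) x) = f s x) :
    C(RzSpace P, Y) :=
  have key : ∀ (s : Chain P) (x : stdSimplex ℝ s.1),
      f (rzIncl s x).chain ((rzIncl s x).toSimplex _ subset_rfl) = f s x := fun s x => by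
    have h : (rzIncl s x).chain.1 ⊆ s.1 := weights_support_subset s.1 x
    have e : stdSimplex.map (fun a : (rzIncl s x).chain.1 => (⟨a.1, h a.2⟩ : s.1))
        ((rzIncl s x).toSimplex _ subset_rfl) = x :=
      rzIncl_injective s ((rzIncl_subset h _).trans (RzSpace.incl_toSimplex _ _ subset_rfl))
    rw [← hf _ s h, e]
  ⟨fun w => f w.chain (w.toSimplex w.chain subset_rfl), rz_continuous_iff.2 fun s => by
    rw [show ((fun w : RzSpace P => f w.chain (w.toSimplex w.chain subset_rfl)) ∘ rzIncl s) = f s
      from funext (key s)]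
    exact (f s).continuous⟩

theorem rzDesc_incl {Y : Type*} [TopologicalSpace Y] (f : ∀ s : Chain P, C(stdSimplex ℝ s.1, Y))
    (hf : ∀ (s t : Chain P) (h : s.1 ⊆ t.1) (x : stdSimplex ℝ s.1),
      f t (stdSimplex.map (fun a : s.1 => (⟨a.1, h a.2⟩ : t.1)) x) = f s x)
    (s : Chain P) (x : stdSimplex ℝ s.1) : rzDesc f hf (rzIncl s x) = f s x := by
  have h : (rzIncl s x).chain.1 ⊆ s.1 := weights_support_subset s.1 x
  have e : stdSimplex.map (fun a : (rzIncl s x).chain.1 => (⟨a.1, h a.2⟩ : s.1))
      ((rzIncl s x).toSimplex _ subset_rfl) = x :=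
    rzIncl_injective s ((rzIncl_subset h _).trans (RzSpace.incl_toSimplex _ _ subset_rfl))
  show f (rzIncl s x).chain ((rzIncl s x).toSimplex _ subset_rfl) = f s x
  rw [← hf _ s h, e]

/-! ### Functoriality -/

/-- The image of a chain. -/
def Chain.map (f : P →o Q) (s : Chain P) : Chain Q :=
  haveI := Classical.decEq Q
  ⟨s.1.image f, s.2.1.image f, by
    rw [Finset.coe_image]
    exact s.2.2.image_of_map_rel _ _ f fun _ _ h => f.mono h⟩

theorem Chain.mem_map (f : P →o Q) (s : Chain P) (a : s.1) : f a.1 ∈ (s.map f).1 := by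
  classical
  exact Finset.mem_image_of_mem f a.2

theorem mapDomain_weights (f : P →o Q) (s : Chain P) (x : stdSimplex ℝ s.1) :
    Finsupp.mapDomain f (weights s.1 x) = weights (s.map f).1
      (stdSimplex.map (fun a : s.1 => (⟨f a.1, s.mem_map f a⟩ : (s.map f).1)) x) := by
  classical
  rw [weights, weights, Finsupp.mapDomain_finsetSum]
  simp only [Finsupp.mapDomain_single, stdSimplex.map_coe, FunOnFinite.linearMap_apply_apply]
  rw [← Finset.sum_fiberwise Finset.univ
    (fun a : s.1 => (⟨f a.1, s.mem_map f a⟩ : (s.map f).1))]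
  refine Finset.sum_congr rfl fun b _ => ?_
  rw [Finsupp.single_finsetSum]
  refine Finset.sum_congr rfl fun a ha => ?_
  rw [← (Finset.mem_filter.1 ha).2]

/-- The function underlying `rzMap`. -/
def rzMapFun (f : P →o Q) (w : RzSpace P) : RzSpace Q :=
  ⟨Finsupp.mapDomain f w.1, by
    have h := mapDomain_weights f w.chain (w.toSimplex w.chain subset_rfl)
    have e : weights w.chain.1 (w.toSimplex w.chain subset_rfl) = w.1 :=
      congrArg Subtype.val (w.incl_toSimplex w.chain subset_rfl)
    rw [← e, h]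
    exact (rzInclFun _ _).2⟩

theorem rzMapFun_incl (f : P →o Q) (s : Chain P) (x : stdSimplex ℝ s.1) :
    rzMapFun f (rzIncl s x) =
      rzIncl (s.map f) (stdSimplex.map (fun a : s.1 => (⟨f a.1, s.mem_map f a⟩ : (s.map f).1)) x) :=
  Subtype.ext (mapDomain_weights f s x)

/-- The map of a monotone map. -/
def rzMap (f : P →o Q) : C(RzSpace P, RzSpace Q) :=
  ⟨rzMapFun f, rz_continuous_iff.2 fun s => by
    rw [show rzMapFun f ∘ rzIncl s = fun x => rzIncl (s.map f)
      (stdSimplex.map (fun a : s.1 => (⟨f a.1, s.mem_map f a⟩ : (s.map f).1)) x) from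
      funext (rzMapFun_incl f s)]
    exact (rzIncl _).continuous.comp (stdSimplex.continuous_map _)⟩

theorem rzMap_incl (f : P →o Q) (s : Chain P) (x : stdSimplex ℝ s.1) :
    rzMap f (rzIncl s x) =
      rzIncl (s.map f) (stdSimplex.map (fun a : s.1 => (⟨f a.1, s.mem_map f a⟩ : (s.map f).1)) x) :=
  rzMapFun_incl f s x

theorem rzMap_val (f : P →o Q) (w : RzSpace P) : (rzMap f w).1 = Finsupp.mapDomain f w.1 := rfl

@[simp] theorem rzMap_id : rzMap (OrderHom.id : P →o P) = ContinuousMap.id (RzSpace P) :=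
  ContinuousMap.ext fun _ => Subtype.ext Finsupp.mapDomain_id

theorem rzMap_comp (f : P →o Q) (g : Q →o R) : rzMap (g.comp f) = (rzMap g).comp (rzMap f) :=
  ContinuousMap.ext fun w =>
    Subtype.ext (Finsupp.mapDomain_comp (v := w.1) (f := f) (g := g))

/-! ### The maximum of the support -/

theorem exists_max (w : RzSpace P) : ∃ m ∈ w.1.support, ∀ a ∈ w.1.support, a ≤ m := by
  obtain ⟨m, hm⟩ := w.1.support.exists_maximal w.support_nonempty
  exact ⟨m, hm.1, fun a ha => (eq_or_ne a m).elim le_of_eq
    fun h => (w.2.2.2 ha hm.1 h).elim id fun h' => hm.2 ha h'⟩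

/-- The largest point of the support. -/
def rzMaxFun (w : RzSpace P) : P := Classical.choose (exists_max w)

theorem rzMaxFun_mem (w : RzSpace P) : rzMaxFun w ∈ w.1.support :=
  (Classical.choose_spec (exists_max w)).1

theorem le_rzMaxFun (w : RzSpace P) {a : P} (ha : a ∈ w.1.support) : a ≤ rzMaxFun w :=
  (Classical.choose_spec (exists_max w)).2 a ha

theorem rzMaxFun_map (f : P →o Q) (w : RzSpace P) :
    rzMaxFun (rzMap f w) = f (rzMaxFun w) := by
  classical
  refine le_antisymm ?_ (le_rzMaxFun _ ?_)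
  · obtain ⟨a, ha, hfa⟩ :=
      Finset.mem_image.1 (Finsupp.mapDomain_support (rzMaxFun_mem (rzMap f w)))
    rw [← hfa]
    exact f.mono (le_rzMaxFun w ha)
  · rw [rzMap_val, Finsupp.mem_support_iff, Finsupp.mapDomain, Finsupp.sum_apply]
    refine (Finset.sum_pos' (fun a _ => ?_) ⟨rzMaxFun w, rzMaxFun_mem w, ?_⟩).ne'
    · show 0 ≤ Finsupp.single (f a) (w.1 a) (f (rzMaxFun w))
      rw [Finsupp.single_apply]; split_ifs
      · exact w.2.1 a
      · exact le_rfl
    · show 0 < Finsupp.single (f (rzMaxFun w)) (w.1 (rzMaxFun w)) (f (rzMaxFun w))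
      rw [Finsupp.single_eq_same]
      exact (w.2.1 _).lt_of_ne' (Finsupp.mem_support_iff.1 (rzMaxFun_mem w))

/-- Membership of the maximum in an upper set, on a simplex. -/
theorem rzMaxFun_incl_mem {U : Set P} (hU : IsUpperSet U) (s : Chain P) (x : stdSimplex ℝ s.1) :
    rzMaxFun (rzIncl s x) ∈ U ↔ ∃ a : s.1, a.1 ∈ U ∧ 0 < x a := by
  constructor
  · intro h
    refine ⟨⟨_, weights_support_subset s.1 x (rzMaxFun_mem (rzIncl s x))⟩, h, ?_⟩
    rw [← rzIncl_apply_mem s x]
    exact ((rzIncl s x).2.1 _).lt_of_ne' (Finsupp.mem_support_iff.1 (rzMaxFun_mem (rzIncl s x)))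
  · rintro ⟨a, ha, hx⟩
    refine hU (le_rzMaxFun (rzIncl s x) ?_) ha
    rw [Finsupp.mem_support_iff, rzIncl_apply_mem]
    exact hx.ne'

variable [TopologicalSpace P] [Topology.IsUpperSet P]

/-- The maximum map. -/
def rzMax : C(RzSpace P, P) :=
  ⟨rzMaxFun, rz_continuous_iff.2 fun s => continuous_def.2 fun U hU => by
    have hU' : IsUpperSet U := Topology.IsUpperSet.isOpen_iff_isUpperSet.1 hU
    rw [show (rzMaxFun ∘ rzIncl s) ⁻¹' U = ⋃ (a : s.1) (_ : a.1 ∈ U), {x | 0 < x a} from
      Set.ext fun x => by simp [rzMaxFun_incl_mem hU' s x]]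
    exact isOpen_iUnion fun a => isOpen_iUnion fun _ => isOpen_lt continuous_const
      ((continuous_apply a).comp continuous_subtype_val)⟩

theorem rzMax_map [TopologicalSpace Q] [Topology.IsUpperSet Q] (f : P →o Q) (w : RzSpace P) :
    rzMax (rzMap f w) = f (rzMax w) := rzMaxFun_map f w

/-! ### The pieces over the poset are contractible -/

section Piece

variable (p : P)

/-- The part of a simplex lying over the points above `p`. -/
abbrev PieceS (s : Chain P) : Type := {x : stdSimplex ℝ s.1 // ∃ a : s.1, p ≤ a.1 ∧ 0 < x a}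

/-- The parts of simplices cover the piece. -/
def pieceGlue (z : Σ s : Chain P, PieceS p s) : VSpace (rzMax (P := P)) p :=
  ⟨rzIncl z.1 z.2.1, (rzMaxFun_incl_mem (isUpperSet_Ici p) z.1 z.2.1).2 z.2.2⟩

theorem isQuotientMap_pieceGlue : IsQuotientMap (pieceGlue p) := by
  have hc : Continuous (pieceGlue p) := continuous_sigma fun s =>
    ((rzIncl s).continuous.comp continuous_subtype_val).subtype_mk _
  have hsurj : Function.Surjective (pieceGlue p) := fun v =>
    ⟨⟨v.1.chain, v.1.toSimplex v.1.chain subset_rfl,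
      (rzMaxFun_incl_mem (isUpperSet_Ici p) v.1.chain _).1
        ((congrArg rzMaxFun (v.1.incl_toSimplex v.1.chain subset_rfl)).symm ▸ v.2)⟩,
      Subtype.ext (v.1.incl_toSimplex v.1.chain subset_rfl)⟩
  refine (Topology.isQuotientMap_iff _).2
    ⟨Topology.isCoinducing_iff.2 fun O => ⟨fun h => ?_, fun h => h.preimage hc⟩, hsurj⟩
  have ho : IsOpen (Subtype.val '' O : Set (RzSpace P)) := by
    rw [← isQuotientMap_rzGlue.isOpen_preimage, isOpen_sigma_iff]
    intro s
    have e : Sigma.mk s ⁻¹' (rzGlue ⁻¹' (Subtype.val '' O)) =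
        Subtype.val '' ((fun y : PieceS p s => (⟨s, y⟩ : Σ s : Chain P, PieceS p s)) ⁻¹'
          (pieceGlue p ⁻¹' O)) := by
      ext x
      constructor
      · rintro ⟨v, hv, hvx⟩
        have hvx' : v.1 = rzIncl s x := hvx
        have hx : ∃ a : s.1, p ≤ a.1 ∧ 0 < x a :=
          (rzMaxFun_incl_mem (isUpperSet_Ici p) s x).1 (congrArg rzMaxFun hvx' ▸ v.2)
        have hv' : v = pieceGlue p ⟨s, ⟨x, hx⟩⟩ := Subtype.ext hvx'
        exact ⟨⟨x, hx⟩, show pieceGlue p ⟨s, ⟨x, hx⟩⟩ ∈ O from hv' ▸ hv, rfl⟩
      · rintro ⟨y, hy, rfl⟩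
        exact ⟨_, hy, rfl⟩
    rw [e]
    have hopen : IsOpen {x : stdSimplex ℝ s.1 | ∃ a : s.1, p ≤ a.1 ∧ 0 < x a} := by
      rw [show {x : stdSimplex ℝ s.1 | ∃ a : s.1, p ≤ a.1 ∧ 0 < x a} =
        ⋃ (a : s.1) (_ : p ≤ a.1), {x | 0 < x a} from Set.ext fun x => by simp]
      exact isOpen_iUnion fun a => isOpen_iUnion fun _ => isOpen_lt continuous_const
        ((continuous_apply a).comp continuous_subtype_val)
    exact hopen.isOpenMap_subtype_val _ (isOpen_sigma_iff.1 h s)
  have := ho.preimage (continuous_subtype_val (p := fun w : RzSpace P => p ≤ rzMax w))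
  rwa [preimage_image_eq _ Subtype.val_injective] at this

/-- The total weight above `p`. -/
def upSum (w : P →₀ ℝ) : ℝ :=
  haveI := Classical.decPred (p ≤ ·)
  (w.filter (p ≤ ·)).sum fun _ r => r

/-- The weights above `p`, normalized. -/
def upNorm (w : P →₀ ℝ) : P →₀ ℝ :=
  haveI := Classical.decPred (p ≤ ·)
  (upSum p w)⁻¹ • w.filter (p ≤ ·)

theorem upSum_incl [DecidablePred (p ≤ ·)] (s : Chain P) (x : stdSimplex ℝ s.1) :
    upSum p (rzIncl s x).1 = ∑ a : s.1, if p ≤ a.1 then x a else 0 := by
  classical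
  rw [upSum, Finsupp.sum_of_support_subset _ (s := s.1) _ (fun _ r => r) fun _ _ => rfl,
    ← Finset.sum_coe_sort]
  · refine Finset.sum_congr rfl fun a _ => ?_
    rw [Finsupp.filter_apply, rzIncl_apply_mem]
    congr
  · exact fun a ha => weights_support_subset s.1 x (Finsupp.mem_support_iff.2 fun h0 => by
      rw [Finsupp.mem_support_iff, Finsupp.filter_apply, rzIncl_val, h0, ite_self] at ha
      exact ha rfl)

theorem upSum_pos {s : Chain P} (x : PieceS p s) : 0 < upSum p (rzIncl s x.1).1 := by
  classical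
  rw [upSum_incl]
  obtain ⟨a, ha, hx⟩ := x.2
  exact Finset.sum_pos' (fun b _ => by split_ifs <;> simp) ⟨a, Finset.mem_univ _, by rw [if_pos ha]; exact hx⟩

theorem segment_mem {a b : P →₀ ℝ} (ha : ∀ q, 0 ≤ a q) (hb : ∀ q, 0 ≤ b q)
    (hsa : (a.sum fun _ r => r) = 1) (hsb : (b.sum fun _ r => r) = 1) (t : I) :
    (∀ q, 0 ≤ ((1 - (t : ℝ)) • a + (t : ℝ) • b) q) ∧
      (((1 - (t : ℝ)) • a + (t : ℝ) • b).sum fun _ r => r) = 1 := by
  refine ⟨fun q => ?_, ?_⟩
  · simp only [Finsupp.add_apply, Finsupp.smul_apply, smul_eq_mul]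
    nlinarith [ha q, hb q, t.2.1, t.2.2]
  · rw [Finsupp.sum_add_index' (fun _ => rfl) fun _ _ _ => rfl,
      Finsupp.sum_smul_index' fun _ => rfl, Finsupp.sum_smul_index' fun _ => rfl]
    simp only [smul_eq_mul]
    rw [← Finsupp.mul_sum, ← Finsupp.mul_sum, hsa, hsb]
    ring

theorem upNorm_props {v : VSpace (rzMax (P := P)) p} :
    (∀ q, 0 ≤ upNorm p v.1.1 q) ∧ ((upNorm p v.1.1).sum fun _ r => r) = 1 ∧
      ∀ q ∈ (upNorm p v.1.1).support, q ∈ v.1.1.support ∧ p ≤ q := by
  classical
  obtain ⟨⟨s, x⟩, rfl⟩ := (isQuotientMap_pieceGlue p).surjective v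
  have hS : 0 < upSum p (rzIncl s x.1).1 := upSum_pos p x
  refine ⟨fun q => ?_, ?_, fun q hq => ?_⟩
  · show 0 ≤ upNorm p (rzIncl s x.1).1 q
    rw [upNorm, Finsupp.smul_apply, Finsupp.filter_apply, smul_eq_mul]
    exact mul_nonneg (inv_nonneg.2 hS.le) (by split_ifs <;> first | exact (rzIncl s x.1).2.1 q | exact le_rfl)
  · show ((upNorm p (rzIncl s x.1).1).sum fun _ r => r) = 1
    rw [upNorm, Finsupp.sum_smul_index' fun _ => rfl]
    simp only [smul_eq_mul]
    rw [← Finsupp.mul_sum]
    exact inv_mul_cancel₀ hS.ne'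
  · rw [upNorm, Finsupp.mem_support_iff, Finsupp.smul_apply, Finsupp.filter_apply] at hq
    by_cases h : p ≤ q
    · rw [if_pos h] at hq
      exact ⟨Finsupp.mem_support_iff.2 (right_ne_zero_of_mul hq), h⟩
    · rw [if_neg h, smul_zero] at hq
      exact absurd rfl hq

theorem single_props : (∀ q, 0 ≤ Finsupp.single p (1 : ℝ) q) ∧
    ((Finsupp.single p (1 : ℝ)).sum fun _ r => r) = 1 := by
  classical
  exact ⟨fun q => by rw [Finsupp.single_apply]; split_ifs <;> simp, Finsupp.sum_single_index rfl⟩

theorem segment_support {a b : P →₀ ℝ} {c d : ℝ} {q : P} (h : q ∈ (c • a + d • b).support) :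
    q ∈ a.support ∨ q ∈ b.support := by
  classical
  rcases Finset.mem_union.1 (Finsupp.support_add h) with h | h
  · exact Or.inl (Finsupp.support_smul h)
  · exact Or.inr (Finsupp.support_smul h)

theorem up_chain {s : Finset P} (hs : IsChain (· ≤ ·) (s : Set P)) [DecidableEq P]
    [DecidablePred (p ≤ ·)] :
    IsChain (· ≤ ·) ((insert p (s.filter (p ≤ ·)) : Finset P) : Set P) := by
  rw [Finset.coe_insert]
  exact (hs.mono (Finset.coe_subset.2 (Finset.filter_subset _ _))).insert
    fun q hq _ => Or.inl (Finset.mem_filter.1 (Finset.mem_coe.1 hq)).2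

/-- Push the weights to those above `p`, linearly. -/
def stageOneFun (z : VSpace (rzMax (P := P)) p × I) : VSpace (rzMax (P := P)) p :=
  ⟨⟨(1 - (z.2 : ℝ)) • z.1.1.1 + (z.2 : ℝ) • upNorm p z.1.1.1,
    (segment_mem z.1.1.2.1 (upNorm_props p).1 z.1.1.2.2.1 (upNorm_props p).2.1 z.2).1,
    (segment_mem z.1.1.2.1 (upNorm_props p).1 z.1.1.2.2.1 (upNorm_props p).2.1 z.2).2,
    z.1.1.2.2.2.mono (Finset.coe_subset.2 fun q hq =>
      (segment_support hq).elim id fun h => ((upNorm_props p).2.2 q h).1)⟩, by
    obtain ⟨⟨v, hv⟩, t⟩ := z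
    rcases eq_or_lt_of_le t.2.1 with ht | ht
    · refine le_trans hv (le_of_eq (congrArg rzMax (Subtype.ext ?_)))
      show v.1 = (1 - (t : ℝ)) • v.1 + (t : ℝ) • upNorm p v.1
      rw [← ht, sub_zero, one_smul, zero_smul, add_zero]
    · have hm : rzMaxFun v ∈ ((1 - (t : ℝ)) • v.1 + (t : ℝ) • upNorm p v.1).support := by
        classical
        rw [Finsupp.mem_support_iff, Finsupp.add_apply, Finsupp.smul_apply, Finsupp.smul_apply,
          smul_eq_mul, smul_eq_mul]
        have h1 : 0 < v.1 (rzMaxFun v) :=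
          (v.2.1 _).lt_of_ne' (Finsupp.mem_support_iff.1 (rzMaxFun_mem v))
        have h2 := (upNorm_props p (v := ⟨v, hv⟩)).1 (rzMaxFun v)
        rcases eq_or_lt_of_le t.2.2 with e | e
        · obtain ⟨⟨s, x⟩, hx⟩ := (isQuotientMap_pieceGlue p).surjective ⟨v, hv⟩
          have hx' : rzIncl s x.1 = v := congrArg Subtype.val hx
          have hS : 0 < upSum p v.1 := hx' ▸ upSum_pos p x
          rw [e, sub_self, zero_mul, zero_add, one_mul, upNorm, Finsupp.smul_apply,
            Finsupp.filter_apply, if_pos (show p ≤ rzMaxFun v from hv), smul_eq_mul]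
          exact (mul_pos (inv_pos.2 hS) h1).ne'
        · have h2' := mul_nonneg t.2.1 h2
          have h3 := mul_pos (sub_pos.2 e) h1
          exact (add_pos_of_pos_of_nonneg h3 h2').ne'
      exact le_trans hv (le_rzMaxFun _ hm)⟩

/-- Move to the vertex `p`, linearly. -/
def stageTwoFun (z : VSpace (rzMax (P := P)) p × I) : VSpace (rzMax (P := P)) p :=
  let w : RzSpace P := ⟨(1 - (z.2 : ℝ)) • upNorm p z.1.1.1 + (z.2 : ℝ) • Finsupp.single p 1,
    (segment_mem (upNorm_props p).1 (single_props p).1 (upNorm_props p).2.1 (single_props p).2 z.2).1,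
    (segment_mem (upNorm_props p).1 (single_props p).1 (upNorm_props p).2.1 (single_props p).2 z.2).2,
    by
      classical
      refine (up_chain p z.1.1.2.2.2).mono (Finset.coe_subset.2 fun q hq => ?_)
      rcases segment_support hq with h | h
      · exact Finset.mem_insert_of_mem (Finset.mem_filter.2 ((upNorm_props p).2.2 q h))
      · rw [Finset.mem_singleton.1 (Finsupp.support_single_subset h)]
        exact Finset.mem_insert_self _ _⟩
  ⟨w, by
    show p ≤ rzMaxFun w
    rcases segment_support (rzMaxFun_mem w) with h | h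
    · exact ((upNorm_props p).2.2 _ h).2
    · exact (Finset.mem_singleton.1 (Finsupp.support_single_subset h)).ge⟩

theorem continuous_of_pieces {f : VSpace (rzMax (P := P)) p × I → VSpace (rzMax (P := P)) p}
    (h : ∀ s : Chain P, Continuous fun z : PieceS p s × I => (f (pieceGlue p ⟨s, z.1⟩, z.2)).1) :
    Continuous f := by
  refine (isQuotientMap_pieceGlue p).continuous_lift_prod_left ?_
  rw [← (Homeomorph.sigmaProdDistrib (X := fun s : Chain P => PieceS p s) (Y := I)).symm.comp_continuous_iff']
  exact continuous_sigma fun s => (h s).subtype_mk _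

theorem continuous_upNorm_coord (s : Chain P) (q : P) :
    Continuous fun x : PieceS p s => upNorm p (rzIncl s x.1).1 q := by
  classical
  have hc : ∀ r : P, Continuous fun x : PieceS p s => (rzIncl s x.1).1 r := fun r => by
    by_cases hr : r ∈ s.1
    · simp only [rzIncl_apply_mem s _ ⟨r, hr⟩]
      exact (continuous_apply (⟨r, hr⟩ : s.1)).comp (continuous_subtype_val.comp continuous_subtype_val)
    · simp only [rzIncl_apply_notMem s _ hr]
      exact continuous_const
  have hS : Continuous fun x : PieceS p s => upSum p (rzIncl s x.1).1 := by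
    simp only [upSum_incl]
    refine continuous_finsetSum _ fun a _ => ?_
    by_cases ha : p ≤ a.1
    · simp only [if_pos ha]
      exact (continuous_apply a).comp (continuous_subtype_val.comp continuous_subtype_val)
    · simp only [if_neg ha]
      exact continuous_const
  simp only [upNorm, Finsupp.smul_apply, Finsupp.filter_apply, smul_eq_mul]
  refine (hS.inv₀ fun x => (upSum_pos p x).ne').mul ?_
  by_cases hq : p ≤ q
  · simp only [if_pos hq]; exact hc q
  · simp only [if_neg hq]; exact continuous_const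

omit [TopologicalSpace P] [Topology.IsUpperSet P] in
theorem continuous_into_rz {X : Type*} [TopologicalSpace X] (t : Chain P) (g : X → RzSpace P)
    (hs : ∀ x, (g x).1.support ⊆ t.1) (hc : ∀ q, Continuous fun x => (g x).1 q) : Continuous g := by
  rw [show g = fun x => rzIncl t ((g x).toSimplex t (hs x)) from
    funext fun x => ((g x).incl_toSimplex t (hs x)).symm]
  exact (rzIncl t).continuous.comp ((continuous_pi fun a : t.1 => hc a.1).subtype_mk _)

theorem continuous_rzIncl_coord (s : Chain P) (q : P) :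
    Continuous fun x : stdSimplex ℝ s.1 => (rzIncl s x).1 q := by
  by_cases hq : q ∈ s.1
  · simp only [rzIncl_apply_mem s _ ⟨q, hq⟩]
    exact (continuous_apply (⟨q, hq⟩ : s.1)).comp continuous_subtype_val
  · simp only [rzIncl_apply_notMem s _ hq]
    exact continuous_const

theorem continuous_stageOne : Continuous (stageOneFun p) := by
  refine continuous_of_pieces p fun s => continuous_into_rz s _ (fun z q hq => ?_) fun q => ?_
  · rcases segment_support hq with h | h
    · exact weights_support_subset s.1 z.1.1 h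
    · exact weights_support_subset s.1 z.1.1
        ((upNorm_props p (v := pieceGlue p ⟨s, z.1⟩)).2.2 q h).1
  · show Continuous fun z : PieceS p s × I => ((1 - (z.2 : ℝ)) • (rzIncl s z.1.1).1 +
      (z.2 : ℝ) • upNorm p (rzIncl s z.1.1).1) q
    simp only [Finsupp.add_apply, Finsupp.smul_apply, smul_eq_mul]
    exact ((continuous_const.sub (continuous_subtype_val.comp continuous_snd)).mul
      ((continuous_rzIncl_coord s q).comp (continuous_subtype_val.comp continuous_fst))).add
      ((continuous_subtype_val.comp continuous_snd).mul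
        ((continuous_upNorm_coord p s q).comp continuous_fst))

theorem continuous_stageTwo : Continuous (stageTwoFun p) := by
  classical
  refine continuous_of_pieces p fun s => continuous_into_rz
    (⟨insert p (s.1.filter (p ≤ ·)), Finset.insert_nonempty _ _, up_chain p s.2.2⟩ : Chain P) _
    (fun z q hq => ?_) fun q => ?_
  · rcases segment_support hq with h | h
    · obtain ⟨h1, h2⟩ := (upNorm_props p (v := pieceGlue p ⟨s, z.1⟩)).2.2 q h
      exact Finset.mem_insert_of_mem (Finset.mem_filter.2 ⟨weights_support_subset s.1 z.1.1 h1, h2⟩)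
    · rw [Finset.mem_singleton.1 (Finsupp.support_single_subset h)]
      exact Finset.mem_insert_self _ _
  · show Continuous fun z : PieceS p s × I => ((1 - (z.2 : ℝ)) • upNorm p (rzIncl s z.1.1).1 +
      (z.2 : ℝ) • Finsupp.single p (1 : ℝ)) q
    simp only [Finsupp.add_apply, Finsupp.smul_apply, smul_eq_mul]
    exact ((continuous_const.sub (continuous_subtype_val.comp continuous_snd)).mul
      ((continuous_upNorm_coord p s q).comp continuous_fst)).add
      ((continuous_subtype_val.comp continuous_snd).mul continuous_const)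

/-- The vertex `p` in the piece. -/
def pieceVertex : VSpace (rzMax (P := P)) p :=
  ⟨⟨Finsupp.single p 1, (single_props p).1, (single_props p).2,
    (Set.subsingleton_singleton (a := p)).isChain.mono fun q hq =>
      Finset.mem_singleton.1 (Finsupp.support_single_subset hq)⟩,
    (Finset.mem_singleton.1 (Finsupp.support_single_subset (rzMaxFun_mem _))).ge⟩

theorem piece_contractible : (ContinuousMap.id (VSpace (rzMax (P := P)) p)).Homotopic
    (ContinuousMap.const _ (pieceVertex p)) := by
  let N : C(VSpace (rzMax (P := P)) p, VSpace (rzMax (P := P)) p) :=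
    ⟨fun v => stageOneFun p (v, 1), (continuous_stageOne p).comp (by fun_prop)⟩
  refine ContinuousMap.Homotopic.trans (g := N) ⟨?_⟩ ⟨?_⟩
  · exact
      { toFun := fun z => stageOneFun p (z.2, z.1)
        continuous_toFun := (continuous_stageOne p).comp continuous_swap
        map_zero_left := fun v => Subtype.ext (Subtype.ext
          (by simp [stageOneFun]))
        map_one_left := fun v => rfl }
  · exact
      { toFun := fun z => stageTwoFun p (z.2, z.1)
        continuous_toFun := (continuous_stageTwo p).comp continuous_swap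
        map_zero_left := fun v => Subtype.ext (Subtype.ext
          (by simp [stageOneFun, stageTwoFun, N]))
        map_one_left := fun v => Subtype.ext (Subtype.ext
          (by simp [stageTwoFun, pieceVertex])) }

end Piece

/-- The maximum map is good in every dimension. -/
theorem good_rzMax (n : ℕ) : Good n (discsMap (rzMax (P := P))) :=
  good_of_trivial_pieces rzMax fun p => trivialUpTo_of_contractible (piece_contractible p) n

/-! ### Groupoids -/

/-- The monotone map of strings of elements. -/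
def strOrderHom {C D : Type} [Category.{0} C] [Category.{0} D] (F : C ⥤ D) : Str C →o Str D :=
  ⟨Str.map F, fun _ _ h => Str.map_mono F h⟩

/-- The space of a groupoid: realization of the strings of its elements. -/
@[reducible] def FR (C : GlobExt) : Gpd C ⥤ CGTop where
  obj X := Rz (Str (Gpd.El X))
  map φ := CompactlyGenerated.ofHom (rzMap (strOrderHom (Gpd.El.map φ)))
  map_id X := ConcreteCategory.hom_ext _ _ fun w => Subtype.ext Finsupp.mapDomain_id
  map_comp f g := ConcreteCategory.hom_ext _ _ fun w => Subtype.ext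
    (Finsupp.mapDomain_comp (v := w.1) (f := strOrderHom (Gpd.El.map f))
      (g := strOrderHom (Gpd.El.map g)))

/-- The maximum, natural in the groupoid. -/
def FRmax (C : GlobExt) : FR C ⋙ CompactlyGenerated.compactlyGeneratedToTop.{0, 0} ⟶ Gpd.strF C where
  app X := TopCat.ofHom (X := RzSpace (Str (Gpd.El X))) (Y := Str (Gpd.El X)) rzMax
  naturality X Y φ := TopCat.hom_ext (ContinuousMap.ext fun w => rzMax_map (strOrderHom (Gpd.El.map φ)) w)

theorem good_FRmax {C : GlobExt} (X : Gpd C) (n : ℕ) :
    Good n (discsMap (A := RzSpace (Str (Gpd.El X))) (B := Str (Gpd.El X)) ((FRmax C).app X).hom) :=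
  good_rzMax n

end Vale.Agent.P259
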