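import Vale.Agent.P259.Criterion
import Mathlib.CategoryTheory.Comma.Arrow
import Mathlib.CategoryTheory.ComposableArrows.Basic
import Mathlib.CategoryTheory.Functor.CurryingThree

/-!
# Strings in a category: finite linear diagrams indexed by integers, ordered by restriction
-/

noncomputable section

namespace Vale.Agent.P259

open CategoryTheory Topology Filter Set
open scoped unitInterval

/-- A functor from a nonempty finite set of integers. -/
structure Str (C : Type) [Category.{0} C] where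
  A : Finset ℤ
  nonempty : A.Nonempty
  obj : A → C
  hom : ∀ {a b : A}, a ≤ b → (obj a ⟶ obj b)
  hom_id : ∀ (a : A) (h : a ≤ a), hom h = 𝟙 (obj a)
  hom_comp : ∀ {a b c : A} (h : a ≤ b) (h' : b ≤ c), hom (h.trans h') = hom h ≫ hom h'

namespace Str

variable {C D : Type} [Category.{0} C] [Category.{0} D]

/-- An arrow of the string. -/
def arr (p : Str C) {a b : p.A} (h : a ≤ b) : Arrow C := Arrow.mk (p.hom h)

theorem arr_congr (p : Str C) {a b a' b' : p.A} {h : a ≤ b} {h' : a' ≤ b'} (ha : a = a')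
    (hb : b = b') : p.arr h = p.arr h' := by
  subst ha; subst hb; rfl

instance : Preorder (Str C) where
  le p q := ∃ hs : p.A ⊆ q.A, ∀ (a b : p.A) (h : a ≤ b),
    p.arr h = q.arr (a := ⟨a.1, hs a.2⟩) (b := ⟨b.1, hs b.2⟩) h
  le_refl p := ⟨Finset.Subset.refl _, fun _ _ _ => rfl⟩
  le_trans p q r := fun ⟨s, hpq⟩ ⟨s', hqr⟩ =>
    ⟨s.trans s', fun a b h => (hpq a b h).trans (hqr ⟨a.1, s a.2⟩ ⟨b.1, s b.2⟩ h)⟩

theorem le_iff {p q : Str C} : p ≤ q ↔ ∃ hs : p.A ⊆ q.A, ∀ (a b : p.A) (h : a ≤ b),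
    p.arr h = q.arr (a := ⟨a.1, hs a.2⟩) (b := ⟨b.1, hs b.2⟩) h := Iff.rfl

theorem le_subset {p q : Str C} (h : p ≤ q) : p.A ⊆ q.A := h.1

theorem obj_eq_of_le {p q : Str C} (h : p ≤ q) (a : p.A) :
    p.obj a = q.obj ⟨a.1, le_subset h a.2⟩ :=
  congrArg (fun f : Arrow C => f.left) (h.2 a a le_rfl)

theorem hom_eq_of_le {p q : Str C} (h : p ≤ q) {a b : p.A} (hab : a ≤ b) :
    p.hom hab = eqToHom (obj_eq_of_le h a) ≫
      q.hom (a := ⟨a.1, le_subset h a.2⟩) (b := ⟨b.1, le_subset h b.2⟩) hab ≫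
        eqToHom (obj_eq_of_le h b).symm :=
  ((Arrow.mk_eq_mk_iff _ _).1 (h.2 a b hab)).2.2

theorem le_antisymm' {p q : Str C} (h : p ≤ q) (h' : q ≤ p) : p = q := by
  obtain ⟨A, hA, po, ph, pi, pc⟩ := p
  obtain ⟨B, hB, qo, qh, qi, qc⟩ := q
  obtain ⟨hs, hpq⟩ := h
  obtain rfl : A = B := Finset.Subset.antisymm hs h'.1
  obtain rfl : po = qo := funext fun a => congrArg (fun f : Arrow C => f.left) (hpq a a le_rfl)
  have e : @ph = @qh := by
    funext a b hab
    obtain ⟨_, _, e⟩ := (Arrow.mk_eq_mk_iff _ _).1 (hpq a b hab)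
    exact e.trans (by simp)
  subst e
  rfl

instance : PartialOrder (Str C) := { le_antisymm := fun _ _ => le_antisymm' }

instance : TopologicalSpace (Str C) := Topology.upperSet _

instance : Topology.IsUpperSet (Str C) := ⟨rfl⟩

/-- The image of a string under a functor. -/
def map (F : C ⥤ D) (p : Str C) : Str D where
  A := p.A
  nonempty := p.nonempty
  obj a := F.obj (p.obj a)
  hom h := F.map (p.hom h)
  hom_id a h := by rw [p.hom_id, F.map_id]
  hom_comp h h' := by rw [p.hom_comp h h', F.map_comp]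

theorem map_mono (F : C ⥤ D) {p q : Str C} (h : p ≤ q) : p.map F ≤ q.map F :=
  ⟨h.1, fun a b hab => congrArg F.mapArrow.obj (h.2 a b hab)⟩

theorem map_map {E : Type} [Category.{0} E] (F : C ⥤ D) (G : D ⥤ E) (p : Str C) :
    (p.map F).map G = p.map (F ⋙ G) := rfl

theorem map_id' (p : Str C) : p.map (𝟭 C) = p := rfl

/-- Restriction along a monotone map of index sets. -/
def reindex (p : Str C) (A' : Finset ℤ) (hA : A'.Nonempty) (ψ : A' → p.A) (hψ : Monotone ψ) :
    Str C where
  A := A'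
  nonempty := hA
  obj a := p.obj (ψ a)
  hom h := p.hom (hψ h)
  hom_id a h := p.hom_id (ψ a) (hψ h)
  hom_comp h h' := p.hom_comp (hψ h) (hψ h')

theorem reindex_le {p q : Str C} (hpq : p ≤ q) {A' B' : Finset ℤ} {hA : A'.Nonempty}
    {hB : B'.Nonempty} {ψ : A' → p.A} {hψ : Monotone ψ} {φ : B' → q.A} {hφ : Monotone φ}
    (hs : A' ⊆ B') (h : ∀ a : A', (ψ a).1 = (φ ⟨a.1, hs a.2⟩).1) :
    p.reindex A' hA ψ hψ ≤ q.reindex B' hB φ hφ :=
  ⟨hs, fun a b hab => (hpq.2 (ψ a) (ψ b) (hψ hab)).trans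
    (q.arr_congr (Subtype.ext (h a)) (Subtype.ext (h b)))⟩

/-- The smallest index. -/
def lo (p : Str C) : p.A := ⟨p.A.min' p.nonempty, p.A.min'_mem _⟩

/-- The largest index. -/
def hi (p : Str C) : p.A := ⟨p.A.max' p.nonempty, p.A.max'_mem _⟩

theorem le_hi (p : Str C) (a : p.A) : a ≤ p.hi := p.A.le_max' a.1 a.2

theorem lo_le (p : Str C) (a : p.A) : p.lo ≤ a := p.A.min'_le a.1 a.2

/-- The last object. -/
abbrev last (p : Str C) : C := p.obj p.hi

/-- The string with one object. -/
def single (a : ℤ) (c : C) : Str C where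
  A := {a}
  nonempty := Finset.singleton_nonempty a
  obj _ := c
  hom _ := 𝟙 c
  hom_id _ _ := rfl
  hom_comp _ _ := (Category.id_comp _).symm

/-- A constant string. -/
def constant (A : Finset ℤ) (hA : A.Nonempty) (c : C) : Str C where
  A := A
  nonempty := hA
  obj _ := c
  hom _ := 𝟙 c
  hom_id _ _ := rfl
  hom_comp _ _ := (Category.id_comp _).symm

theorem constant_mono {A B : Finset ℤ} {hA : A.Nonempty} {hB : B.Nonempty} (c : C) (h : A ⊆ B) :
    constant A hA c ≤ constant B hB c := ⟨h, fun _ _ _ => rfl⟩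

end Str

/-- A monotone map of spaces with upper-set topologies. -/
def monoMap {P Q : Type} [Preorder P] [TopologicalSpace P] [Topology.IsUpperSet P] [Preorder Q]
    [TopologicalSpace Q] [Topology.IsUpperSet Q] (f : P → Q) (hf : Monotone f) : C(P, Q) :=
  ⟨f, Topology.IsUpperSet.monotone_iff_continuous.1 hf⟩

variable {C D : Type} [Category.{0} C] [Category.{0} D]

/-- The map of string spaces of a functor. -/
def strMap (F : C ⥤ D) : C(Str C, Str D) := monoMap (Str.map F) fun _ _ h => Str.map_mono F h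

/-! ### Homotopies from fences -/

/-- The position of a time on the real line. -/
def fencePos (t : I) : ℝ := (2 * (t : ℝ) - 1) / ((t : ℝ) * (1 - t))

theorem fencePos_gt {R : ℝ} {t : I} (ht1 : (t : ℝ) < 1)
    (ht : 1 - 1 / (4 + 2 * |R|) < (t : ℝ)) : R < fencePos t := by
  have hR : 0 < 4 + 2 * |R| := by positivity
  have h' : (4 + 2 * |R|) * (1 - (t : ℝ)) < 1 := by
    have : 1 - (t : ℝ) < 1 / (4 + 2 * |R|) := by linarith
    rwa [lt_div_iff₀ hR, mul_comm] at this
  have ht2 : (3 / 4 : ℝ) < t := by nlinarith [abs_nonneg R]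
  have hpos : 0 < (t : ℝ) * (1 - t) := mul_pos (by linarith) (by linarith)
  rw [fencePos, lt_div_iff₀ hpos]
  nlinarith [le_abs_self R, abs_nonneg R, t.2.2]

theorem fencePos_symm (t : I) : fencePos (unitInterval.symm t) = -fencePos t := by
  simp only [fencePos, unitInterval.coe_symm_eq]
  rw [← neg_div]
  congr 1 <;> ring

theorem continuousAt_fencePos {t : I} (h0 : (t : ℝ) ≠ 0) (h1 : (t : ℝ) ≠ 1) :
    ContinuousAt fencePos t := by
  refine ContinuousAt.div (by fun_prop) (by fun_prop) (mul_ne_zero h0 ?_)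
  intro h; exact h1 (by linarith)

section Fence

variable {P Q : Type} [Preorder P] [TopologicalSpace P] [Topology.IsUpperSet P] [Preorder Q]
  [TopologicalSpace Q] [Topology.IsUpperSet Q]

/-- A fence of monotone maps, stabilising at both ends, gives a homotopy. -/
theorem homotopic_of_fence (h u : ℤ → P → Q) (hh : ∀ k, Monotone (h k))
    (hu : ∀ k, Monotone (u k)) (h₀ : ∀ k p, h k p ≤ u k p) (h₁ : ∀ k p, h (k + 1) p ≤ u k p)
    (bot top : C(P, Q)) (hbot : ∀ p, ∃ K, ∀ k ≤ K, bot p ≤ h k p)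
    (htop : ∀ p, ∃ K, ∀ k, K ≤ k → top p ≤ h k p) : bot.Homotopic top := by
  classical
  let Φ : I × P → Q := fun q =>
    if q.1 = 0 then bot q.2 else if q.1 = 1 then top q.2
    else if (⌊fencePos q.1⌋ : ℝ) = fencePos q.1 then h ⌊fencePos q.1⌋ q.2
    else u ⌊fencePos q.1⌋ q.2
  have hval : ∀ (t : I) (p : P), ¬ t = 0 → ¬ t = 1 →
      Φ (t, p) = if (⌊fencePos t⌋ : ℝ) = fencePos t then h ⌊fencePos t⌋ p
        else u ⌊fencePos t⌋ p := fun t p a b => by simp [Φ, a, b]
  have hge : ∀ (t : I) (p : P), ¬ t = 0 → ¬ t = 1 → h ⌊fencePos t⌋ p ≤ Φ (t, p) := by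
    intro t p a b
    rw [hval t p a b]
    split_ifs
    · exact le_rfl
    · exact h₀ _ _
  refine ⟨⟨⟨Φ, continuous_of_eventually_le fun q => ?_⟩, fun x => if_pos rfl, fun x => ?_⟩⟩
  · obtain ⟨t, p⟩ := q
    have hp : ∀ᶠ r : I × P in 𝓝 (t, p), p ≤ r.2 :=
      (continuous_snd.tendsto (t, p)).eventually
        (eventually_le_apply (P := P) continuous_id p)
    by_cases ht0 : t = 0
    · subst ht0
      obtain ⟨K, hK⟩ := hbot p
      have hnear : ∀ᶠ r : I × P in 𝓝 (0, p), (r.1 : ℝ) < 1 / (4 + 2 * |(-(K : ℝ))|) :=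
        ((continuous_subtype_val.comp continuous_fst).tendsto _).eventually
          (eventually_lt_nhds (by simp only [Function.comp_apply, Icc.coe_zero]; positivity))
      filter_upwards [hp, hnear] with r hr hr'
      show Φ (0, p) ≤ Φ r
      rw [show Φ (0, p) = bot p from if_pos rfl]
      by_cases h0 : r.1 = 0
      · rw [show Φ r = bot r.2 from if_pos h0]
        exact (Topology.IsUpperSet.monotone_iff_continuous.2 bot.continuous) hr
      have h1 : ¬ r.1 = 1 := fun e => by
        rw [e, Icc.coe_one, lt_div_iff₀ (by positivity)] at hr'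
        nlinarith [abs_nonneg (-(K : ℝ))]
      have hlt : fencePos r.1 < (K : ℝ) := by
        have hpos : 0 < (r.1 : ℝ) := lt_of_le_of_ne r.1.2.1 fun e => h0 (Subtype.ext e.symm)
        have := fencePos_gt (R := -(K : ℝ)) (t := unitInterval.symm r.1)
          (by rw [unitInterval.coe_symm_eq]; linarith) (by rw [unitInterval.coe_symm_eq]; linarith)
        rw [fencePos_symm] at this
        linarith
      refine le_trans ?_ (hge r.1 r.2 h0 h1)
      refine (hK _ ?_).trans (hh _ hr)
      exact Int.le_of_lt_add_one (Int.lt_add_one_iff.2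
        (Int.cast_le.1 (((Int.floor_le _).trans hlt.le))))
    by_cases ht1 : t = 1
    · subst ht1
      obtain ⟨K, hK⟩ := htop p
      have hnear : ∀ᶠ r : I × P in 𝓝 (1, p), 1 - 1 / (4 + 2 * |(K : ℝ) + 1|) < (r.1 : ℝ) :=
        ((continuous_subtype_val.comp continuous_fst).tendsto _).eventually
          (eventually_gt_nhds (by simp only [Function.comp_apply, Icc.coe_one]; linarith [show (0:ℝ) < 1 / (4 + 2 * |(K : ℝ) + 1|) by positivity]))
      filter_upwards [hp, hnear] with r hr hr'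
      show Φ (1, p) ≤ Φ r
      rw [show Φ (1, p) = top p from by simp [Φ]]
      by_cases h1 : r.1 = 1
      · rw [show Φ r = top r.2 from by simp [Φ, h1]]
        exact (Topology.IsUpperSet.monotone_iff_continuous.2 top.continuous) hr
      have h0 : ¬ r.1 = 0 := fun e => by
        rw [e, Icc.coe_zero] at hr'
        have : (1 : ℝ) / (4 + 2 * |(K : ℝ) + 1|) < 1 := by
          rw [div_lt_one (by positivity)]; linarith [abs_nonneg ((K : ℝ) + 1)]
        linarith
      have hgt : (K : ℝ) + 1 < fencePos r.1 :=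
        fencePos_gt (lt_of_le_of_ne r.1.2.2 fun e => h1 (Subtype.ext e)) hr'
      refine le_trans ?_ (hge r.1 r.2 h0 h1)
      refine (hK _ ?_).trans (hh _ hr)
      exact Int.le_floor.2 (by linarith)
    have hv0 : (t : ℝ) ≠ 0 := fun e => ht0 (Subtype.ext e)
    have hv1 : (t : ℝ) ≠ 1 := fun e => ht1 (Subtype.ext e)
    have hne : ∀ᶠ r : I × P in 𝓝 (t, p), ¬ r.1 = 0 ∧ ¬ r.1 = 1 :=
      (continuous_fst.tendsto (t, p)).eventually
        (((isOpen_compl_singleton (x := (0 : I))).inter (isOpen_compl_singleton (x := (1 : I)))).mem_nhds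
          ⟨ht0, ht1⟩)
    have hsc : ContinuousAt (fun r : I × P => fencePos r.1) (t, p) :=
      ContinuousAt.comp (g := fencePos) (f := Prod.fst) (continuousAt_fencePos hv0 hv1)
        continuous_fst.continuousAt
    show ∀ᶠ b in 𝓝 (t, p), Φ (t, p) ≤ Φ b
    rw [hval t p ht0 ht1]
    by_cases hint : (⌊fencePos t⌋ : ℝ) = fencePos t
    · rw [if_pos hint]
      set k := ⌊fencePos t⌋ with hk
      have hball : ∀ᶠ r : I × P in 𝓝 (t, p),
          (k : ℝ) - 1 < fencePos r.1 ∧ fencePos r.1 < (k : ℝ) + 1 :=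
        hsc.eventually ((Ioo_mem_nhds (by linarith) (by linarith) :
          Ioo ((k : ℝ) - 1) ((k : ℝ) + 1) ∈ 𝓝 (fencePos t)))
      filter_upwards [hp, hne, hball] with r hr hr₀ hr₁
      rw [hval r.1 r.2 hr₀.1 hr₀.2]
      rcases lt_trichotomy (fencePos r.1) (k : ℝ) with hlt | heq | hgt
      · have hfl : ⌊fencePos r.1⌋ = k - 1 :=
          Int.floor_eq_iff.2 ⟨by push_cast; linarith [hr₁.1], by push_cast; linarith⟩
        rw [if_neg (by rw [hfl]; push_cast; intro e; linarith [hr₁.1]), hfl]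
        refine le_trans ?_ (hu _ hr)
        have := h₁ (k - 1) p
        rwa [sub_add_cancel] at this
      · rw [heq, Int.floor_intCast, if_pos rfl]
        exact hh _ hr
      · have hfl : ⌊fencePos r.1⌋ = k :=
          Int.floor_eq_iff.2 ⟨hgt.le, hr₁.2⟩
        rw [if_neg (by rw [hfl]; exact hgt.ne), hfl]
        exact (h₀ k p).trans (hu _ hr)
    · rw [if_neg hint]
      set k := ⌊fencePos t⌋ with hk
      have hlt : (k : ℝ) < fencePos t := lt_of_le_of_ne (Int.floor_le _) hint
      have hball : ∀ᶠ r : I × P in 𝓝 (t, p),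
          (k : ℝ) < fencePos r.1 ∧ fencePos r.1 < (k : ℝ) + 1 :=
        hsc.eventually ((Ioo_mem_nhds hlt (Int.lt_floor_add_one _) :
          Ioo (k : ℝ) ((k : ℝ) + 1) ∈ 𝓝 (fencePos t)))
      filter_upwards [hp, hne, hball] with r hr hr₀ hr₁
      rw [hval r.1 r.2 hr₀.1 hr₀.2]
      have hfl : ⌊fencePos r.1⌋ = k := Int.floor_eq_iff.2 ⟨hr₁.1.le, hr₁.2⟩
      rw [if_neg (by rw [hfl]; exact hr₁.1.ne), hfl]
      exact hu _ hr
  · show Φ (1, x) = top x
    simp [Φ]

end Fence

/-! ### Staircases -/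

/-- The functor of two variables of a natural transformation. -/
def pairFunctor {F G : C ⥤ D} (η : F ⟶ G) : Fin 2 × C ⥤ D :=
  Functor.uncurry.obj (ComposableArrows.mk₁ η)

namespace Str

/-- The index set of a staircase step: indices below `l` kept, those from `k` shifted by `M`. -/
def stairSet (A : Finset ℤ) (M k l : ℤ) : Finset ℤ :=
  A.filter (· < l) ∪ (A.filter (k ≤ ·)).image (· + M)

theorem mem_stairSet {A : Finset ℤ} {M k l a : ℤ} :
    a ∈ stairSet A M k l ↔ (a ∈ A ∧ a < l) ∨ (a - M ∈ A ∧ k ≤ a - M) := by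
  simp only [stairSet, Finset.mem_union, Finset.mem_filter, Finset.mem_image]
  constructor
  · rintro (h | ⟨b, hb, rfl⟩)
    · exact Or.inl h
    · exact Or.inr (by simpa using hb)
  · rintro (h | h)
    · exact Or.inl h
    · exact Or.inr ⟨a - M, h, by ring⟩

theorem stairSet_case {A : Finset ℤ} {M k l a : ℤ} (hl : l ≤ k + M)
    (ha : a ∈ stairSet A M k l) :
    (a < l → a ∈ A) ∧ (¬ a < l → a - M ∈ A ∧ k ≤ a - M) := by
  rcases mem_stairSet.1 ha with h | h
  · exact ⟨fun _ => h.1, fun hn => absurd h.2 hn⟩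
  · exact ⟨fun hlt => by omega, fun _ => h⟩

theorem stairSet_nonempty {A : Finset ℤ} (hA : A.Nonempty) {M k l : ℤ} (hkl : k ≤ l) :
    (stairSet A M k l).Nonempty := by
  obtain ⟨a, ha⟩ := hA
  by_cases h : a < l
  · exact ⟨a, mem_stairSet.2 (Or.inl ⟨ha, h⟩)⟩
  · exact ⟨a + M, mem_stairSet.2 (Or.inr ⟨by simpa using ha, by omega⟩)⟩

/-- The product-valued string of a staircase step. -/
def stairPre (M : ℤ) (p : Str C) (k l : ℤ) (hM : 1 ≤ M) (hkl : k ≤ l) (hl : l ≤ k + 1) :
    Str (Fin 2 × C) where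
  A := stairSet p.A M k l
  nonempty := stairSet_nonempty p.nonempty hkl
  obj a := (if a.1 < l then 0 else 1,
    p.obj (if h : a.1 < l then ⟨a.1, (stairSet_case (by omega) a.2).1 h⟩
      else ⟨a.1 - M, ((stairSet_case (by omega) a.2).2 h).1⟩))
  hom {a b} hab := (homOfLE (by
      have : a.1 ≤ b.1 := hab
      split_ifs <;> first | exact le_rfl | exact Fin.zero_le _ | omega),
    p.hom (by
      have : a.1 ≤ b.1 := hab
      by_cases ha : a.1 < l <;> by_cases hb : b.1 < l
      · rw [dif_pos ha, dif_pos hb]; exact this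
      · rw [dif_pos ha, dif_neg hb]
        have := ((stairSet_case (by omega) b.2).2 hb).2
        show a.1 ≤ b.1 - M
        omega
      · omega
      · rw [dif_neg ha, dif_neg hb]
        show a.1 - M ≤ b.1 - M
        omega))
  hom_id a h := Prod.ext (Subsingleton.elim _ _) (p.hom_id _ _)
  hom_comp h h' := Prod.ext (Subsingleton.elim _ _) (p.hom_comp _ _)

theorem prodArrow_eq {i j i' j' : Fin 2} {x y x' y' : C} (f : i ⟶ j) (f' : i' ⟶ j') (g : x ⟶ y)
    (g' : x' ⟶ y') (hi : i = i') (hj : j = j') (hg : Arrow.mk g = Arrow.mk g') :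
    Arrow.mk (T := Fin 2 × C) (X := (i, x)) (Y := (j, y)) (f, g) =
      Arrow.mk (T := Fin 2 × C) (X := (i', x')) (Y := (j', y')) (f', g') := by
  subst hi; subst hj
  obtain ⟨hx, hy, h⟩ := (Arrow.mk_eq_mk_iff _ _).1 hg
  subst hx; subst hy
  simp only [eqToHom_refl, Category.id_comp, Category.comp_id] at h
  subst h
  rw [Subsingleton.elim f f']

theorem stairPre_mono {M : ℤ} {p q : Str C} (hpq : p ≤ q) {k l k' l' : ℤ} (hM : 1 ≤ M)
    (hkl : k ≤ l) (hl : l ≤ k + 1) (hkl' : k' ≤ l') (hl' : l' ≤ k' + 1) (hk : k' ≤ k)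
    (hll : l ≤ l') :
    stairPre M p k l hM hkl hl ≤ stairPre M q k' l' hM hkl' hl' := by
  have hs : stairSet p.A M k l ⊆ stairSet q.A M k' l' := by
    intro a ha
    rcases mem_stairSet.1 ha with h | h
    · exact mem_stairSet.2 (Or.inl ⟨le_subset hpq h.1, by omega⟩)
    · exact mem_stairSet.2 (Or.inr ⟨le_subset hpq h.1, by omega⟩)
  have key : ∀ a ∈ stairSet p.A M k l, a < l ↔ a < l' := fun a ha => by
    rcases mem_stairSet.1 ha with h | h <;> constructor <;> intro <;> omega
  refine ⟨hs, fun a b hab => prodArrow_eq _ _ _ _ ?_ ?_ ?_⟩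
  · exact if_congr (key a.1 a.2) rfl rfl
  · exact if_congr (key b.1 b.2) rfl rfl
  · refine (hpq.2 _ _ _).trans (q.arr_congr ?_ ?_)
    · apply Subtype.ext
      by_cases h : a.1 < l
      · simp [h, (key a.1 a.2).1 h]
      · simp [h, mt (key a.1 a.2).2 h]
    · apply Subtype.ext
      by_cases h : b.1 < l
      · simp [h, (key b.1 b.2).1 h]
      · simp [h, mt (key b.1 b.2).2 h]

/-- Shift all indices up by `M`. -/
def shift (M : ℤ) (p : Str C) : Str C :=
  p.reindex (p.A.image (· + M)) (p.nonempty.image _)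
    (fun a => ⟨a.1 - M, by
      obtain ⟨b, hb, hba⟩ := Finset.mem_image.1 a.2
      rw [← hba]
      simpa using hb⟩)
    (fun a b h => by
      show a.1 - M ≤ b.1 - M
      have : a.1 ≤ b.1 := h
      omega)

theorem shift_mono (M : ℤ) {p q : Str C} (h : p ≤ q) : p.shift M ≤ q.shift M :=
  reindex_le h (Finset.image_subset_image (le_subset h)) fun _ => rfl

theorem pairFunctor_zero {F G : C ⥤ D} (η : F ⟶ G) {i j : Fin 2} (hi : i = 0) (hj : j = 0)
    {x y : C} (f : i ⟶ j) (g : x ⟶ y) :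
    Arrow.mk ((pairFunctor η).map ((f, g) : ((i, x) : Fin 2 × C) ⟶ (j, y))) =
      Arrow.mk (F.map g) := by
  subst hi; subst hj
  rw [Subsingleton.elim f (𝟙 _)]
  have : (pairFunctor η).map ((𝟙 0, g) : ((0, x) : Fin 2 × C) ⟶ (0, y)) = F.map g := by
    simp [pairFunctor]
    exact Category.id_comp _
  exact congrArg Arrow.mk this

theorem pairFunctor_one {F G : C ⥤ D} (η : F ⟶ G) {i j : Fin 2} (hi : i = 1) (hj : j = 1)
    {x y : C} (f : i ⟶ j) (g : x ⟶ y) :
    Arrow.mk ((pairFunctor η).map ((f, g) : ((i, x) : Fin 2 × C) ⟶ (j, y))) =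
      Arrow.mk (G.map g) := by
  subst hi; subst hj
  rw [Subsingleton.elim f (𝟙 _)]
  have : (pairFunctor η).map ((𝟙 1, g) : ((1, x) : Fin 2 × C) ⟶ (1, y)) = G.map g := by
    simp [pairFunctor]
    exact Category.id_comp _
  exact congrArg Arrow.mk this

theorem map_le_stairPre_top {F G : C ⥤ D} (η : F ⟶ G) {M : ℤ} (hM : 1 ≤ M) (p : Str C) {k : ℤ}
    (hk : ∀ a ∈ p.A, a < k) :
    p.map F ≤ (stairPre M p k k hM le_rfl (by omega)).map (pairFunctor η) := by
  refine ⟨fun a ha => mem_stairSet.2 (Or.inl ⟨ha, hk a ha⟩), fun a b hab => ?_⟩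
  refine Eq.trans ?_ (pairFunctor_zero η ?_ ?_ _ _).symm
  · refine congrArg F.mapArrow.obj (p.arr_congr ?_ ?_)
    · apply Subtype.ext; simp [hk a.1 a.2]
    · apply Subtype.ext; simp [hk b.1 b.2]
  · exact if_pos (hk a.1 a.2)
  · exact if_pos (hk b.1 b.2)

theorem map_le_stairPre_bot {F G : C ⥤ D} (η : F ⟶ G) {M : ℤ} (hM : 1 ≤ M) (p : Str C) {k : ℤ}
    (hk : ∀ a ∈ p.A, k ≤ a) :
    (p.shift M).map G ≤ (stairPre M p k k hM le_rfl (by omega)).map (pairFunctor η) := by
  have hk' : ∀ a ∈ p.A.image (· + M), ¬ a < k := fun a ha => by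
    obtain ⟨b, hb, rfl⟩ := Finset.mem_image.1 ha
    have := hk b hb
    omega
  refine ⟨fun a ha => ?_, fun a b hab => ?_⟩
  · obtain ⟨b, hb, hba⟩ := Finset.mem_image.1 (ha : a ∈ p.A.image (· + M))
    exact mem_stairSet.2 (Or.inr ⟨by rw [← hba]; simpa using hb,
      by have := hk b hb; omega⟩)
  refine Eq.trans ?_ (pairFunctor_one η ?_ ?_ _ _).symm
  · refine congrArg G.mapArrow.obj (p.arr_congr ?_ ?_)
    · apply Subtype.ext; simp [hk' a.1 a.2]
    · apply Subtype.ext; simp [hk' b.1 b.2]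
  · exact if_neg (hk' a.1 a.2)
  · exact if_neg (hk' b.1 b.2)

end Str

/-- Shifting of indices, as a continuous map. -/
def shiftMap (M : ℤ) : C(Str C, Str C) := monoMap (Str.shift M) fun _ _ h => Str.shift_mono M h

/-- A natural transformation gives a homotopy to a shifted map. -/
theorem strMap_homotopic_shift {F G : C ⥤ D} (η : F ⟶ G) (M : ℤ) (hM : 1 ≤ M) :
    ((strMap G).comp (shiftMap M)).Homotopic (strMap F) := by
  refine homotopic_of_fence
    (fun k p => (Str.stairPre M p k k hM le_rfl (by omega)).map (pairFunctor η))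
    (fun k p => (Str.stairPre M p k (k + 1) hM (by omega) le_rfl).map (pairFunctor η))
    (fun k p q h => Str.map_mono _ (Str.stairPre_mono h hM _ _ _ _ le_rfl le_rfl))
    (fun k p q h => Str.map_mono _ (Str.stairPre_mono h hM _ _ _ _ le_rfl le_rfl))
    (fun k p => Str.map_mono _ (Str.stairPre_mono le_rfl hM _ _ _ _ le_rfl (by omega)))
    (fun k p => Str.map_mono _ (Str.stairPre_mono le_rfl hM _ _ _ _ (by omega) le_rfl))
    _ _ (fun p => ⟨p.lo.1, fun k hk => ?_⟩) (fun p => ⟨p.hi.1 + 1, fun k hk => ?_⟩)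
  · exact Str.map_le_stairPre_bot η hM p fun a ha => hk.trans (p.lo_le ⟨a, ha⟩)
  · refine Str.map_le_stairPre_top η hM p fun a ha => ?_
    have : a ≤ p.hi.1 := p.le_hi ⟨a, ha⟩
    omega

/-- A natural transformation gives a homotopy. -/
theorem strMap_homotopic {F G : C ⥤ D} (η : F ⟶ G) : (strMap F).Homotopic (strMap G) :=
  (strMap_homotopic_shift η 1 le_rfl).symm.trans (strMap_homotopic_shift (𝟙 G) 1 le_rfl)

/-- Shifting is homotopic to the identity. -/
theorem shiftMap_homotopic_id (M : ℤ) (hM : 1 ≤ M) :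
    (shiftMap (C := C) M).Homotopic (ContinuousMap.id _) :=
  strMap_homotopic_shift (𝟙 (𝟭 C)) M hM

/-- An equivalence of categories induces a good map. -/
theorem good_strMap_of_adjunction {F : C ⥤ D} {G : D ⥤ C} (adj : F ⊣ G) (n : ℕ) :
    Good n (discsMap (strMap F)) := by
  refine good_of_inverse _ (strMap G) ?_ ?_
  · exact (strMap_homotopic adj.unit).symm
  · exact strMap_homotopic adj.counit

theorem good_strMap_natTrans {F G : C ⥤ D} (η : F ⟶ G) {n : ℕ} :
    Good n (discsMap (strMap F)) ↔ Good n (discsMap (strMap G)) :=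
  ⟨good_homotopic (strMap_homotopic η), good_homotopic (strMap_homotopic η).symm⟩

/-- A category with an initial object has contractible string space. -/
theorem homotopic_const_of_initial (c : C) (η : (Functor.const C).obj c ⟶ 𝟭 C) :
    (ContinuousMap.id (Str C)).Homotopic (ContinuousMap.const (Str C) (Str.single 0 c)) := by
  let B : Str C → Str C := fun p =>
    Str.constant (p.A ∪ {0}) (p.nonempty.mono Finset.subset_union_left) c
  have hB : Monotone B := fun p q h =>
    Str.constant_mono c (Finset.union_subset_union (Str.le_subset h) le_rfl)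
  have h₁ : (strMap ((Functor.const C).obj c)).Homotopic (monoMap B hB) :=
    homotopic_of_le _ _ fun p => Str.le_iff.2 ⟨Finset.subset_union_left, fun _ _ _ => rfl⟩
  have h₂ : (ContinuousMap.const (Str C) (Str.single 0 c)).Homotopic (monoMap B hB) :=
    homotopic_of_le _ _ fun p => Str.le_iff.2 ⟨Finset.subset_union_right, fun _ _ _ => rfl⟩
  exact ((strMap_homotopic η).symm.trans h₁).trans h₂.symm

/-- A category with an initial object has trivial string space. -/
theorem trivial_of_initial [Nonempty C] (c : C) (η : (Functor.const C).obj c ⟶ 𝟭 C) (n : ℕ) :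
    TrivialUpTo n (Str C) :=
  trivialUpTo_of_contractible (homotopic_const_of_initial c η) n

/-- A category with a terminal object has trivial string space. -/
theorem trivial_of_terminal [Nonempty C] (c : C) (η : 𝟭 C ⟶ (Functor.const C).obj c) (n : ℕ) :
    TrivialUpTo n (Str C) := by
  let B : Str C → Str C := fun p =>
    Str.constant (p.A ∪ {0}) (p.nonempty.mono Finset.subset_union_left) c
  have hB : Monotone B := fun p q h =>
    Str.constant_mono c (Finset.union_subset_union (Str.le_subset h) le_rfl)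
  have h₁ : (strMap ((Functor.const C).obj c)).Homotopic (monoMap B hB) :=
    homotopic_of_le _ _ fun p => Str.le_iff.2 ⟨Finset.subset_union_left, fun _ _ _ => rfl⟩
  have h₂ : (ContinuousMap.const (Str C)
      (Str.constant {0} (Finset.singleton_nonempty 0) c)).Homotopic (monoMap B hB) :=
    homotopic_of_le _ _ fun p => Str.le_iff.2 ⟨Finset.subset_union_right, fun _ _ _ => rfl⟩
  exact trivialUpTo_of_contractible
    (((strMap_homotopic η).trans h₁).trans h₂.symm) n

/-! ### Opposite categories -/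

namespace Str

/-- Negate the indices and reverse the arrows. -/
def op (p : Str C) : Str Cᵒᵖ where
  A := p.A.image (-·)
  nonempty := p.nonempty.image _
  obj a := Opposite.op (p.obj ⟨-a.1, by
    obtain ⟨b, hb, hba⟩ := Finset.mem_image.1 a.2
    rw [← hba]; simpa using hb⟩)
  hom {a b} h := (p.hom (show -b.1 ≤ -a.1 from neg_le_neg h)).op
  hom_id a h := by rw [p.hom_id]; rfl
  hom_comp {a b c} h h' := by
    rw [← op_comp]
    exact congrArg Quiver.Hom.op (p.hom_comp _ _)

/-- The inverse of `op`. -/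
def unop (p : Str Cᵒᵖ) : Str C where
  A := p.A.image (-·)
  nonempty := p.nonempty.image _
  obj a := (p.obj ⟨-a.1, by
    obtain ⟨b, hb, hba⟩ := Finset.mem_image.1 a.2
    rw [← hba]; simpa using hb⟩).unop
  hom {a b} h := (p.hom (show -b.1 ≤ -a.1 from neg_le_neg h)).unop
  hom_id a h := by rw [p.hom_id]; rfl
  hom_comp {a b c} h h' := by
    rw [← unop_comp]
    exact congrArg Quiver.Hom.unop (p.hom_comp _ _)

theorem op_mono {p q : Str C} (h : p ≤ q) : p.op ≤ q.op :=
  ⟨Finset.image_subset_image (le_subset h), fun a b hab =>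
    congrArg (fun f : Arrow C => Arrow.mk f.hom.op) (h.2 _ _ _)⟩

theorem unop_mono {p q : Str Cᵒᵖ} (h : p ≤ q) : p.unop ≤ q.unop :=
  ⟨Finset.image_subset_image (le_subset h), fun a b hab =>
    congrArg (fun f : Arrow Cᵒᵖ => Arrow.mk f.hom.unop) (h.2 _ _ _)⟩

theorem op_unop_le (p : Str C) : p.op.unop ≤ p := by
  refine ⟨fun a ha => ?_, fun a b hab => ?_⟩
  · obtain ⟨b, hb, rfl⟩ := Finset.mem_image.1 (ha : a ∈ (p.A.image (-·)).image (-·))
    obtain ⟨c, hc, rfl⟩ := Finset.mem_image.1 hb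
    simpa using hc
  · exact p.arr_congr (Subtype.ext (neg_neg _)) (Subtype.ext (neg_neg _))

theorem unop_op_le (p : Str Cᵒᵖ) : p.unop.op ≤ p := by
  refine ⟨fun a ha => ?_, fun a b hab => ?_⟩
  · obtain ⟨b, hb, rfl⟩ := Finset.mem_image.1 (ha : a ∈ (p.A.image (-·)).image (-·))
    obtain ⟨c, hc, rfl⟩ := Finset.mem_image.1 hb
    simpa using hc
  · exact p.arr_congr (Subtype.ext (neg_neg _)) (Subtype.ext (neg_neg _))

end Str

/-- The comparison of the string spaces of a category and its opposite. -/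
def strOp : C(Str C, Str Cᵒᵖ) := monoMap Str.op fun _ _ h => Str.op_mono h

theorem good_strOp (n : ℕ) : Good n (discsMap (strOp (C := C))) :=
  good_of_inverse _ (monoMap Str.unop fun _ _ h => Str.unop_mono h)
    (homotopic_of_le _ _ fun p => Str.op_unop_le p)
    (homotopic_of_le _ _ fun p => Str.unop_op_le p)

theorem trivial_str_op {n : ℕ} (h : TrivialUpTo n (Str C)) : TrivialUpTo n (Str Cᵒᵖ) :=
  h.of_good' (good_strOp n)

/-- The map of a functor is good if that of its opposite is. -/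
theorem good_strMap_of_op {F : C ⥤ D} {n : ℕ} (h : Good n (discsMap (strMap F.op))) :
    Good n (discsMap (strMap F)) := by
  have hc : ((strOp (C := D)).comp (strMap F)).Homotopic ((strMap F.op).comp (strOp (C := C))) :=
    homotopic_of_le _ _ fun p => Str.le_iff.2
      ⟨Finset.Subset.refl _, fun _ _ _ => rfl⟩
  have h2 : Good n (discsMap ((strOp (C := D)).comp (strMap F))) :=
    good_homotopic hc.symm (by rw [discsMap_comp]; exact (good_strOp n).comp h)
  rw [discsMap_comp] at h2
  exact h2.of_comp (good_strOp n)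

end Vale.Agent.P259
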