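import Vale.Agent.P259.Claim
import Vale.Agent.P259.Real
import Vale.Agent.P259.Homotopy

/-!
# The realization of a groupoid and the comparison with its cells
-/

noncomputable section

namespace Vale.Agent.P259

open CategoryTheory

namespace Gpd

variable {C : GlobExt}

/-- A natural family into spaces that are trivial on representables sends identity cells to
degenerate discs, up to a cell. -/
theorem idCompat_of_natural (hC : C.Contractible) (G : Gpd C ⥤ TopCat.{0})
    (hG : ∀ T m, TrivialUpTo m (G.obj (rep C T))) (θ : globF C ⟶ G ⋙ discsF) (X : Gpd C) :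
    IdCompat hC (θ.app X : GlobMap X.glob (discs (G.obj X))) := by
  intro n a
  obtain ⟨hs, ht⟩ : C.IsLift _ _ (idLift hC n) := Classical.choose_spec (exists_idLift hC n)
  let R : Gpd C := rep C (Tree.disc n)
  let u : R.cell n := C.id (Tree.disc n)
  let φ : GlobMap R.glob (discs (G.obj R)) := θ.app R
  have es : R.glob.s n (R.map (idLift hC n) u) = u := by
    show R.map (C.σ n) (R.map (idLift hC n) u) = u
    rw [← R.map_comp, hs, R.map_id]
  have et : R.glob.t n (R.map (idLift hC n) u) = u := by
    show R.map (C.τ n) (R.map (idLift hC n) u) = u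
    rw [← R.map_comp, ht, R.map_id]
  let w : C(Ball n, G.obj R) := φ.app n u
  let c : C(Ball (n + 1), G.obj R) := φ.app (n + 1) (R.map (idLift hC n) u)
  have hp : (discs (G.obj R)).Par (n := n + 1) c (w.comp proj) :=
    ⟨((φ.comm_s n _).trans (congrArg (φ.app n) es)).trans
        (ContinuousMap.ext fun x => congrArg w (proj_hemS x).symm),
      ((φ.comm_t n _).trans (congrArg (φ.app n) et)).trans
        (ContinuousMap.ext fun x => congrArg w (proj_hemT x).symm)⟩
  have hrel := ((hG (Tree.disc n) (n + 1)).rel (n + 1) le_rfl c (w.comp proj) hp).map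
    (discsMap (G.map (yoneda a)).hom)
  have h1 : ((G.map (yoneda a)).hom : C(G.obj R, G.obj X)).comp c =
      (θ.app X).app (n + 1) (X.map (idLift hC n) a) := by
    refine (congrArg (fun f : GlobMap R.glob (discs (G.obj X)) =>
      f.app (n + 1) (R.map (idLift hC n) u)) (θ.naturality (yoneda a))).symm.trans ?_
    refine congrArg ((θ.app X).app (n + 1)) ?_
    show (yoneda a).app _ (R.map (idLift hC n) u) = _
    rw [(yoneda a).natural]
    exact congrArg (X.map (idLift hC n)) (yoneda_id a)
  have h2 : ((G.map (yoneda a)).hom : C(G.obj R, G.obj X)).comp w = (θ.app X).app n a :=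
    (congrArg (fun f : GlobMap R.glob (discs (G.obj X)) => f.app n u)
      (θ.naturality (yoneda a))).symm.trans (congrArg ((θ.app X).app n) (yoneda_id a))
  have hrel' : (discs (G.obj X)).Rel (n + 1) (((G.map (yoneda a)).hom : C(G.obj R, G.obj X)).comp c)
      ((((G.map (yoneda a)).hom : C(G.obj R, G.obj X)).comp w).comp proj) := hrel
  rw [h1, h2] at hrel'
  exact hrel'

end Gpd

variable (K : Coherator)

theorem trivial_FR_rep (T : Tree) (m : ℕ) :
    TrivialUpTo m ((FR K.colim ⋙ CompactlyGenerated.compactlyGeneratedToTop).obj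
      (Gpd.rep K.colim T)) :=
  (Gpd.El.trivial_rep T m).of_good (good_FRmax (Gpd.rep K.colim T) m)

/-- The natural map from cells to discs of the realization. -/
theorem exists_thetaReal :
    ∃ θ : Gpd.globF K.colim ⟶ FR K.colim ⋙ CompactlyGenerated.compactlyGeneratedToTop ⋙ discsF,
      ∀ (X : Gpd K.colim) (n : ℕ), Good n
        (θ.app X : GlobMap X.glob
          (discs ((FR K.colim ⋙ CompactlyGenerated.compactlyGeneratedToTop).obj X))) := by
  let G := FR K.colim ⋙ CompactlyGenerated.compactlyGeneratedToTop.{0, 0}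
  obtain ⟨y₀⟩ := (trivial_FR_rep K (Tree.disc 0) 0).nonempty
  obtain ⟨θ, -⟩ := exists_natural (Gpd.reps K.colim) G
    (fun n m => trivial_FR_rep K (Tree.disc n) m) y₀
  refine ⟨θ, fun X n => ?_⟩
  obtain ⟨θ₀, hθ₀⟩ := Gpd.exists_theta K
  have h₀ := Gpd.good_theta hθ₀ (fun X => Gpd.groupoidal_glob K.contractible X) n X
  have h₁ : Good n ((θ ≫ Functor.whiskerRight (FRmax K.colim) discsF).app X) :=
    (good_iff_of_natural (Gpd.reps K.colim) (Gpd.strF K.colim)
      (fun n m => Gpd.El.trivial_rep _ m) θ₀ _ X n).1 h₀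
  exact Good.of_comp (g := discsMap ((FRmax K.colim).app X).hom) h₁ (good_FRmax X n)

theorem preserves_weakEquiv_FR {X Y : Gpd K.colim} (f : X ⟶ Y)
    (hf : Gpd.weakEquivs K.contractible f) : weakHomotopyEquivs ((FR K.colim).map f) := by
  obtain ⟨θ, hθ⟩ := exists_thetaReal K
  have hid := fun X => Gpd.idCompat_of_natural K.contractible
    (FR K.colim ⋙ CompactlyGenerated.compactlyGeneratedToTop) (trivial_FR_rep K) θ X
  exact (Gpd.isWeakEquiv_iff f (θ.app X) (θ.app Y)
    ((FR K.colim ⋙ CompactlyGenerated.compactlyGeneratedToTop).map f).hom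
    (θ.naturality f).symm (hθ X) (hθ Y) (hid X) (hid Y)).1 hf

end Vale.Agent.P259
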