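import Vale.Agent.P259.HomSet
import Mathlib.Topology.Order.UpperLowerSetTopology

/-!
# Spaces with the upper-set topology: continuity, sublevel pieces, homotopy fibres
-/

noncomputable section

namespace Vale.Agent.P259

open scoped unitInterval
open Topology Filter

variable {P : Type} [Preorder P] [TopologicalSpace P] [Topology.IsUpperSet P]
variable {X : Type*} [TopologicalSpace X]

theorem eventually_le_apply {f : X → P} (hf : Continuous f) (a : X) :
    ∀ᶠ b in 𝓝 a, f a ≤ f b := by
  have h := hf.tendsto a
  rw [Topology.IsUpperSet.nhds_eq_principal_Ici (f a), tendsto_principal] at h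
  exact h

theorem continuous_of_eventually_le {f : X → P} (h : ∀ a, ∀ᶠ b in 𝓝 a, f a ≤ f b) :
    Continuous f := by
  refine continuous_iff_continuousAt.2 fun a => ?_
  rw [ContinuousAt, Topology.IsUpperSet.nhds_eq_principal_Ici (f a), tendsto_principal]
  exact h a

/-- A pointwise inequality gives a homotopy: jump at the end. -/
theorem homotopic_of_le {X : Type*} [TopologicalSpace X] (f g : C(X, P))
    (h : ∀ x, f x ≤ g x) : f.Homotopic g := by
  refine ⟨⟨⟨fun q => if (q.1 : I) = 0 then f q.2 else g q.2, ?_⟩, fun x => if_pos rfl,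
    fun x => if_neg one_ne_zero⟩⟩
  refine continuous_of_eventually_le fun q => ?_
  show ∀ᶠ b in 𝓝 q, (if q.1 = 0 then f q.2 else g q.2) ≤ if b.1 = 0 then f b.2 else g b.2
  by_cases hq : q.1 = 0
  · rw [if_pos hq]
    filter_upwards [(eventually_le_apply f.continuous q.2).filter_mono
      (continuous_snd.tendsto q)] with r hr
    split_ifs
    · exact hr
    · exact hr.trans (h r.2)
  · rw [if_neg hq]
    filter_upwards [(eventually_le_apply g.continuous q.2).filter_mono (continuous_snd.tendsto q),
      (isOpen_compl_singleton.preimage continuous_fst).mem_nhds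
        (show q ∈ Prod.fst ⁻¹' ({0}ᶜ : Set I) from hq)] with r hr hr'
    rw [if_neg (show ¬ r.1 = 0 from hr')]
    exact hr

variable {E : Type} [TopologicalSpace E]

/-- The part of `E` over `Ici p`. -/
abbrev VSpace (f : C(E, P)) (p : P) : Type := {e : E // p ≤ f e}

/-- Inclusion of the pieces. -/
def vIncl (f : C(E, P)) {p q : P} (h : p ≤ q) : C(VSpace f q, VSpace f p) :=
  ⟨fun e => ⟨e.1, h.trans e.2⟩, by fun_prop⟩

/-- The homotopy fibre over `p`. -/
abbrev Hof (f : C(E, P)) (p : P) : Type := {z : E × C(I, P) // z.2 0 = f z.1 ∧ z.2 1 = p}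

/-- The jump at time `1/2` from a point over `p` to `p`. -/
def jumpFun (f : C(E, P)) (p : P) : C(VSpace f p × I, P) where
  toFun q := if (q.2 : ℝ) < 1 / 2 then f q.1.1 else p
  continuous_toFun := by
    refine continuous_of_eventually_le fun q => ?_
    by_cases hq : (q.2 : ℝ) < 1 / 2
    · simp only [if_pos hq]
      have ho : IsOpen {r : VSpace f p × I | (r.2 : ℝ) < 1 / 2} :=
        isOpen_lt (by fun_prop) continuous_const
      have hc : Continuous fun r : VSpace f p × I => f r.1.1 := by fun_prop
      filter_upwards [eventually_le_apply hc q, ho.mem_nhds hq] with r hr hr'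
      rw [if_pos hr']
      exact hr
    · simp only [if_neg hq]
      refine Eventually.of_forall fun r => ?_
      split_ifs
      · exact r.1.2
      · exact le_rfl

theorem jumpFun_apply (f : C(E, P)) (p : P) (e : VSpace f p) (t : I) :
    jumpFun f p (e, t) = if (t : ℝ) < 1 / 2 then f e.1 else p := rfl

/-- The comparison of the piece over `p` with the homotopy fibre. -/
def toHof (f : C(E, P)) (p : P) : C(VSpace f p, Hof f p) :=
  ⟨fun e => ⟨(e.1, (jumpFun f p).curry e), by
    rw [ContinuousMap.curry_apply, jumpFun_apply, if_pos (by norm_num)], by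
    rw [ContinuousMap.curry_apply, jumpFun_apply, if_neg (by norm_num)]⟩, by fun_prop⟩

omit [TopologicalSpace P] [Topology.IsUpperSet P] in
theorem exists_max_of_chain {ι : Type*} {s : Finset ι} (hs : s.Nonempty) (v : ι → P)
    (hc : ∀ i ∈ s, ∀ j ∈ s, v i ≤ v j ∨ v j ≤ v i) : ∃ i ∈ s, ∀ j ∈ s, v j ≤ v i := by
  classical
  induction hs using Finset.Nonempty.cons_induction with
  | singleton a =>
    exact ⟨a, Finset.mem_singleton_self a, fun j hj => by rw [Finset.mem_singleton.1 hj]⟩
  | cons a s ha hs ih =>
    obtain ⟨i, hi, hmax⟩ := ih fun x hx y hy =>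
      hc x (Finset.mem_cons_of_mem hx) y (Finset.mem_cons_of_mem hy)
    rcases hc a (Finset.mem_cons_self a s) i (Finset.mem_cons_of_mem hi) with h | h
    · refine ⟨i, Finset.mem_cons_of_mem hi, fun j hj => ?_⟩
      rcases Finset.mem_cons.1 hj with rfl | hj
      · exact h
      · exact hmax j hj
    · refine ⟨a, Finset.mem_cons_self a s, fun j hj => ?_⟩
      rcases Finset.mem_cons.1 hj with rfl | hj
      · exact le_rfl
      · exact (hmax j hj).trans h

end Vale.Agent.P259
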